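import Vale.Agent.P046.Sharp.State

/-! P046: four-cycles of triangles: decay in one step, initial count and degenerate cases. -/

open Finset

namespace Vale.Agent.P046.Sharp

variable {α : Type*} [DecidableEq α] [Fintype α] {G B : Finset (Finset α)} {e f h g : Finset α}

theorem mem_nbrs : f ∈ nbrs G e ↔ ∃ k ∈ tri G, e ∈ sides k ∧ f ∈ sides k ∧ f ≠ e := by
  simp only [nbrs, mem_biUnion, mem_filter, mem_erase]
  constructor
  · rintro ⟨k, ⟨h1, h2⟩, h3, h4⟩; exact ⟨k, h1, h2, h4, h3⟩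
  · rintro ⟨k, h1, h2, h4, h3⟩; exact ⟨k, ⟨h1, h2⟩, h3, h4⟩

theorem nbrs_symm : f ∈ nbrs G e ↔ e ∈ nbrs G f := by
  simp only [mem_nbrs, ne_comm (a := f)]
  exact exists_congr fun k => by tauto

theorem span_comm (G : Finset (Finset α)) (e f : Finset α) : span G e f = span G f e := by
  simp only [span, and_comm (a := e ∈ sides _)]

theorem span_eq {k : Finset α} (hk : k ∈ tri G) (he : e ∈ sides k) (hf : f ∈ sides k)
    (hne : f ≠ e) : span G e f = sides k := by
  have h : (tri G).filter (fun k => e ∈ sides k ∧ f ∈ sides k) = {k} := by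
    ext a
    simp only [mem_filter, mem_singleton]
    exact ⟨fun h => eq_of_two_sides h.1 hk hne h.2.2 h.2.1 hf he, fun h => h ▸ ⟨hk, he, hf⟩⟩
  rw [span, h, singleton_biUnion]

theorem span_subset (G : Finset (Finset α)) (e f : Finset α) : span G e f ⊆ G :=
  biUnion_subset.2 fun _ hk => (mem_tri.1 (mem_filter.1 hk).1).2

theorem card_span_le (hne : f ≠ e) : (span G e f).card ≤ 3 := by
  by_cases h : ∃ k ∈ tri G, e ∈ sides k ∧ f ∈ sides k
  · obtain ⟨k, hk, he, hf⟩ := h
    rw [span_eq hk he hf hne, card_sides hk]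
  · rw [span, filter_eq_empty_iff.2 fun k hk hk' => h ⟨k, hk, hk'⟩]
    simp

theorem card_nbrs_le (G : Finset (Finset α)) (e : Finset α) :
    (nbrs G e).card ≤ 2 * deg G e := by
  rw [mul_comm]
  refine card_biUnion_le_card_mul _ _ 2 fun k hk => ?_
  simp only [mem_filter] at hk
  rw [card_erase_of_mem hk.2, card_sides hk.1]

theorem mem_quads {c : (Finset α × Finset α) × (Finset α × Finset α)} :
    c ∈ quads G ↔ (c.1.1 ∈ G ∧ c.1.2 ∈ G ∧ c.2.1 ∈ G ∧ c.2.2 ∈ G) ∧ c.1.1 ≠ c.1.2 ∧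
      c.2.1 ≠ c.2.2 ∧ c.2.1 ∈ nbrs G c.1.1 ∧ c.2.2 ∈ nbrs G c.1.1 ∧ c.2.1 ∈ nbrs G c.1.2 ∧
      c.2.2 ∈ nbrs G c.1.2 := by
  simp only [quads, mem_filter, mem_product, and_assoc]

/-- The four triangles of a quadruple. -/
theorem quad_tris {c : (Finset α × Finset α) × (Finset α × Finset α)} (hc : c ∈ quads G) :
    ∃ a b p q, (a ∈ tri G ∧ b ∈ tri G ∧ p ∈ tri G ∧ q ∈ tri G) ∧
      (c.1.1 ∈ sides a ∧ c.2.1 ∈ sides a ∧ span G c.1.1 c.2.1 = sides a) ∧
      (c.1.1 ∈ sides b ∧ c.2.2 ∈ sides b ∧ span G c.1.1 c.2.2 = sides b) ∧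
      (c.1.2 ∈ sides p ∧ c.2.1 ∈ sides p ∧ span G c.1.2 c.2.1 = sides p) ∧
      (c.1.2 ∈ sides q ∧ c.2.2 ∈ sides q ∧ span G c.1.2 c.2.2 = sides q) := by
  obtain ⟨-, -, -, h1, h2, h3, h4⟩ := mem_quads.1 hc
  obtain ⟨a, ha, a1, a2, a3⟩ := mem_nbrs.1 h1
  obtain ⟨b, hb, b1, b2, b3⟩ := mem_nbrs.1 h2
  obtain ⟨p, hp, p1, p2, p3⟩ := mem_nbrs.1 h3
  obtain ⟨q, hq, q1, q2, q3⟩ := mem_nbrs.1 h4
  exact ⟨a, b, p, q, ⟨ha, hb, hp, hq⟩, ⟨a1, a2, span_eq ha a1 a2 a3⟩,
    ⟨b1, b2, span_eq hb b1 b2 b3⟩, ⟨p1, p2, span_eq hp p1 p2 p3⟩, ⟨q1, q2, span_eq hq q1 q2 q3⟩⟩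

theorem support_subset (G : Finset (Finset α))
    (c : (Finset α × Finset α) × (Finset α × Finset α)) : support G c ⊆ G := by
  simp only [support, union_subset_iff, span_subset, and_self]

/-! ### (i) one step -/

theorem cycles_next {G' B' : Finset (Finset α)} (hG : G' ⊆ G) (hB : B ⊆ B')
    {c : (Finset α × Finset α) × (Finset α × Finset α)} (hc : c ∈ cycles G' B') :
    c ∈ cycles G B ∧ support G c ⊆ G' \ B' := by
  have htri : tri G' ⊆ tri G := fun k hk =>
    mem_tri.2 ⟨(mem_tri.1 hk).1, (mem_tri.1 hk).2.trans hG⟩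
  have hnb : ∀ {x y : Finset α}, y ∈ nbrs G' x →
      y ∈ nbrs G x ∧ span G' x y = span G x y := by
    intro x y h
    obtain ⟨k, hk, h1, h2, h3⟩ := mem_nbrs.1 h
    exact ⟨mem_nbrs.2 ⟨k, htri hk, h1, h2, h3⟩,
      (span_eq hk h1 h2 h3).trans (span_eq (htri hk) h1 h2 h3).symm⟩
  simp only [cycles, mem_filter] at hc ⊢
  obtain ⟨hq, h8, hsub⟩ := hc
  obtain ⟨⟨m1, m2, m3, m4⟩, n1, n2, h1, h2, h3, h4⟩ := mem_quads.1 hq
  have e : support G' c = support G c := by
    simp only [support, (hnb h1).2, (hnb h2).2, (hnb h3).2, (hnb h4).2]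
  rw [e] at h8 hsub
  exact ⟨⟨mem_quads.2 ⟨⟨hG m1, hG m2, hG m3, hG m4⟩, n1, n2, (hnb h1).1, (hnb h2).1, (hnb h3).1,
    (hnb h4).1⟩, h8, hsub.trans (sdiff_subset_sdiff hG hB)⟩, hsub⟩

theorem deg_le_meet (G S : Finset (Finset α)) :
    (∑ e ∈ S, (deg G e : ℝ)) ≤ ((tri G).filter fun t => ¬ Disjoint (sides t) S).card
      + (S.card.choose 2 : ℕ) := by
  induction S using Finset.induction with
  | empty => simp
  | @insert a S ha ih =>
    set M := (tri G).filter fun t => ¬ Disjoint (sides t) S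
    set A := (tri G).filter (a ∈ sides ·)
    have hu : (tri G).filter (fun t => ¬ Disjoint (sides t) (insert a S)) = A ∪ M := by
      ext t
      simp only [A, M, mem_union, mem_filter, not_disjoint_iff, mem_insert]
      constructor
      · rintro ⟨ht, x, hx, rfl | hx'⟩
        · exact .inl ⟨ht, hx⟩
        · exact .inr ⟨ht, x, hx, hx'⟩
      · rintro (⟨ht, hx⟩ | ⟨ht, x, hx, hx'⟩)
        · exact ⟨ht, a, hx, .inl rfl⟩
        · exact ⟨ht, x, hx, .inr hx'⟩
    have hi : (A ∩ M).card ≤ S.card := by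
      refine (card_le_card (t := S.biUnion fun x => A.filter (x ∈ sides ·)) ?_).trans
        ((card_biUnion_le_card_mul _ _ 1 fun x hx => ?_).trans (mul_one _).le)
      · intro t ht
        obtain ⟨hA, hM⟩ := mem_inter.1 ht
        obtain ⟨x, hx, hx'⟩ := not_disjoint_iff.1 (mem_filter.1 hM).2
        exact mem_biUnion.2 ⟨x, hx', mem_filter.2 ⟨hA, hx⟩⟩
      · refine card_le_one.2 fun s hs t ht => ?_
        simp only [A, mem_filter] at hs ht
        exact eq_of_two_sides hs.1.1 ht.1.1 (fun (e : x = a) => ha (e ▸ hx)) hs.2 hs.1.2 ht.2 ht.1.2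
    have key : deg G a + M.card ≤ (A ∪ M).card + S.card := by
      have := card_union_add_card_inter A M
      change A.card + M.card ≤ _
      omega
    rw [hu, sum_insert ha, card_insert_of_notMem ha, Nat.choose_succ_succ' S.card 1,
      Nat.choose_one_right]
    have key' : (deg G a : ℝ) + M.card ≤ (A ∪ M).card + S.card := by exact_mod_cast key
    push_cast
    linarith

/-- (i) The mean number of untainted cycles falls by the factor `1 - (7.2Y - 28)/Q`. -/
theorem cycles_decay {Y : ℝ} (hY : 0 < Y)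
    (flat : ∀ e ∈ G, e ∉ B → |zeta G Y e - 1| ≤ 1/10) (G' B' : Finset α → Finset (Finset α))
    (hG' : ∀ t ∈ tri G, G' t ⊆ G \ sides t) (hB' : ∀ t ∈ tri G, B ⊆ B' t) :
    ∑ t ∈ tri G, ((cycles (G' t) (B' t)).card : ℝ)
      ≤ (triNum G - (36/5 * Y - 28)) * ((cycles G B).card : ℝ) := by
  have h1 : ∀ t ∈ tri G, ((cycles (G' t) (B' t)).card : ℝ)
      ≤ ∑ c ∈ cycles G B, if Disjoint (sides t) (support G c) then (1 : ℝ) else 0 := by
    intro t ht
    rw [sum_boole]
    refine Nat.cast_le.2 (card_le_card fun c hc => ?_)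
    obtain ⟨hc', hs⟩ := cycles_next ((hG' t ht).trans sdiff_subset) (hB' t ht) hc
    refine mem_filter.2 ⟨hc', disjoint_left.2 fun x hx hx' => ?_⟩
    exact (mem_sdiff.1 (hG' t ht (mem_sdiff.1 (hs hx')).1)).2 hx
  refine (sum_le_sum h1).trans ?_
  rw [sum_comm, mul_comm, ← nsmul_eq_mul, ← sum_const]
  refine sum_le_sum fun c hc => ?_
  obtain ⟨-, h8, hsub⟩ := mem_filter.1 hc
  have hd : 36/5 * Y ≤ ∑ e ∈ support G c, (deg G e : ℝ) := by
    have : ∀ e ∈ support G c, 9/10 * Y ≤ (deg G e : ℝ) := by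
      intro e he
      obtain ⟨hG, hB⟩ := mem_sdiff.1 (hsub he)
      have := (abs_le.1 (flat e hG hB)).1
      rw [zeta] at this
      have h2 : (9/10 : ℝ) ≤ deg G e / Y := by linarith
      rwa [le_div_iff₀ hY] at h2
    have := card_nsmul_le_sum _ _ _ this
    rw [h8, nsmul_eq_mul] at this
    push_cast at this
    linarith
  have hm := deg_le_meet G (support G c)
  rw [h8, show Nat.choose 8 2 = 28 by decide] at hm
  have hsplit : ((((tri G).filter fun t => Disjoint (sides t) (support G c)).card : ℕ) : ℝ)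
      + (((tri G).filter fun t => ¬ Disjoint (sides t) (support G c)).card : ℕ) = triNum G := by
    rw [triNum, ← Nat.cast_add, card_filter_add_card_filter_not]
  rw [sum_boole]
  push_cast at hm
  linarith

/-! ### (ii) the complete graph -/

theorem cycles_complete_le (n : ℕ) (B : Finset (Finset (Fin n))) :
    ((cycles (complete n) B).card : ℝ) ≤ 8 * (n : ℝ) ^ 5 := by
  refine le_trans (Nat.cast_le.2 (card_filter_le _ _)) ?_
  set E := complete n with hE
  let adj : Finset (Fin n) → Finset (Finset (Fin n)) :=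
    fun e => (e ×ˢ univ).image fun x => {x.1, x.2}
  let U1 := E.biUnion fun e => (adj e).biUnion fun h =>
    (nbrs E e ×ˢ nbrs E e).image fun x => ((e, h), x)
  let cr : Finset (Fin n) → Finset (Fin n) → Finset (Finset (Fin n)) :=
    fun e h => (e ×ˢ h).image fun x => {x.1, x.2}
  let U2 := E.biUnion fun e => E.biUnion fun h => (cr e h ×ˢ cr e h).image fun x => ((e, h), x)
  have two : ∀ e ∈ E, e.card = 2 := fun e he => by simpa [hE, complete] using he
  have sub : quads E ⊆ U1 ∪ U2 := by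
    rintro ⟨⟨e, h⟩, f, g⟩ hc
    obtain ⟨⟨me, mh, -, -⟩, -, -, h1, h2, h3, h4⟩ := mem_quads.1 hc
    by_cases hd : Disjoint e h
    · refine mem_union_right _ ?_
      have key : ∀ {x}, x ∈ nbrs E e → x ∈ nbrs E h → x ∈ cr e h := by
        intro x hx hx'
        have meet : ∀ {y}, x ∈ nbrs E y → ∃ v ∈ x, v ∈ y := by
          intro y hy
          obtain ⟨k, hk, hy', hxk, -⟩ := mem_nbrs.1 hy
          simp only [sides, mem_powersetCard] at hy' hxk
          refine not_disjoint_iff.1 fun hdj => ?_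
          have := card_le_card (union_subset hxk.1 hy'.1)
          rw [card_union_of_disjoint hdj, hxk.2, hy'.2, (mem_tri.1 hk).1] at this
          omega
        obtain ⟨v, hv, hve⟩ := meet hx
        obtain ⟨w, hw, hwh⟩ := meet hx'
        have hvw : v ≠ w := fun e' => disjoint_left.1 hd hve (e' ▸ hwh)
        have h2 : x.card = 2 := by
          obtain ⟨k, -, -, hxk, -⟩ := mem_nbrs.1 hx
          exact (mem_powersetCard.1 hxk).2
        refine mem_image.2 ⟨(v, w), mem_product.2 ⟨hve, hwh⟩, ?_⟩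
        exact eq_of_subset_of_card_le (insert_subset hv (singleton_subset_iff.2 hw))
          (by rw [h2, card_pair hvw])
      exact mem_biUnion.2 ⟨e, me, mem_biUnion.2 ⟨h, mh,
        mem_image.2 ⟨(f, g), mem_product.2 ⟨key h1 h3, key h2 h4⟩, rfl⟩⟩⟩
    · refine mem_union_left _ ?_
      obtain ⟨v, hve, hvh⟩ := not_disjoint_iff.1 hd
      have hw : h.erase v |>.Nonempty := by
        rw [← card_pos, card_erase_of_mem hvh, two h mh]; norm_num
      obtain ⟨w, hw⟩ := hw
      have : h ∈ adj e := by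
        refine mem_image.2 ⟨(v, w), mem_product.2 ⟨hve, mem_univ _⟩, ?_⟩
        exact eq_of_subset_of_card_le (insert_subset hvh (singleton_subset_iff.2 (erase_subset _ _ hw)))
          (by rw [two h mh, card_pair (ne_of_mem_erase hw).symm])
      exact mem_biUnion.2 ⟨e, me, mem_biUnion.2 ⟨h, this,
        mem_image.2 ⟨(f, g), mem_product.2 ⟨h1, h2⟩, rfl⟩⟩⟩
  have c1 : U1.card ≤ E.card * ((2 * n) * ((2 * n) * (2 * n))) := by
    refine card_biUnion_le_card_mul _ _ _ fun e he => ?_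
    refine (card_biUnion_le_card_mul _ _ ((2 * n) * (2 * n)) fun h _ => ?_).trans
      (Nat.mul_le_mul_right _ (card_image_le.trans (by simp [two e he])))
    refine card_image_le.trans ?_
    rw [card_product]
    have : (nbrs E e).card ≤ 2 * n := (card_nbrs_le E e).trans (by rw [deg_complete he]; omega)
    exact Nat.mul_le_mul this this
  have c2 : U2.card ≤ E.card * (E.card * 16) := by
    refine card_biUnion_le_card_mul _ _ _ fun e he =>
      card_biUnion_le_card_mul _ _ _ fun h hh => ?_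
    refine card_image_le.trans ?_
    rw [card_product]
    have : (cr e h).card ≤ 4 := card_image_le.trans (by simp [two e he, two h hh])
    exact Nat.mul_le_mul this this
  have cE : 2 * E.card ≤ n ^ 2 := by
    rw [hE, complete, card_powersetCard, card_univ, Fintype.card_fin, Nat.choose_two_right]
    have := Nat.mul_div_le (n * (n - 1)) 2
    have : n * (n - 1) ≤ n * n := Nat.mul_le_mul_left _ (Nat.sub_le n 1)
    rw [pow_two]
    omega
  have : (quads E).card ≤ 8 * n ^ 5 := by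
    refine (card_le_card sub).trans ((card_union_le _ _).trans ?_)
    rcases Nat.eq_zero_or_pos n with rfl | hn
    · have : E.card = 0 := by simpa using cE
      simp [this] at c1 c2
      simp [c1, c2]
    nlinarith [Nat.mul_le_mul_right (4 * n ^ 3) cE, Nat.mul_le_mul cE cE,
      Nat.pow_le_pow_right hn (show 4 ≤ 5 by norm_num)]
  exact_mod_cast this

/-! ### (iii) quadruples that are not cycles -/

section Count

open Classical in
/-- Quadruples with untainted `e, f, g`; the fourth corner is free. -/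
noncomputable def clean (G B : Finset (Finset α)) :
    Finset ((Finset α × Finset α) × (Finset α × Finset α)) :=
  (quads G).filter fun c => c.1.1 ∉ B ∧ c.2.1 ∉ B ∧ c.2.2 ∉ B

theorem card_biUnion_real_le {ι κ : Type*} [DecidableEq κ] (s : Finset ι) (F : ι → Finset κ)
    (c : ι → ℝ) (h : ∀ a ∈ s, ((F a).card : ℝ) ≤ c a) :
    ((s.biUnion F).card : ℝ) ≤ ∑ a ∈ s, c a :=
  le_trans (by exact_mod_cast card_biUnion_le) (sum_le_sum h)

theorem card_biUnion_const {ι κ : Type*} [DecidableEq κ] {s : Finset ι} {F : ι → Finset κ}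
    {b c : ℝ} (hs : (s.card : ℝ) ≤ b) (hc : 0 ≤ c) (h : ∀ a ∈ s, ((F a).card : ℝ) ≤ c) :
    ((s.biUnion F).card : ℝ) ≤ b * c :=
  (card_biUnion_real_le s F _ h).trans (by
    rw [sum_const, nsmul_eq_mul]; exact mul_le_mul_of_nonneg_right hs hc)

theorem support_card_eight {c : (Finset α × Finset α) × (Finset α × Finset α)} (hc : c ∈ quads G)
    (n1 : c.1.2 ∉ span G c.1.1 c.2.1) (n2 : c.1.2 ∉ span G c.1.1 c.2.2)
    (n3 : ∀ x ∈ span G c.1.1 c.2.1 ∪ span G c.1.2 c.2.1, x ≠ c.1.1 → x ∉ span G c.1.1 c.2.2)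
    (n4 : ∀ x ∈ span G c.1.1 c.2.1 ∪ span G c.1.2 c.2.1, x ≠ c.1.2 → x ∉ span G c.1.2 c.2.2) :
    (support G c).card = 8 := by
  obtain ⟨a, b, p, q, ⟨ha, hb, hp, hq⟩, ⟨a1, a2, A⟩, ⟨b1, b2, B'⟩, ⟨p1, p2, P⟩, ⟨q1, q2, Q⟩⟩ :=
    quad_tris hc
  obtain ⟨-, hne, -⟩ := mem_quads.1 hc
  obtain ⟨⟨e, h⟩, f, g⟩ := c
  dsimp only at *
  rw [A] at n1
  rw [B'] at n2
  rw [A, P, B'] at n3
  rw [A, P, Q] at n4
  have i1 : sides a ∩ sides p = {f} := by
    refine eq_singleton_iff_unique_mem.2 ⟨mem_inter.2 ⟨a2, p2⟩, fun x hx => ?_⟩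
    exact card_le_one.1 (card_inter_sides ha hp fun e' => n1 (e' ▸ p1)) x hx f
      (mem_inter.2 ⟨a2, p2⟩)
  have i2 : sides b ∩ sides q = {g} := by
    refine eq_singleton_iff_unique_mem.2 ⟨mem_inter.2 ⟨b2, q2⟩, fun x hx => ?_⟩
    exact card_le_one.1 (card_inter_sides hb hq fun e' => n2 (e' ▸ q1)) x hx g
      (mem_inter.2 ⟨b2, q2⟩)
  have i3 : (sides a ∪ sides p) ∩ (sides b ∪ sides q) = {e, h} := by
    refine subset_antisymm (fun x hx => ?_) ?_
    · obtain ⟨hx1, hx2⟩ := mem_inter.1 hx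
      rw [mem_insert, mem_singleton]
      rcases mem_union.1 hx2 with h' | h'
      · exact .inl (by_contra fun hn => n3 x hx1 hn h')
      · exact .inr (by_contra fun hn => n4 x hx1 hn h')
    · exact insert_subset (mem_inter.2 ⟨mem_union_left _ a1, mem_union_left _ b1⟩)
        (singleton_subset_iff.2 (mem_inter.2 ⟨mem_union_right _ p1, mem_union_right _ q1⟩))
  have e0 : support G ((e, h), f, g) = (sides a ∪ sides p) ∪ (sides b ∪ sides q) := by
    simp only [support, A, B', P, Q]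
    exact union_union_union_comm _ _ _ _
  have u1 := card_union_add_card_inter (sides a) (sides p)
  have u2 := card_union_add_card_inter (sides b) (sides q)
  have u3 := card_union_add_card_inter (sides a ∪ sides p) (sides b ∪ sides q)
  rw [i1, card_singleton, card_sides ha, card_sides hp] at u1
  rw [i2, card_singleton, card_sides hb, card_sides hq] at u2
  rw [i3, card_pair hne] at u3
  rw [e0]
  omega

open Classical in
/-- (iii) All but few quadruples with untainted `e, f, g` are untainted cycles. -/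
theorem clean_le {Y : ℝ} (hY : 0 < Y) (flat : ∀ e ∈ G, e ∉ B → |zeta G Y e - 1| ≤ 1/10) :
    ((clean G B).card : ℝ) ≤ (cycles G B).card
      + 200 * Y ^ 3 * ∑ e ∈ G ∩ B, zeta G Y e + 300 * Y ^ 2 * (G.card : ℝ) := by
  set L : ℝ := 11/5 * Y with hL
  have hL0 : 0 ≤ L := by positivity
  have hN : ∀ {x}, x ∈ G \ B → ((nbrs G x).card : ℝ) ≤ L := by
    intro x hx
    obtain ⟨hxG, hxB⟩ := mem_sdiff.1 hx
    have h1 : ((nbrs G x).card : ℝ) ≤ 2 * deg G x := by exact_mod_cast card_nbrs_le G x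
    have h2 := (abs_le.1 (flat x hxG hxB)).2
    rw [zeta] at h2
    have h3 : (deg G x : ℝ) / Y ≤ 11/10 := by linarith
    rw [div_le_iff₀ hY] at h3
    linarith
  have hN' : ∀ {x y}, y ∈ nbrs G x \ B → y ∈ G \ B := by
    intro x y hy
    obtain ⟨h1, h2⟩ := mem_sdiff.1 hy
    obtain ⟨k, hk, -, h3, -⟩ := mem_nbrs.1 h1
    exact mem_sdiff.2 ⟨(mem_tri.1 hk).2 h3, h2⟩
  have hN'' : ∀ {x}, x ∈ G \ B → (((nbrs G x) \ B).card : ℝ) ≤ L := fun hx =>
    le_trans (Nat.cast_le.2 (card_le_card sdiff_subset)) (hN hx)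
  -- a corner inside one of the triangles at the opposite corner
  let S1 := (G \ B).biUnion fun e => (nbrs G e).biUnion fun f => (nbrs G e).biUnion fun g =>
    ((span G e f ∪ span G e g)).image fun h => ((e, h), (f, g))
  -- the second path is fixed by the first
  let S2 := (G \ B).biUnion fun e => (nbrs G e \ B).biUnion fun f => (nbrs G f).biUnion fun h =>
    (((span G e f ∪ span G h f).erase e).biUnion (span G e) ∪
      ((span G e f ∪ span G h f).erase h).biUnion (span G h)).image fun g => ((e, h), (f, g))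
  -- a tainted edge
  let S3 := (G ∩ B).biUnion fun x => ((tri G).filter (x ∈ sides ·)).biUnion fun k =>
    ((sides k \ B).biUnion fun p => (sides k).biUnion fun q =>
      (if p ∈ G then
        (if q ∈ G \ B then
          ((nbrs G q).biUnion fun h => (nbrs G p).image fun g => ((p, h), (q, g))) ∪
          ((nbrs G q).biUnion fun h => (nbrs G p).image fun f => ((p, h), (f, q))) else ∅) ∪
        ((nbrs G p \ B).biUnion fun e => (nbrs G e).image fun g => ((e, q), (p, g))) ∪
        ((nbrs G p \ B).biUnion fun e => (nbrs G e).image fun f => ((e, q), (f, p)))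
      else ∅))
  have sub : clean G B ⊆ cycles G B ∪ S3 ∪ (S1 ∪ S2) := by
    intro c hc
    obtain ⟨hq, he, hf, hg⟩ := mem_filter.1 hc
    obtain ⟨a, b, p, q, ⟨ha, hb, hp, hq'⟩, ⟨a1, a2, A⟩, ⟨b1, b2, B'⟩, ⟨p1, p2, P⟩, ⟨q1, q2, Q⟩⟩ :=
      quad_tris hq
    obtain ⟨⟨me, mh, mf, mg⟩, hne, hne', h1, h2, h3, h4⟩ := mem_quads.1 hq
    obtain ⟨⟨e, h⟩, f, g⟩ := c
    dsimp only at *
    by_cases h8 : (support G ((e, h), f, g)).card = 8
    · by_cases hsub : support G ((e, h), f, g) ⊆ G \ B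
      · exact mem_union_left _ (mem_union_left _ (mem_filter.2 ⟨hq, h8, hsub⟩))
      obtain ⟨x, hx, hxB⟩ := not_subset.1 hsub
      have hxG : x ∈ G := support_subset _ _ hx
      have hxB' : x ∈ B := by_contra fun h' => hxB (mem_sdiff.2 ⟨hxG, h'⟩)
      refine mem_union_left _ (mem_union_right _ ?_)
      simp only [S3, mem_biUnion, mem_inter]
      refine ⟨x, ⟨hxG, hxB'⟩, ?_⟩
      simp only [support, A, B', P, Q, mem_union] at hx
      rcases hx with (hx | hx) | (hx | hx)
      · refine ⟨a, mem_filter.2 ⟨ha, hx⟩, e, mem_sdiff.2 ⟨a1, he⟩, f, a2, ?_⟩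
        rw [if_pos me, if_pos (mem_sdiff.2 ⟨mf, hf⟩)]
        exact mem_union_left _ (mem_union_left _ (mem_union_left _ (mem_biUnion.2
          ⟨h, nbrs_symm.1 h3, mem_image.2 ⟨g, h2, rfl⟩⟩)))
      · refine ⟨b, mem_filter.2 ⟨hb, hx⟩, e, mem_sdiff.2 ⟨b1, he⟩, g, b2, ?_⟩
        rw [if_pos me, if_pos (mem_sdiff.2 ⟨mg, hg⟩)]
        exact mem_union_left _ (mem_union_left _ (mem_union_right _ (mem_biUnion.2
          ⟨h, nbrs_symm.1 h4, mem_image.2 ⟨f, h1, rfl⟩⟩)))
      · refine ⟨p, mem_filter.2 ⟨hp, hx⟩, f, mem_sdiff.2 ⟨p2, hf⟩, h, p1, ?_⟩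
        rw [if_pos mf]
        exact mem_union_left _ (mem_union_right _ (mem_biUnion.2
          ⟨e, mem_sdiff.2 ⟨nbrs_symm.1 h1, he⟩, mem_image.2 ⟨g, h2, rfl⟩⟩))
      · refine ⟨q, mem_filter.2 ⟨hq', hx⟩, g, mem_sdiff.2 ⟨q2, hg⟩, h, q1, ?_⟩
        rw [if_pos mg]
        exact mem_union_right _ (mem_biUnion.2
          ⟨e, mem_sdiff.2 ⟨nbrs_symm.1 h2, he⟩, mem_image.2 ⟨f, h1, rfl⟩⟩)
    refine mem_union_right _ ?_
    by_cases n12 : h ∈ span G e f ∪ span G e g
    · refine mem_union_left _ ?_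
      simp only [S1, mem_biUnion]
      exact ⟨e, mem_sdiff.2 ⟨me, he⟩, f, h1, g, h2, mem_image.2 ⟨h, n12, rfl⟩⟩
    refine mem_union_right _ ?_
    simp only [S2, mem_biUnion]
    refine ⟨e, mem_sdiff.2 ⟨me, he⟩, f, mem_sdiff.2 ⟨h1, hf⟩, h, nbrs_symm.1 h3,
      mem_image.2 ⟨g, ?_, rfl⟩⟩
    by_contra hg'
    simp only [mem_union, mem_biUnion, mem_erase, not_or] at n12 hg'
    refine h8 (support_card_eight hq n12.1 n12.2 (fun x hx hxe hx' => hg'.1 ?_)
      fun x hx hxh hx' => hg'.2 ?_)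
    · dsimp only at hx hxe hx'
      rw [B'] at hx'
      exact ⟨x, ⟨hxe, mem_union.1 hx⟩, by rw [span_eq hb b1 hx' hxe]; exact b2⟩
    · dsimp only at hx hxh hx'
      rw [Q] at hx'
      exact ⟨x, ⟨hxh, mem_union.1 hx⟩, by rw [span_eq hq' q1 hx' hxh]; exact q2⟩
  have hm : (((G \ B).card : ℕ) : ℝ) ≤ G.card := Nat.cast_le.2 (card_le_card sdiff_subset)
  have c1 : (S1.card : ℝ) ≤ (G.card : ℝ) * (L * (L * 6)) := by
    refine card_biUnion_const hm (by positivity) fun e he => ?_
    refine card_biUnion_const (hN he) (by positivity) fun f hf => ?_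
    refine card_biUnion_const (hN he) (by norm_num) fun g hg => ?_
    have := card_union_le (span G e f) (span G e g)
    have := card_span_le (G := G) ((mem_nbrs.1 hf).choose_spec.2.2.2)
    have := card_span_le (G := G) ((mem_nbrs.1 hg).choose_spec.2.2.2)
    calc _ ≤ ((span G e f ∪ span G e g).card : ℝ) := Nat.cast_le.2 card_image_le
      _ ≤ 6 := by exact_mod_cast (by omega : (span G e f ∪ span G e g).card ≤ 6)
  have c2 : (S2.card : ℝ) ≤ (G.card : ℝ) * (L * (L * 36)) := by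
    refine card_biUnion_const hm (by positivity) fun e he => ?_
    refine card_biUnion_const (hN'' he) (by positivity) fun f hf => ?_
    refine card_biUnion_const (hN (hN' hf)) (by norm_num) fun h hh => ?_
    set K := span G e f ∪ span G h f with hK
    have hKc : K.card ≤ 6 := by
      have := card_union_le (span G e f) (span G h f)
      have := card_span_le (G := G) ((mem_nbrs.1 (mem_sdiff.1 hf).1).choose_spec.2.2.2)
      have := card_span_le (G := G) ((mem_nbrs.1 (nbrs_symm.1 hh)).choose_spec.2.2.2)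
      rw [hK]; omega
    have key : ∀ y : Finset α, ((K.erase y).biUnion (span G y)).card ≤ 18 := fun y =>
      (card_biUnion_le_card_mul _ _ 3 fun x hx => card_span_le (ne_of_mem_erase hx)).trans
        (by have := card_erase_le (a := y) (s := K); omega)
    calc _ ≤ (((K.erase e).biUnion (span G e) ∪ (K.erase h).biUnion (span G h)).card : ℝ) :=
          Nat.cast_le.2 card_image_le
      _ ≤ 36 := by
          exact_mod_cast ((card_union_le _ _).trans (Nat.add_le_add (key e) (key h)))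
  have c3 : (S3.card : ℝ) ≤ (∑ x ∈ G ∩ B, (deg G x : ℝ)) * (3 * (3 * (4 * L ^ 2))) := by
    rw [sum_mul]
    refine card_biUnion_real_le _ _ _ fun x _ => ?_
    refine card_biUnion_const le_rfl (by positivity) fun k hk => ?_
    have hk3 := card_sides (mem_filter.1 hk).1
    refine card_biUnion_const ?_ (by positivity) fun p hp => ?_
    · exact_mod_cast (card_le_card sdiff_subset).trans hk3.le
    refine card_biUnion_const (by exact_mod_cast hk3.le) (by positivity) fun q _ => ?_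
    obtain ⟨hpk, hpB⟩ := mem_sdiff.1 hp
    have hpG : p ∈ G := (mem_tri.1 (mem_filter.1 hk).1).2 hpk
    have hp' : p ∈ G \ B := mem_sdiff.2 ⟨hpG, hpB⟩
    rw [if_pos hpG]
    have i1 : ∀ {γ : Type _} [DecidableEq γ] (s : Finset (Finset α))
        (F : Finset α → Finset α → γ), s ⊆ G \ B → (s.card : ℝ) ≤ L →
        ((s.biUnion fun e => (nbrs G e).image (F e)).card : ℝ) ≤ L * L := fun s F hs hc =>
      card_biUnion_const hc hL0 fun e he => le_trans (Nat.cast_le.2 card_image_le) (hN (hs he))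
    have i2 := fun (γ : Type _) (_ : DecidableEq γ) (F : Finset α → Finset α → γ) =>
      i1 (nbrs G p \ B) F (fun y hy => hN' hy) (hN'' hp')
    have u : ∀ {γ : Type _} [DecidableEq γ] (s t : Finset γ) (a b : ℝ), (s.card : ℝ) ≤ a →
        (t.card : ℝ) ≤ b → ((s ∪ t).card : ℝ) ≤ a + b := fun s t a b hs ht =>
      le_trans (by exact_mod_cast card_union_le s t) (add_le_add hs ht)
    refine (u _ _ _ (L ^ 2) (u _ _ (2 * L ^ 2) (L ^ 2) ?_ ?_) ?_).trans (by linarith)
    · split_ifs with hq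
      · refine (u _ _ (L ^ 2) (L ^ 2) ?_ ?_).trans (by linarith) <;>
        · rw [pow_two]
          exact card_biUnion_const (hN hq) hL0 fun h _ =>
            le_trans (Nat.cast_le.2 card_image_le) (hN hp')
      · simp only [card_empty, Nat.cast_zero]; positivity
    · rw [pow_two]; exact i2 _ _ _
    · rw [pow_two]; exact i2 _ _ _
  have hz : ∑ x ∈ G ∩ B, (deg G x : ℝ) = Y * ∑ e ∈ G ∩ B, zeta G Y e := by
    rw [mul_sum]
    refine sum_congr rfl fun x _ => ?_
    simp only [zeta]; field_simp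
  rw [hz] at c3
  have hz0 : 0 ≤ ∑ e ∈ G ∩ B, zeta G Y e :=
    sum_nonneg fun x _ => div_nonneg (Nat.cast_nonneg _) hY.le
  have t0 : ((clean G B).card : ℝ) ≤ (cycles G B).card + S3.card + (S1.card + S2.card) := by
    exact_mod_cast (card_le_card sub).trans ((card_union_le _ _).trans
      (Nat.add_le_add (card_union_le _ _) (card_union_le _ _)))
  rw [hL] at c1 c2 c3
  have p1 : 0 ≤ Y ^ 3 * ∑ e ∈ G ∩ B, zeta G Y e := by positivity
  have p2 : 0 ≤ Y ^ 2 * (G.card : ℝ) := by positivity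
  linarith

end Count

end Vale.Agent.P046.Sharp
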