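import Vale.Agent.P046.Sharp.StepPsi

/-! P046: the drift of the potential of the drift part. -/

open Finset

namespace Vale.Agent.P046.Sharp

variable {α : Type*} [DecidableEq α] [Fintype α] {G B : Finset (Finset α)} {Y : ℝ}
  {w : Finset α → ℝ} {t k e : Finset α}

theorem Dense.uu_next (h : Dense G B Y w) (he : e ∉ sides t) :
    uu (G \ sides t) (nextY G Y) (nextW G B Y w t) e = uu G Y w e
      + ((1 - w e) * hh G Y t e - zeta G Y e * dw G B Y w t e
        - hh G Y t e * dw G B Y w t e) := by
  rw [uu, uu, h.zeta_next he, nextW]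
  ring

/-- The error term of one side of one triangle. -/
noncomputable def lin (G : Finset (Finset α)) (Y : ℝ) (w : Finset α → ℝ) (k e : Finset α) : ℝ :=
  |dphi (uu G Y w e)| * (3 / Y + 7 / Y * side G Y k)
    + 4 * cap Y * ∑ j ∈ sides k, |dphi (uu G Y w e)| * |zeta G Y j - 1|

theorem Dense.cross_le (h : Dense G B Y w) (he : e ∈ G) :
    |∑ t ∈ (tri G).filter (e ∉ sides ·), hh G Y t e * dw G B Y w t e|
      ≤ 5 / Y * ∑ k ∈ (tri G).filter (e ∈ sides ·), side G Y k := by
  have hY := h.pos
  set A := (tri G).filter (e ∉ sides ·) with hA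
  have h0 : ∑ t ∈ A, dw G B Y w t e = 0 := by
    have := sum_dw G B Y w e
    rwa [sum_sides_split _ e, sum_eq_zero (s := (tri G).filter (e ∈ sides ·))
      (fun t ht => dw_sides (mem_filter.1 ht).2), zero_add] at this
  have e1 : ∑ t ∈ A, hh G Y t e * dw G B Y w t e
      = -((1 + drop G Y) / Y * ∑ t ∈ A, dk G t e * dw G B Y w t e) := by
    calc ∑ t ∈ A, hh G Y t e * dw G B Y w t e
        = ∑ t ∈ A, (drop G Y * zeta G Y e * dw G B Y w t e
          + -((1 + drop G Y) / Y * (dk G t e * dw G B Y w t e))) :=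
          sum_congr rfl fun t _ => by rw [hh]; ring
      _ = _ := by rw [sum_add_distrib, ← mul_sum, h0, sum_neg_distrib, ← mul_sum]; ring
  rw [e1, abs_neg, abs_mul, abs_of_nonneg (show 0 ≤ (1 + drop G Y) / Y by
    have := h.drop_nonneg; positivity)]
  have h2 : |∑ t ∈ A, dk G t e * dw G B Y w t e| ≤ 4 / Y * kill G e := by
    rw [← sum_dk_avoid, mul_sum, ← hA]
    refine (abs_sum_le_sum_abs _ _).trans (sum_le_sum fun t ht => ?_)
    rw [abs_mul, abs_of_nonneg (dk_nonneg G t e), mul_comm (4 / Y)]
    exact mul_le_mul_of_nonneg_left (h.dw_abs_le (mem_filter.1 ht).1 e) (dk_nonneg G t e)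
  calc (1 + drop G Y) / Y * |∑ t ∈ A, dk G t e * dw G B Y w t e|
      ≤ 5/4 / Y * (4 / Y * kill G e) :=
        mul_le_mul (div_le_div_of_nonneg_right (by linarith [h.drop_small]) hY.le) h2
          (abs_nonneg _) (by positivity)
    _ ≤ 5/4 / Y * (4 / Y * (Y * ∑ k ∈ (tri G).filter (e ∈ sides ·), side G Y k)) := by
        gcongr; exact h.kill_side he
    _ = _ := by field_simp

/-- The linear part at one edge. -/
theorem Dense.linear_le (h : Dense G B Y w) (he : e ∈ G) :
    dphi (uu G Y w e) * ∑ t ∈ (tri G).filter (e ∉ sides ·),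
        ((1 - w e) * hh G Y t e - zeta G Y e * dw G B Y w t e
          - hh G Y t e * dw G B Y w t e)
      ≤ -(∑ k ∈ (tri G).filter (e ∈ sides ·),
            dphi (uu G Y w e) * (sideA G Y w k - aa G Y w e - 2))
        - Y * (dphi (uu G Y w e) * xx G Y w e)
        + ∑ k ∈ (tri G).filter (e ∈ sides ·), lin G Y w k e := by
  have hY := h.pos
  set A := (tri G).filter (e ∉ sides ·) with hA
  have h0 : ∑ t ∈ A, dw G B Y w t e = 0 := by
    have := sum_dw G B Y w e
    rwa [sum_sides_split _ e, sum_eq_zero (s := (tri G).filter (e ∈ sides ·))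
      (fun t ht => dw_sides (mem_filter.1 ht).2), zero_add] at this
  rw [sum_sub_distrib, sum_sub_distrib, ← mul_sum, ← mul_sum, h0, mul_zero, sub_zero, h.sum_hh he]
  set d := dphi (uu G Y w e) with hd
  set T := (tri G).filter (e ∈ sides ·) with hT
  set σ := 1 + drop G Y with hσ
  have hc := h.cross_le he
  rw [← hA, ← hT] at hc
  have split : ∀ k ∈ T, d * ((1 - w e) * (2 - σ * (side G Y k - zeta G Y e - 2 / Y)
      - drop G Y * zeta G Y e))
      ≤ -(d * (sideA G Y w k - aa G Y w e - 2)) - d * (∑ f ∈ (sides k).erase e, w f)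
        + (|d| * (3 / Y + 2 / Y * side G Y k)
          + 4 * cap Y * ∑ j ∈ sides k, |d| * |zeta G Y j - 1|) := by
    intro k hk
    simp only [hT, mem_filter] at hk
    set E := (sides k).erase e with hE
    set R := w e * (∑ j ∈ E, (zeta G Y j - 1)) - ∑ j ∈ E, (zeta G Y j - 1) * w j with hR
    set Q := (1 - w e) * (2 * σ / Y - drop G Y * side G Y k) with hQ
    have hside : side G Y k = zeta G Y e + ∑ j ∈ E, zeta G Y j := by
      rw [side, hE, add_sum_erase _ _ hk.2]
    have hA' : sideA G Y w k = aa G Y w e + ∑ j ∈ E, aa G Y w j := by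
      rw [sideA, hE, add_sum_erase _ _ hk.2]
    have hcard : (E.card : ℝ) = 2 := by
      rw [hE, card_erase_of_mem hk.2, card_sides hk.1]; norm_num
    have key : (1 - w e) * (2 - σ * (side G Y k - zeta G Y e - 2 / Y) - drop G Y * zeta G Y e)
        = -(sideA G Y w k - aa G Y w e - 2) - (∑ f ∈ E, w f) + R + Q := by
      rw [hQ, hR, hA', hside]
      simp only [aa, sum_sub_distrib, sum_const, nsmul_eq_mul, hcard, mul_sub, sub_mul, one_mul,
        mul_one, sum_sub_distrib]
      rw [hσ]
      ring
    have hR' : |R| ≤ 4 * cap Y * ∑ j ∈ sides k, |zeta G Y j - 1| := by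
      refine le_trans ?_ (mul_le_mul_of_nonneg_left
        (sum_le_sum_of_subset_of_nonneg (show E ⊆ sides k from erase_subset _ _)
          fun j _ _ => abs_nonneg (zeta G Y j - 1)) (by have := cap_pos hY; positivity))
      rw [hR, mul_sum, mul_sum, ← sum_sub_distrib]
      refine (abs_sum_le_sum_abs _ _).trans (sum_le_sum fun j _ => ?_)
      refine (abs_sub _ _).trans ?_
      rw [abs_mul, abs_mul]
      have := mul_le_mul_of_nonneg_right (h.good.small e) (abs_nonneg (zeta G Y j - 1))
      have := mul_le_mul_of_nonneg_left (h.good.small j) (abs_nonneg (zeta G Y j - 1))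
      linarith
    have hQ' : |Q| ≤ 3 / Y + 2 / Y * side G Y k := by
      have hw := abs_le.1 (h.w_small e)
      have hS := side_nonneg' (G := G) hY k
      have hs1 := mul_le_mul_of_nonneg_right h.drop_le_inv hS
      have hs0 : 0 ≤ drop G Y * side G Y k := mul_nonneg h.drop_nonneg hS
      have hσ' : 0 ≤ σ := by rw [hσ]; linarith [h.drop_nonneg]
      rw [hQ, abs_mul]
      calc |1 - w e| * |2 * σ / Y - drop G Y * side G Y k|
          ≤ 501/500 * (2 * σ / Y + drop G Y * side G Y k) := by
            refine mul_le_mul (abs_le.2 ⟨by linarith, by linarith⟩) ?_ (abs_nonneg _) (by norm_num)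
            exact (abs_sub _ _).trans (by
              rw [abs_of_nonneg (show 0 ≤ 2 * σ / Y by positivity), abs_of_nonneg hs0])
        _ ≤ _ := by
            have e1 : 2 * σ / Y ≤ 5/2 / Y :=
              div_le_div_of_nonneg_right (by rw [hσ]; linarith [h.drop_small]) hY.le
            have e2 : (3 : ℝ) / Y = 3 * (1 / Y) := by ring
            have e3 : (5/2 : ℝ) / Y = 5/2 * (1 / Y) := by ring
            have e4 : (2 : ℝ) / Y * side G Y k = 2 * (1 / Y * side G Y k) := by ring
            have : 0 ≤ 1 / Y := by positivity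
            linarith
    rw [key]
    have a1 : d * R ≤ 4 * cap Y * ∑ j ∈ sides k, |d| * |zeta G Y j - 1| := by
      refine (le_abs_self _).trans ?_
      rw [abs_mul, ← mul_sum, mul_left_comm]
      exact mul_le_mul_of_nonneg_left hR' (abs_nonneg _)
    have a2 : d * Q ≤ |d| * (3 / Y + 2 / Y * side G Y k) := by
      refine (le_abs_self _).trans ?_
      rw [abs_mul]; exact mul_le_mul_of_nonneg_left hQ' (abs_nonneg _)
    linarith
  have s1 := sum_le_sum split
  rw [← mul_sum, ← mul_sum] at s1
  simp only [sum_add_distrib, sum_sub_distrib, sum_neg_distrib] at s1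
  have ex : Y * (d * xx G Y w e) = ∑ k ∈ T, d * ∑ f ∈ (sides k).erase e, w f := by
    rw [← mul_sum, xx, ← hT]; field_simp
  have a3 : -(d * ∑ t ∈ A, hh G Y t e * dw G B Y w t e)
      ≤ ∑ k ∈ T, |d| * (5 / Y * side G Y k) := by
    refine (neg_le_abs _).trans ?_
    rw [abs_mul, ← mul_sum, ← mul_sum]
    exact mul_le_mul_of_nonneg_left hc (abs_nonneg _)
  have elin : ∑ k ∈ T, lin G Y w k e = ∑ k ∈ T, |d| * (3 / Y + 2 / Y * side G Y k)
      + ∑ k ∈ T, 4 * cap Y * ∑ j ∈ sides k, |d| * |zeta G Y j - 1|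
      + ∑ k ∈ T, |d| * (5 / Y * side G Y k) := by
    rw [← sum_add_distrib, ← sum_add_distrib]
    exact sum_congr rfl fun k _ => by rw [lin, ← hd]; ring
  rw [mul_sub, ex, elin, sum_sub_distrib (s := T), sum_sub_distrib (s := T)]
  linarith

theorem Dense.sum_lin (h : Dense G B Y w) :
    ∑ t ∈ tri G, ∑ i ∈ sides t, lin G Y w t i ≤ 10 ^ 7 * budget G B Y w := by
  have hY := h.pos
  have hc := cap_pos hY
  obtain ⟨hb0, hbp, hbψ, -⟩ := h.bulk_parts
  have key : ∀ t ∈ tri G, ∑ i ∈ sides t, lin G Y w t i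
      ≤ ∑ i ∈ sides t, (185 * cap Y * phi (uu G Y w i)) + 555 / (cap Y * Y ^ 2)
        + 120 * cap Y * pt G Y w t
        + 4 * cap Y * (12 * ∑ i ∈ sides t, phi (uu G Y w i)
          + 300 * ∑ i ∈ sides t, phi (zeta G Y i - 1)) := by
    intro t ht
    simp only [lin, sum_add_distrib, ← mul_sum]
    refine add_le_add ?_ (mul_le_mul_of_nonneg_left ?_ (by positivity))
    · have hp := (h.pt_bounds ht).1
      have hS := side_nonneg' (G := G) hY t
      rcases le_or_gt (side G Y t) 26 with hs | hs
      · rw [← sum_mul]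
        have h1 : (3 / Y + 7 / Y * side G Y t) ≤ 185 / Y := by
          rw [div_mul_eq_mul_div, ← add_div]; exact div_le_div_of_nonneg_right (by linarith) hY.le
        have h2 : ∀ i, |dphi (uu G Y w i)| * (185 / Y)
            ≤ 185 * cap Y * phi (uu G Y w i) + 185 / (cap Y * Y ^ 2) := fun i => by
          have := dphi_sq_le (uu G Y w i)
          have k1 : |dphi (uu G Y w i)| / Y ≤ cap Y * phi (uu G Y w i) + 1 / (cap Y * Y ^ 2) := by
            rw [← sub_le_iff_le_add', le_div_iff₀ (by positivity), sub_mul,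
              show |dphi (uu G Y w i)| / Y * (cap Y * Y ^ 2)
                = |dphi (uu G Y w i)| * (cap Y * Y) by field_simp]
            nlinarith [sq_nonneg (|dphi (uu G Y w i)| * (cap Y * Y) - 2),
              sq_abs (dphi (uu G Y w i)),
              mul_le_mul_of_nonneg_left this (sq_nonneg (cap Y * Y))]
          calc |dphi (uu G Y w i)| * (185 / Y) = 185 * (|dphi (uu G Y w i)| / Y) := by ring
            _ ≤ 185 * (cap Y * phi (uu G Y w i) + 1 / (cap Y * Y ^ 2)) := by linarith
            _ = _ := by ring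
        have h3 : (∑ i ∈ sides t, |dphi (uu G Y w i)|) * (3 / Y + 7 / Y * side G Y t)
            ≤ ∑ i ∈ sides t, (185 * cap Y * phi (uu G Y w i) + 185 / (cap Y * Y ^ 2)) := by
          refine (mul_le_mul_of_nonneg_left h1 (sum_nonneg fun i _ => abs_nonneg _)).trans ?_
          rw [sum_mul]
          exact sum_le_sum fun i _ => h2 i
        rw [sum_add_distrib, sum_const, card_sides ht, ← mul_sum] at h3
        simp only [nsmul_eq_mul, Nat.cast_ofNat] at h3
        have : 0 ≤ 120 * cap Y * pt G Y w t := by positivity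
        have e : (555:ℝ) / (cap Y * Y ^ 2) = 3 * (185 / (cap Y * Y ^ 2)) := by ring
        linarith
      · rw [← sum_mul]
        have h1 : (∑ i ∈ sides t, |dphi (uu G Y w i)|) ≤ 3 := by
          refine (sum_le_sum fun i _ => dphi_abs_le _).trans ?_
          rw [sum_const, card_sides ht]; norm_num
        have h2 : (3 / Y + 7 / Y * side G Y t) ≤ 40 * (cap Y * pt G Y w t) := by
          have i1 := inv_le_cap_pow (show 1 ≤ Y by have := h.large; linarith) 1 (by norm_num)
          rw [pow_one] at i1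
          have := (h.big_le ht hs).1
          calc 3 / Y + 7 / Y * side G Y t = 1 / Y * (3 + 7 * side G Y t) := by ring
            _ ≤ cap Y * (40 * pt G Y w t) := mul_le_mul i1 (by linarith) (by linarith) hc.le
            _ = _ := by ring
        have h3 := mul_le_mul h1 h2 (by positivity) (by norm_num : (0:ℝ) ≤ 3)
        have : 0 ≤ 185 * cap Y * ∑ i ∈ sides t, phi (uu G Y w i) :=
          mul_nonneg (by positivity) (sum_nonneg fun i _ => phi_nonneg _)
        have : 0 ≤ 555 / (cap Y * Y ^ 2) := by positivity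
        linarith
    · refine le_trans (le_of_eq (sum_congr rfl fun i _ => mul_sum _ _ _)) ?_
      refine (sum_le_sum fun i _ => sum_le_sum (g := fun j =>
        4 * phi (uu G Y w i) + 100 * phi (zeta G Y j - 1)) fun j _ => ?_).trans ?_
      · exact young_dphi _ (by have := zeta_nonneg' (G := G) hY j; linarith)
      · simp only [sum_add_distrib, sum_const, card_sides ht, nsmul_eq_mul, Nat.cast_ofNat,
          ← mul_sum]
        linarith
  refine (sum_le_sum key).trans ?_
  simp only [sum_add_distrib, ← mul_sum, sum_const, nsmul_eq_mul]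
  rw [← pd]
  have h1 := mul_le_mul_of_nonneg_left h.sum_phiu hc.le
  have h2 := mul_le_mul_of_nonneg_left h.sum_phiz hc.le
  have h3 : ((tri G).card : ℝ) * (555 / (cap Y * Y ^ 2))
      ≤ 4000 * (cap Y * (pd G Y w + G.card)) := by
    have i1 := inv_le_cap_sq (show (1:ℝ) ≤ Y by have := h.large; linarith)
    rw [div_le_iff₀ hY] at i1
    have hQ := h.sum_side_le.2
    rw [triNum] at hQ
    rw [← mul_div_assoc, div_le_iff₀ (by positivity)]
    have hm : 0 ≤ (G.card : ℝ) := Nat.cast_nonneg _
    have hp := h.pd_nonneg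
    have hL := h.large
    calc ((tri G).card : ℝ) * 555 ≤ 3885 * (pd G Y w * 1) + 3885 * (G.card * (Y * 1)) := by linarith
      _ ≤ 3885 * (pd G Y w * (cap Y ^ 2 * Y ^ 2)) + 3885 * (G.card * (Y * (cap Y ^ 2 * Y))) := by
          gcongr
          nlinarith
      _ ≤ _ := by
          have : 0 ≤ (pd G Y w + G.card) * (cap Y ^ 2 * Y ^ 2) := by positivity
          linarith
  have c0 : 0 ≤ cap Y * bulk G B Y w := by positivity
  have c1 : 0 ≤ cap Y * (Y * taint G B Y) := by
    have := taint_nonneg G B Y; positivity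
  have c2 : 0 ≤ cap Y * (G.card : ℝ) := by positivity
  have b2 := mul_le_mul_of_nonneg_left hbψ hc.le
  have b3 := mul_le_mul_of_nonneg_left hbp hc.le
  unfold budget
  linarith

/-- One step for the drift part. -/
theorem Dense.psi_step (h : Dense G B Y w) {ε : ℝ} (hε : 0 < ε) :
    ∑ t ∈ tri G, psi (G \ sides t) (nextY G Y) (nextW G B Y w t)
      ≤ triNum G * psi G Y w + (1 + ε) * (Y * psi G Y w) - pd G Y w
        + Y / ε * tq G B Y w + 10 ^ 11 * budget G B Y w := by
  have hY := h.pos
  have hc := cap_pos hY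
  set δ : Finset α → Finset α → ℝ := fun t e => (1 - w e) * hh G Y t e
    - zeta G Y e * dw G B Y w t e - hh G Y t e * dw G B Y w t e with hδ
  simp only [psi]
  have step1 : ∀ t ∈ tri G,
      ∑ e ∈ G \ sides t, phi (uu (G \ sides t) (nextY G Y) (nextW G B Y w t) e)
      ≤ ∑ e ∈ G \ sides t, (phi (uu G Y w e) + dphi (uu G Y w e) * δ t e + δ t e ^ 2) :=
    fun t _ => sum_le_sum fun e he => by
      rw [h.uu_next (mem_sdiff.1 he).2]; exact phi_step _ _
  refine (sum_le_sum step1).trans ?_
  simp only [sum_add_distrib]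
  rw [sum_congr rfl (fun t ht => sum_sdiff_eq_sub (mem_tri.1 ht).2
      (f := fun e => phi (uu G Y w e))), sum_sub_distrib, sum_const, nsmul_eq_mul,
    sum_avoid_comm G G (fun t e => dphi (uu G Y w e) * δ t e),
    sum_avoid_comm G G (fun t e => δ t e ^ 2)]
  simp only [← mul_sum]
  have hlin : ∑ e ∈ G, dphi (uu G Y w e) * ∑ t ∈ (tri G).filter (e ∉ sides ·), δ t e
      ≤ -(∑ t ∈ tri G, ∑ i ∈ sides t, dphi (uu G Y w i) * (sideA G Y w t - aa G Y w i - 2))
        - Y * (∑ e ∈ G, dphi (uu G Y w e) * xx G Y w e)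
        + 10 ^ 7 * budget G B Y w := by
    refine (sum_le_sum fun e he => h.linear_le he).trans ?_
    rw [sum_add_distrib, sum_sub_distrib, sum_neg_distrib,
      sum_star G (fun k i => dphi (uu G Y w i) * (sideA G Y w k - aa G Y w i - 2)),
      sum_star G (fun k i => lin G Y w k i), ← mul_sum]
    linarith [h.sum_lin]
  have hnoise : ∑ e ∈ G, ∑ t ∈ (tri G).filter (e ∉ sides ·), δ t e ^ 2
      ≤ 10 ^ 10 * budget G B Y w := h.sum_noise
  have hpd : pd G Y w = (∑ t ∈ tri G, ∑ i ∈ sides t, phi (uu G Y w i))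
      + (∑ t ∈ tri G, ∑ i ∈ sides t, phi (uu G Y w i) / aa G Y w i)
      + ∑ t ∈ tri G, ∑ i ∈ sides t, dphi (uu G Y w i) * (sideA G Y w t - aa G Y w i - 2) := by
    simp only [pd, pt, ← sum_add_distrib]
    exact sum_congr rfl fun t _ => sum_congr rfl fun i _ => by
      rw [term, uu_eq]; ring
  have hover : ∑ t ∈ tri G, ∑ i ∈ sides t, phi (uu G Y w i) / aa G Y w i
      ≤ (1 + 3 * cap Y) * (Y * psi G Y w) := by
    rw [sum_tri_sides, psi, mul_sum, mul_sum]
    refine sum_le_sum fun e _ => ?_
    rcases Nat.eq_zero_or_pos (deg G e) with hd | hd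
    · rw [hd, Nat.cast_zero, zero_mul]; have := phi_nonneg (uu G Y w e); positivity
    · have hw := abs_le.1 (h.good.small e)
      have hcs := h.capsmall
      have hd' : (deg G e : ℝ) ≠ 0 := by positivity
      have : (deg G e : ℝ) * (phi (uu G Y w e) / aa G Y w e)
          = Y * phi (uu G Y w e) * (1 / (1 - w e)) := by
        simp only [aa, zeta]; field_simp
      rw [this, mul_comm (1 + 3 * cap Y)]
      refine mul_le_mul_of_nonneg_left ?_ (mul_nonneg hY.le (phi_nonneg _))
      rw [div_le_iff₀ (by linarith)]; nlinarith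
  have hx : -(∑ e ∈ G, dphi (uu G Y w e) * xx G Y w e)
      ≤ ε * psi G Y w + tq G B Y w / ε + 8 * cap Y * (taint G B Y + phiSum G Y) := by
    rw [← sum_neg_distrib, ← sum_sdiff (inter_subset_left : G ∩ B ⊆ G), sdiff_inter_self_left]
    refine add_le_add ?_ ?_
    · calc ∑ e ∈ G \ B, -(dphi (uu G Y w e) * xx G Y w e)
          ≤ ∑ e ∈ G \ B, (ε * phi (uu G Y w e) + xx G Y w e ^ 2 / ε) := sum_le_sum fun e _ => by
            rw [← sub_le_iff_le_add', le_div_iff₀ hε]
            nlinarith [dphi_sq_le (uu G Y w e), sq_nonneg (ε * dphi (uu G Y w e) / 2 + xx G Y w e),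
              mul_le_mul_of_nonneg_left (dphi_sq_le (uu G Y w e)) (sq_nonneg ε)]
        _ ≤ _ := by
            rw [sum_add_distrib, ← mul_sum, ← sum_div, tq]
            refine add_le_add (mul_le_mul_of_nonneg_left ?_ hε.le) le_rfl
            exact sum_le_sum_of_subset_of_nonneg sdiff_subset fun _ _ _ => phi_nonneg _
    · calc ∑ e ∈ G ∩ B, -(dphi (uu G Y w e) * xx G Y w e)
          ≤ ∑ e ∈ G ∩ B, 4 * cap Y * zeta G Y e := sum_le_sum fun e _ => by
            refine (neg_le_abs _).trans ?_
            rw [abs_mul]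
            have hx : |xx G Y w e| ≤ 4 * cap Y * zeta G Y e := by
              rw [xx, abs_div, abs_of_pos hY, zeta, ← mul_div_assoc]
              refine div_le_div_of_nonneg_right ?_ hY.le
              refine (abs_sum_le_sum_abs _ _).trans ?_
              rw [show (deg G e : ℝ) = ((((tri G).filter (e ∈ sides ·))).card : ℝ) from rfl,
                mul_comm, ← nsmul_eq_mul, ← sum_const]
              refine sum_le_sum fun k hk => (abs_sum_le_sum_abs _ _).trans ?_
              simp only [mem_filter] at hk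
              refine (sum_le_card_nsmul _ _ (2 * cap Y) fun f _ => h.good.small f).trans ?_
              rw [card_erase_of_mem hk.2, card_sides hk.1]; simp; linarith
            calc |dphi (uu G Y w e)| * |xx G Y w e| ≤ 1 * (4 * cap Y * zeta G Y e) :=
                  mul_le_mul (dphi_abs_le _) hx (abs_nonneg _) zero_le_one
              _ = _ := one_mul _
        _ ≤ _ := by
            rw [← mul_sum]
            have := mul_le_mul_of_nonneg_left (sum_tainted_zeta G B Y)
              (show 0 ≤ 4 * cap Y by positivity)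
            linarith
  have hx' := mul_le_mul_of_nonneg_left hx hY.le
  have hΦ := mul_le_mul_of_nonneg_left h.phiSum_bulk (show 0 ≤ Y * cap Y by positivity)
  obtain ⟨hb0, -, hbψ, hbq⟩ := h.bulk_parts
  have b2 := mul_le_mul_of_nonneg_left hbψ hc.le
  have b3 := mul_le_mul_of_nonneg_left hbq hc.le
  have eY : Y * (tq G B Y w / ε) = Y / ε * tq G B Y w := by ring
  have c0 : 0 ≤ cap Y * bulk G B Y w := by positivity
  have c1 : 0 ≤ cap Y * (Y * taint G B Y) := by
    have := taint_nonneg G B Y; positivity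
  have c2 : 0 ≤ cap Y * (G.card : ℝ) := by positivity
  simp only [psi, budget, triNum] at *
  linarith

end Vale.Agent.P046.Sharp
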