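import Vale.Agent.P046.Sharp.StepT

/-! P046: the drift of the potential of the neighbour average. -/

open Finset

namespace Vale.Agent.P046.Sharp

variable {α : Type*} [DecidableEq α] [Fintype α] {G B : Finset (Finset α)} {Y : ℝ}
  {w : Finset α → ℝ} {t k e f : Finset α}

/-- The martingale part on the other two sides. -/
noncomputable def others (w : Finset α → ℝ) (k e : Finset α) : ℝ :=
  ∑ f ∈ (sides k).erase e, w f

/-- The loss at `e` from killed triangles. -/
noncomputable def lostW (G : Finset (Finset α)) (w : Finset α → ℝ) (t e : Finset α) : ℝ :=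
  ∑ k ∈ (tri G).filter (e ∈ sides ·),
    (if Disjoint (sides k) (sides t) then 0 else others w k e)

/-- The movement at `e` through surviving triangles. -/
noncomputable def movedW (G B : Finset (Finset α)) (Y : ℝ) (w : Finset α → ℝ)
    (t e : Finset α) : ℝ :=
  ∑ k ∈ (tri G).filter (e ∈ sides ·),
    (if Disjoint (sides k) (sides t) then others (dw G B Y w t) k e else 0)

/-- The change of the neighbour average. -/
noncomputable def delta (G B : Finset (Finset α)) (Y : ℝ) (w : Finset α → ℝ)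
    (t e : Finset α) : ℝ :=
  drop G Y * xx G Y w e - (1 + drop G Y) / Y * lostW G w t e
    + (1 + drop G Y) / Y * movedW G B Y w t e

theorem Dense.xx_next (hd : Dense G B Y w) :
    xx (G \ sides t) (nextY G Y) (nextW G B Y w t) e = xx G Y w e + delta G B Y w t e := by
  have hY := hd.pos
  have hs : (1 : ℝ) + drop G Y ≠ 0 := by have := hd.drop_nonneg; linarith
  have e1 : ∑ k ∈ (tri (G \ sides t)).filter (e ∈ sides ·),
        ∑ f ∈ (sides k).erase e, nextW G B Y w t f
      = (∑ k ∈ (tri G).filter (e ∈ sides ·), others w k e) - lostW G w t e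
        + movedW G B Y w t e := by
    rw [lostW, movedW, ← sum_sub_distrib, ← sum_add_distrib, tri_sdiff, filter_comm, sum_filter]
    refine sum_congr rfl fun k _ => ?_
    split_ifs
    · simp only [others, nextW, sum_add_distrib, sub_zero]
    · simp
  rw [xx, e1, delta, xx, nextY]
  simp only [others]
  field_simp
  ring

theorem sum_meet (hk : k ∈ tri G) (he : e ∈ sides k) :
    (((tri G).filter fun t => e ∉ sides t ∧ ¬ Disjoint (sides k) (sides t)).card : ℝ)
      = (∑ j ∈ sides k, (deg G j : ℝ)) - deg G e - 2 := by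
  have hne : ¬ Disjoint (sides k) (sides k) := not_disjoint_iff.2 ⟨e, he, he⟩
  have e1 : (tri G).filter (fun t => ¬ Disjoint (sides k) (sides t)) = insert k (killed G k) := by
    ext a
    simp only [killed, mem_filter, mem_insert, disjoint_comm (a := sides a)]
    constructor
    · rintro ⟨h1, h2⟩
      rcases eq_or_ne a k with h | h
      · exact Or.inl h
      · exact Or.inr ⟨h1, h, h2⟩
    · rintro (rfl | ⟨h1, -, h2⟩)
      · exact ⟨hk, hne⟩
      · exact ⟨h1, h2⟩
  have e2 := card_filter_add_card_filter_not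
    (s := (tri G).filter (fun t => ¬ Disjoint (sides k) (sides t))) (e ∈ sides ·)
  have e3 : ((tri G).filter (fun t => ¬ Disjoint (sides k) (sides t))).filter (e ∈ sides ·)
      = (tri G).filter (e ∈ sides ·) := by
    rw [filter_filter]
    exact filter_congr fun a _ => ⟨fun h => h.2, fun h => ⟨not_disjoint_iff.2 ⟨e, he, h⟩, h⟩⟩
  have e4 : ((tri G).filter (fun t => ¬ Disjoint (sides k) (sides t))).filter (e ∉ sides ·)
      = (tri G).filter fun t => e ∉ sides t ∧ ¬ Disjoint (sides k) (sides t) := by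
    rw [filter_filter]
    exact filter_congr fun a _ => and_comm
  have hk' : k ∉ killed G k := by simp [killed]
  rw [e3, e4, e1, card_insert_of_notMem hk'] at e2
  have e5 := congrArg (fun n : ℕ => (n : ℝ)) e2
  push_cast at e5
  rw [card_killed hk] at e5
  have : (((tri G).filter (e ∈ sides ·)).card : ℝ) = deg G e := rfl
  linarith

theorem filter_avoid_disjoint (G : Finset (Finset α)) (he : e ∈ sides k) :
    ((tri G).filter (e ∉ sides ·)).filter (fun t => Disjoint (sides k) (sides t))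
      = (tri G).filter (fun t => Disjoint (sides k) (sides t)) := by
  rw [filter_filter]
  exact filter_congr fun a _ => ⟨fun h => h.2, fun h => ⟨fun h' => disjoint_left.1 h he h', h⟩⟩

theorem Dense.abs_others (hd : Dense G B Y w) (hk : k ∈ tri G) (he : e ∈ sides k) :
    |others w k e| ≤ 4 * cap Y := by
  refine (abs_sum_le_sum_abs _ _).trans ?_
  refine (sum_le_card_nsmul _ _ (2 * cap Y) fun f _ => hd.good.small f).trans ?_
  rw [card_erase_of_mem he, card_sides hk]; simp; linarith

/-- The drift bound of one triangle. -/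
noncomputable def alpha (G : Finset (Finset α)) (Y : ℝ) (k : Finset α) : ℝ :=
  5 * cap Y * (∑ j ∈ sides k, |zeta G Y j - 1|) + 24 / Y + 10 / Y * side G Y k

theorem Dense.moved_le (hd : Dense G B Y w) (hk : k ∈ tri G) (he : e ∈ sides k) :
    |∑ t ∈ ((tri G).filter (e ∉ sides ·)).filter (fun t => Disjoint (sides k) (sides t)),
        others (dw G B Y w t) k e| ≤ 8 * side G Y k := by
  have hY := hd.pos
  rw [filter_avoid_disjoint G he]
  simp only [others]
  rw [sum_comm]
  refine (abs_sum_le_sum_abs _ _).trans ?_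
  have hside : (∑ j ∈ sides k, (deg G j : ℝ)) = Y * side G Y k := by
    simp only [side, zeta, ← sum_div]; field_simp
  have key : ∀ f ∈ (sides k).erase e,
      |∑ t ∈ (tri G).filter (fun t => Disjoint (sides k) (sides t)), dw G B Y w t f|
        ≤ 4 * side G Y k := by
    intro f _
    have h0 := sum_dw G B Y w f
    rw [← sum_filter_add_sum_filter_not (tri G) (fun t => Disjoint (sides k) (sides t))] at h0
    rw [eq_neg_of_add_eq_zero_left h0, abs_neg]
    refine (abs_sum_le_sum_abs _ _).trans ?_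
    refine (sum_le_card_nsmul _ _ (4 / Y) fun t ht => hd.dw_abs_le (mem_filter.1 ht).1 f).trans ?_
    rw [nsmul_eq_mul]
    have h1 : (((tri G).filter (fun t => ¬ Disjoint (sides k) (sides t))).card : ℝ)
        ≤ ∑ j ∈ sides k, (deg G j : ℝ) := by
      have : ((tri G).filter (fun t => ¬ Disjoint (sides k) (sides t))).card
          ≤ ∑ j ∈ sides k, deg G j := by
        refine (card_le_card (t := (sides k).biUnion fun j => (tri G).filter (j ∈ sides ·))
          fun a ha => ?_).trans card_biUnion_le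
        obtain ⟨h1, h2⟩ := mem_filter.1 ha
        obtain ⟨i, h3, h4⟩ := not_disjoint_iff.1 h2
        exact mem_biUnion.2 ⟨i, h3, mem_filter.2 ⟨h1, h4⟩⟩
      exact_mod_cast this
    refine (mul_le_mul_of_nonneg_right (h1.trans hside.le) (by positivity)).trans (le_of_eq ?_)
    field_simp
  refine (sum_le_card_nsmul _ _ _ key).trans ?_
  rw [card_erase_of_mem he, card_sides hk]; simp; linarith

theorem Dense.drift_shape (hd : Dense G B Y w) (hk : k ∈ tri G) (he : e ∈ sides k)
    (hζ : zeta G Y e ≤ 11/10) :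
    |2 - drop G Y * zeta G Y e - (1 + drop G Y) * (side G Y k - zeta G Y e - 2 / Y)|
      ≤ 101/100 * (∑ j ∈ sides k, |zeta G Y j - 1|) + 6 / Y := by
  have hY := hd.pos
  have hs := hd.drop_nonneg
  set Z := ∑ j ∈ (sides k).erase e, (zeta G Y j - 1) with hZ
  have hZ' : |Z| ≤ ∑ j ∈ sides k, |zeta G Y j - 1| :=
    (abs_sum_le_sum_abs _ _).trans
      (sum_le_sum_of_subset_of_nonneg (erase_subset _ _) fun _ _ _ => abs_nonneg _)
  have hside : side G Y k - zeta G Y e = 2 + Z := by
    rw [hZ, side, ← add_sum_erase _ _ he, sum_sub_distrib, sum_const, card_erase_of_mem he,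
      card_sides hk]
    simp
  rw [hside]
  have a3 : drop G Y * zeta G Y e ≤ 11/10 * (1 / Y) :=
    (mul_le_mul hd.drop_le_inv hζ (zeta_nonneg' hY e) (by positivity)).trans (by linarith)
  have a4 : 0 ≤ drop G Y * zeta G Y e := mul_nonneg hs (zeta_nonneg' hY e)
  have a5 : drop G Y * (2 / Y) ≤ 1/1000 * (2 / Y) :=
    mul_le_mul_of_nonneg_right hd.drop_small (by positivity)
  have a6 : |(1 + drop G Y) * Z| ≤ 101/100 * |Z| := by
    rw [abs_mul, abs_of_nonneg (show 0 ≤ 1 + drop G Y by linarith)]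
    exact mul_le_mul_of_nonneg_right (by linarith [hd.drop_small]) (abs_nonneg _)
  obtain ⟨a7, a8⟩ := abs_le.1 a6
  have a1 := hd.drop_le_inv
  have : 0 ≤ drop G Y * (2 / Y) := by positivity
  have : 0 ≤ 1 / Y := by positivity
  have e6 : (6:ℝ) / Y = 6 * (1 / Y) := by ring
  have e2 : (2:ℝ) / Y = 2 * (1 / Y) := by ring
  have : 101/100 * |Z| ≤ 101/100 * ∑ j ∈ sides k, |zeta G Y j - 1| := by linarith
  rw [abs_le]; constructor <;> linarith

theorem Dense.drift_le (hd : Dense G B Y w) (he : e ∈ G \ B) :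
    |∑ t ∈ (tri G).filter (e ∉ sides ·), delta G B Y w t e|
      ≤ ∑ k ∈ (tri G).filter (e ∈ sides ·), alpha G Y k := by
  have hY := hd.pos
  have hs := hd.drop_nonneg
  have hdd : drop G Y * triNum G = 2 * Y := hd.drop_mul
  have hflat := abs_le.1 (hd.good.flat e (mem_sdiff.1 he).1 (mem_sdiff.1 he).2)
  set A := (tri G).filter (e ∉ sides ·) with hA
  set T := (tri G).filter (e ∈ sides ·) with hT
  have e1 : ∑ t ∈ A, lostW G w t e
      = ∑ k ∈ T, others w k e * ((∑ j ∈ sides k, (deg G j : ℝ)) - deg G e - 2) := by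
    simp only [lostW, ← hT]
    rw [sum_comm]
    refine sum_congr rfl fun k hk => ?_
    simp only [hT, mem_filter] at hk
    rw [sum_ite, sum_const_zero, zero_add, sum_const, nsmul_eq_mul, hA, filter_filter,
      sum_meet hk.1 hk.2, mul_comm]
  have e2 : ∑ t ∈ A, movedW G B Y w t e
      = ∑ k ∈ T, ∑ t ∈ A.filter (fun t => Disjoint (sides k) (sides t)),
          others (dw G B Y w t) k e := by
    simp only [movedW, ← hT]
    rw [sum_comm]
    exact sum_congr rfl fun k _ => (sum_filter _ _).symm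
  have e3 : (triNum G - deg G e) * (drop G Y * xx G Y w e)
      = ∑ k ∈ T, others w k e * (2 - drop G Y * zeta G Y e) := by
    rw [← sum_mul]
    simp only [xx, others, ← hT, zeta]
    field_simp
    linear_combination (∑ k ∈ T, ∑ f ∈ (sides k).erase e, w f) * hdd
  simp only [delta]
  rw [sum_add_distrib, sum_sub_distrib, sum_const, nsmul_eq_mul, ← mul_sum, ← mul_sum, e1, e2,
    hA, card_avoid, e3, mul_sum, mul_sum, ← sum_sub_distrib, ← sum_add_distrib]
  refine (abs_sum_le_sum_abs _ _).trans (sum_le_sum fun k hk => ?_)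
  simp only [hT, mem_filter] at hk
  have hm := hd.moved_le hk.1 hk.2
  have ho := hd.abs_others hk.1 hk.2
  have hsh := hd.drift_shape hk.1 hk.2 (by linarith)
  have e4 : others w k e * (2 - drop G Y * zeta G Y e)
      - (1 + drop G Y) / Y * (others w k e * ((∑ j ∈ sides k, (deg G j : ℝ)) - deg G e - 2))
      = others w k e
        * (2 - drop G Y * zeta G Y e - (1 + drop G Y) * (side G Y k - zeta G Y e - 2 / Y)) := by
    simp only [side, zeta, ← sum_div]; field_simp
  rw [e4]
  refine (abs_add_le _ _).trans ?_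
  rw [abs_mul, abs_mul, abs_of_nonneg (show 0 ≤ (1 + drop G Y) / Y by positivity)]
  have p1 := mul_le_mul ho hsh (abs_nonneg _) (by have := cap_pos hY; positivity)
  have p2 : (1 + drop G Y) / Y * |∑ t ∈ A.filter (fun t => Disjoint (sides k) (sides t)),
      others (dw G B Y w t) k e| ≤ 5/4 / Y * (8 * side G Y k) :=
    mul_le_mul (div_le_div_of_nonneg_right (by linarith [hd.drop_small]) hY.le) hm
      (abs_nonneg _) (by positivity)
  rw [hA] at p2
  have hc := hd.capsmall
  have hc0 := cap_pos hY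
  have hZ0 : 0 ≤ ∑ j ∈ sides k, |zeta G Y j - 1| := sum_nonneg fun _ _ => abs_nonneg _
  have : cap Y * (6 / Y) ≤ 1 * (6 / Y) := mul_le_mul_of_nonneg_right (by linarith) (by positivity)
  have e5 : (5/4 : ℝ) / Y * (8 * side G Y k) = 10 / Y * side G Y k := by ring
  have e6 : (24 : ℝ) / Y = 4 * (1 * (6 / Y)) := by ring
  unfold alpha
  nlinarith

open Classical in
/-- The cost of one triangle at an untainted edge. -/
noncomputable def tshare (G : Finset (Finset α)) (Y : ℝ) (k : Finset α) : ℝ :=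
  3000000 * cap Y ^ 2 * (∑ j ∈ sides k, phi (zeta G Y j - 1)) + 10 ^ 8 / Y ^ 2
    + (if 26 < side G Y k then 300 * cap Y ^ 2 * side G Y k else 0)

theorem Dense.cross_x (hd : Dense G B Y w) (he : e ∈ G \ B) (hk : k ∈ tri G) :
    2 * |xx G Y w e| * alpha G Y k ≤ xx G Y w e ^ 2 / 25 + tshare G Y k := by
  have hY := hd.pos
  have hc := cap_pos hY
  obtain ⟨-, hd2⟩ := hd.flat_deg he
  have hS := side_nonneg' (G := G) hY k
  have hP : 0 ≤ ∑ j ∈ sides k, phi (zeta G Y j - 1) := sum_nonneg fun _ _ => phi_nonneg _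
  set x := xx G Y w e
  rcases le_or_gt (side G Y k) 26 with hs | hs
  · rw [tshare, if_neg (not_lt.2 hs)]
    set Z := ∑ j ∈ sides k, |zeta G Y j - 1| with hZ
    have hZ0 : 0 ≤ Z := sum_nonneg fun _ _ => abs_nonneg _
    have hZ2 : Z ^ 2 ≤ 300 * ∑ j ∈ sides k, phi (zeta G Y j - 1) := by
      rw [hZ]
      refine sq_sum_le_card_mul_sum_sq.trans ?_
      rw [card_sides hk, Nat.cast_ofNat, mul_sum, mul_sum]
      refine sum_le_sum fun j hj => ?_
      rw [sq_abs]
      have hj' : zeta G Y j ≤ 26 := (single_le_sum (fun i _ => zeta_nonneg' hY i) hj).trans hs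
      have := zeta_nonneg' (G := G) hY j
      have := phi_nonneg (zeta G Y j - 1)
      rcases le_or_gt (zeta G Y j - 1) 1 with h1 | h1
      · linarith [sq_le_phi (show -1 ≤ zeta G Y j - 1 by linarith) h1]
      · have := le_two_phi h1
        nlinarith
    have ha : alpha G Y k ≤ 5 * cap Y * Z + 284 / Y := by
      rw [alpha, ← hZ]
      have : 10 / Y * side G Y k ≤ 10 / Y * 26 := mul_le_mul_of_nonneg_left hs (by positivity)
      have e : (284 : ℝ) / Y = 24 / Y + 10 / Y * 26 := by ring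
      linarith
    have ha0 : 0 ≤ alpha G Y k := by rw [alpha, ← hZ]; positivity
    have e1 : (10 : ℝ) ^ 8 / Y ^ 2 = 10 ^ 8 * (1 / Y) ^ 2 := by ring
    have e2 : (284 : ℝ) / Y = 284 * (1 / Y) := by ring
    rw [e2] at ha
    rw [e1]
    have y1 : 2 * |x| * alpha G Y k ≤ x ^ 2 / 25 + 25 * alpha G Y k ^ 2 := by
      nlinarith [sq_nonneg (|x| / 5 - 5 * alpha G Y k), sq_abs x]
    have y2 := pow_le_pow_left₀ ha0 ha 2
    have y3 : (5 * cap Y * Z + 284 * (1 / Y)) ^ 2
        ≤ 50 * cap Y ^ 2 * Z ^ 2 + 2 * 284 ^ 2 * (1 / Y) ^ 2 := by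
      nlinarith [sq_nonneg (5 * cap Y * Z - 284 * (1 / Y))]
    have y4 := mul_le_mul_of_nonneg_left hZ2 (sq_nonneg (cap Y))
    have : 0 ≤ (1 / Y) ^ 2 := sq_nonneg _
    have : 0 ≤ cap Y ^ 2 * ∑ j ∈ sides k, phi (zeta G Y j - 1) := by positivity
    linarith
  · rw [tshare, if_pos hs]
    have hZ : ∑ j ∈ sides k, |zeta G Y j - 1| ≤ side G Y k + 3 := by
      refine (sum_le_sum (g := fun j => zeta G Y j + 1) fun j _ => ?_).trans ?_
      · have := zeta_nonneg' (G := G) hY j
        exact abs_le.2 ⟨by linarith, by linarith⟩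
      · rw [sum_add_distrib, sum_const, card_sides hk, side]; simp
    have hcY : 1 / Y ≤ cap Y := by
      have := inv_le_cap_pow (show 1 ≤ Y by have := hd.large; linarith) 1 (by norm_num)
      rwa [pow_one] at this
    have ha : alpha G Y k ≤ 30 * cap Y * side G Y k := by
      rw [alpha]
      have := mul_le_mul_of_nonneg_left hZ (show 0 ≤ 5 * cap Y by positivity)
      have := mul_le_mul_of_nonneg_right hcY (show 0 ≤ 24 + 10 * side G Y k by linarith)
      have e3 : 24 / Y + 10 / Y * side G Y k = 1 / Y * (24 + 10 * side G Y k) := by ring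
      nlinarith
    have hx : |x| ≤ 5 * cap Y := by
      simp only [x, xx, abs_div, abs_of_pos hY]
      rw [div_le_iff₀ hY]
      refine (abs_sum_le_sum_abs _ _).trans ?_
      refine (sum_le_card_nsmul _ _ (4 * cap Y) fun a ha => ?_).trans ?_
      · exact hd.abs_others (mem_filter.1 ha).1 (mem_filter.1 ha).2
      · rw [nsmul_eq_mul]
        calc ((((tri G).filter (e ∈ sides ·)).card : ℝ)) * (4 * cap Y)
            ≤ 11/10 * Y * (4 * cap Y) := mul_le_mul_of_nonneg_right hd2 (by positivity)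
          _ ≤ 5 * cap Y * Y := by nlinarith
    have ha0 : 0 ≤ alpha G Y k := by
      rw [alpha]; positivity
    have h1 := mul_le_mul hx ha ha0 (by positivity)
    have : 0 ≤ x ^ 2 := sq_nonneg _
    have : 0 ≤ (10:ℝ) ^ 8 / Y ^ 2 := by positivity
    have : 0 ≤ cap Y ^ 2 * ∑ j ∈ sides k, phi (zeta G Y j - 1) := by positivity
    linarith

theorem Dense.lost_sq (hd : Dense G B Y w) (ht : t ∈ (tri G).filter (e ∉ sides ·)) :
    lostW G w t e ^ 2 ≤ 48 * cap Y ^ 2 * dk G t e := by
  obtain ⟨ht1, ht2⟩ := mem_filter.1 ht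
  have h1 : |lostW G w t e| ≤ 4 * cap Y * dk G t e := by
    rw [lostW, sum_ite, sum_const_zero, zero_add, dk_eq ht2, dkill, filter_filter]
    refine (abs_sum_le_sum_abs _ _).trans ?_
    refine (sum_le_card_nsmul _ _ (4 * cap Y) fun a ha => ?_).trans ?_
    · simp only [mem_filter] at ha
      exact hd.abs_others ha.1 ha.2.1
    · rw [nsmul_eq_mul, mul_comm]
      refine mul_le_mul_of_nonneg_left (Nat.cast_le.2 (card_le_card fun a ha => ?_))
        (by have := cap_pos hd.pos; positivity)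
      simp only [killed, mem_filter] at ha ⊢
      exact ⟨⟨ha.1, fun e' => ht2 (e' ▸ ha.2.1), ha.2.2⟩, ha.2.1⟩
  have h0 := dk_nonneg G t e
  have h3 := dk_le_three (e := e) ht1
  calc lostW G w t e ^ 2 ≤ (4 * cap Y * dk G t e) ^ 2 := by
        rw [← sq_abs]; exact pow_le_pow_left₀ (abs_nonneg _) h1 2
    _ ≤ 48 * cap Y ^ 2 * dk G t e := by
        have : dk G t e ^ 2 ≤ 3 * dk G t e := by nlinarith
        have := mul_le_mul_of_nonneg_left this (show 0 ≤ 16 * cap Y ^ 2 by positivity)
        linarith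

theorem Dense.sum_moved_sq (hd : Dense G B Y w) (e : Finset α) :
    ∑ t ∈ (tri G).filter (e ∉ sides ·), movedW G B Y w t e ^ 2
      ≤ 12 / Y ^ 2 * ∑ t ∈ tri G, near G B t e ^ 2 := by
  classical
  have hY := hd.pos
  have hs := hd.drop_nonneg
  set C := ∑ f ∈ clear G B e, dbar G f with hC
  have hpoint : ∀ t, |movedW G B Y w t e| ≤ (1 + drop G Y) / Y * (near G B t e + C) := by
    intro t
    calc |movedW G B Y w t e|
        ≤ ∑ k ∈ (tri G).filter (e ∈ sides ·), ∑ f ∈ (sides k).erase e, |dw G B Y w t f| := by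
          refine (abs_sum_le_sum_abs _ _).trans (sum_le_sum fun k _ => ?_)
          split_ifs
          · exact abs_sum_le_sum_abs _ _
          · rw [abs_zero]; positivity
      _ = ∑ f ∈ nbrs G e, |dw G B Y w t f| := (sum_nbrs G e _).symm
      _ = ∑ f ∈ clear G B e, |dw G B Y w t f| := by
          refine (sum_subset sdiff_subset fun f hf hf' => ?_).symm
          have hfB : f ∈ B := by
            by_contra h; exact hf' (mem_sdiff.2 ⟨hf, h⟩)
          rw [dw, if_neg (fun h => h.2.1 hfB), abs_zero]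
      _ ≤ ∑ f ∈ clear G B e, (1 + drop G Y) / Y * (dk G t f + dbar G f) := sum_le_sum fun f _ => by
          have := dk_nonneg G t f
          have := (dbar_range G f).1
          unfold dw
          split_ifs
          · rw [abs_neg, abs_mul, abs_of_nonneg (show 0 ≤ (1 + drop G Y) / Y by positivity)]
            exact mul_le_mul_of_nonneg_left (abs_le.2 ⟨by linarith, by linarith⟩) (by positivity)
          · rw [abs_zero]; positivity
      _ = _ := by rw [← mul_sum, sum_add_distrib, near, hC]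
  have hC0 : 0 ≤ C := sum_nonneg fun f _ => (dbar_range G f).1
  have hQ := hd.triNum_pos
  have hCb : C * triNum G ≤ 2 * ∑ t ∈ tri G, near G B t e := by
    simp only [near]
    rw [sum_comm, hC, sum_mul, mul_sum]
    refine sum_le_sum fun f hf => ?_
    obtain ⟨hf1, hf2⟩ := mem_sdiff.1 hf
    have hfU : f ∈ G \ B := mem_sdiff.2 ⟨nbrs_subset _ _ hf1, hf2⟩
    have hdeg := (hd.flat_deg hfU).2
    have hm := hd.sq_le
    have hQm := hd.many
    have hL := hd.large
    have h11 : 22/10 * Y ≤ triNum G := by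
      have : 20 * Y ≤ (G.card : ℝ) * Y := mul_le_mul_of_nonneg_right (by nlinarith) hY.le
      linarith
    rw [show ∑ t ∈ tri G, dk G t f = kill G f from rfl, dbar, div_mul_eq_mul_div,
      div_le_iff₀ (by linarith)]
    have := kill_nonneg G f
    nlinarith
  have hCS : C ^ 2 * triNum G ≤ 4 * ∑ t ∈ tri G, near G B t e ^ 2 := by
    have hcs := sq_sum_le_card_mul_sum_sq (s := tri G) (f := fun t => near G B t e)
    have h1 := pow_le_pow_left₀ (by positivity) hCb 2
    refine le_of_mul_le_mul_right ?_ hQ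
    simp only [triNum] at *
    nlinarith
  set A := (tri G).filter (e ∉ sides ·)
  have hσ : ((1 + drop G Y) / Y) ^ 2 ≤ 6/5 / Y ^ 2 := by
    rw [div_pow]; refine div_le_div_of_nonneg_right ?_ (sq_nonneg _)
    have := hd.drop_small; nlinarith
  calc ∑ t ∈ A, movedW G B Y w t e ^ 2
      ≤ ∑ t ∈ A, 6/5 / Y ^ 2 * (2 * near G B t e ^ 2 + 2 * C ^ 2) := sum_le_sum fun t _ => by
        rw [← sq_abs]
        refine (pow_le_pow_left₀ (abs_nonneg _) (hpoint t) 2).trans ?_
        rw [mul_pow]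
        exact mul_le_mul hσ (by nlinarith [sq_nonneg (near G B t e - C)]) (sq_nonneg _)
          (by positivity)
    _ ≤ ∑ t ∈ tri G, 6/5 / Y ^ 2 * (2 * near G B t e ^ 2 + 2 * C ^ 2) :=
        sum_le_sum_of_subset_of_nonneg (filter_subset _ _) fun t _ _ => by positivity
    _ = 6/5 / Y ^ 2 * (2 * (∑ t ∈ tri G, near G B t e ^ 2) + 2 * (C ^ 2 * triNum G)) := by
        rw [← mul_sum, sum_add_distrib, ← mul_sum, sum_const, nsmul_eq_mul, triNum]; ring
    _ ≤ 6/5 / Y ^ 2 * (10 * ∑ t ∈ tri G, near G B t e ^ 2) :=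
        mul_le_mul_of_nonneg_left (by linarith) (by positivity)
    _ = _ := by ring

theorem Dense.delta_sq (hd : Dense G B Y w) (e : Finset α) :
    ∑ t ∈ (tri G).filter (e ∉ sides ·), delta G B Y w t e ^ 2
      ≤ 6 * (drop G Y * Y) * xx G Y w e ^ 2 + 200 * cap Y ^ 2 / Y ^ 2 * kill G e
        + 50 / Y ^ 4 * ∑ t ∈ tri G, near G B t e ^ 2 := by
  have hY := hd.pos
  have hs := hd.drop_nonneg
  set A := (tri G).filter (e ∉ sides ·) with hA
  set c := (1 + drop G Y) / Y with hc
  have hc2 : c ^ 2 ≤ 4/3 / Y ^ 2 := by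
    rw [hc, div_pow]; refine div_le_div_of_nonneg_right ?_ (sq_nonneg _)
    have := hd.drop_small; nlinarith
  set s := drop G Y with hsd
  set x := xx G Y w e
  have point : ∀ t ∈ A, delta G B Y w t e ^ 2
      ≤ 3 * (s * x) ^ 2 + 4 / Y ^ 2 * (48 * cap Y ^ 2 * dk G t e)
        + 4 / Y ^ 2 * movedW G B Y w t e ^ 2 := fun t ht => by
    have h1 : c ^ 2 * lostW G w t e ^ 2 ≤ 4/3 / Y ^ 2 * (48 * cap Y ^ 2 * dk G t e) :=
      mul_le_mul hc2 (hd.lost_sq ht) (sq_nonneg _) (by positivity)
    have h2 : c ^ 2 * movedW G B Y w t e ^ 2 ≤ 4/3 / Y ^ 2 * movedW G B Y w t e ^ 2 :=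
      mul_le_mul_of_nonneg_right hc2 (sq_nonneg _)
    have e3 : (4 : ℝ) / Y ^ 2 = 3 * (4/3 / Y ^ 2) := by ring
    rw [delta, ← hc, e3]
    nlinarith [sq_nonneg (s * x + c * lostW G w t e), sq_nonneg (s * x - c * movedW G B Y w t e),
      sq_nonneg (c * lostW G w t e + c * movedW G B Y w t e)]
  refine (sum_le_sum point).trans ?_
  simp only [sum_add_distrib, sum_const, nsmul_eq_mul, ← mul_sum]
  rw [hA, sum_dk_avoid, card_avoid]
  have h1 : (triNum G - deg G e) * (3 * (s * x) ^ 2) ≤ 6 * (s * Y) * x ^ 2 := by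
    have e1 : triNum G * (3 * (s * x) ^ 2) = 6 * (s * Y) * x ^ 2 := by
      linear_combination (3 * s * x ^ 2) * hd.drop_mul
    have : 0 ≤ (deg G e : ℝ) * (3 * (s * x) ^ 2) := by positivity
    linarith
  have h2 : 4 / Y ^ 2 * (48 * cap Y ^ 2 * kill G e) ≤ 200 * cap Y ^ 2 / Y ^ 2 * kill G e := by
    have := kill_nonneg G e
    rw [show 4 / Y ^ 2 * (48 * cap Y ^ 2 * kill G e)
      = 192 * cap Y ^ 2 / Y ^ 2 * kill G e by ring]
    gcongr; norm_num
  have h3 := mul_le_mul_of_nonneg_left (hd.sum_moved_sq e) (show 0 ≤ 4 / Y ^ 2 by positivity)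
  have h4 : 4 / Y ^ 2 * (12 / Y ^ 2 * ∑ t ∈ tri G, near G B t e ^ 2)
      ≤ 50 / Y ^ 4 * ∑ t ∈ tri G, near G B t e ^ 2 := by
    rw [show 4 / Y ^ 2 * (12 / Y ^ 2 * ∑ t ∈ tri G, near G B t e ^ 2)
      = 48 / Y ^ 4 * ∑ t ∈ tri G, near G B t e ^ 2 by ring]
    gcongr; norm_num
  linarith

theorem Dense.tq_errors (hd : Dense G B Y w) :
    (∑ e ∈ G \ B, ∑ k ∈ (tri G).filter (e ∈ sides ·), tshare G Y k)
      + (∑ e ∈ G \ B, 200 * cap Y ^ 2 / Y ^ 2 * kill G e)
      + (∑ e ∈ G \ B, 50 / Y ^ 4 * ∑ t ∈ tri G, near G B t e ^ 2)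
      ≤ 10 ^ 11 * (((cycles G B).card : ℝ) / Y ^ 3 + cap Y * budget G B Y w) := by
  classical
  have hY := hd.pos
  have hL := hd.large
  have hc := cap_pos hY
  obtain ⟨hb0, hbp, hbψ, hbq⟩ := hd.bulk_parts
  have hp := hd.pd_nonneg
  have hm : 0 ≤ (G.card : ℝ) := Nat.cast_nonneg _
  have ht0 := taint_nonneg G B Y
  have hi := inv_le_cap_sq (show (1:ℝ) ≤ Y by linarith)
  have hi1 : 1 ≤ cap Y ^ 2 * Y := by rwa [← div_le_iff₀ hY]
  have k1 : ∑ e ∈ G \ B, ∑ k ∈ (tri G).filter (e ∈ sides ·), tshare G Y k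
      ≤ 3 * (3000000 * cap Y ^ 2 * (200 * bulk G B Y w) + 10 ^ 8 / Y ^ 2 * triNum G
        + 1500 * cap Y ^ 2 * pd G Y w) := by
    refine (sum_le_sum_of_subset_of_nonneg sdiff_subset fun e _ _ => sum_nonneg fun k _ => ?_).trans ?_
    · unfold tshare
      have := side_nonneg' (G := G) hY k
      have : 0 ≤ ∑ j ∈ sides k, phi (zeta G Y j - 1) := sum_nonneg fun _ _ => phi_nonneg _
      split_ifs <;> positivity
    rw [sum_star G (fun k _ => tshare G Y k),
      sum_congr rfl (fun k hk => show ∑ _i ∈ sides k, tshare G Y k = 3 * tshare G Y k by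
        rw [sum_const, card_sides hk, nsmul_eq_mul, Nat.cast_ofNat]), ← mul_sum]
    refine mul_le_mul_of_nonneg_left ?_ (by norm_num)
    simp only [tshare, sum_add_distrib, ← mul_sum, sum_const, nsmul_eq_mul]
    refine add_le_add (add_le_add (mul_le_mul_of_nonneg_left hd.sum_phiz (by positivity))
      (le_of_eq (by rw [triNum]; ring))) ?_
    rw [pd, mul_sum]
    refine sum_le_sum fun k hk => ?_
    have h0 := (hd.pt_bounds hk).1
    split_ifs with hb
    · have := mul_le_mul_of_nonneg_left (hd.big_le hk hb).1 (show 0 ≤ 300 * cap Y ^ 2 by positivity)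
      linarith
    · positivity
  have k2 : ∑ e ∈ G \ B, 200 * cap Y ^ 2 / Y ^ 2 * kill G e
      ≤ 40000 * cap Y ^ 2 * (pd G Y w + G.card) := by
    rw [← mul_sum]
    refine (mul_le_mul_of_nonneg_left ((sum_le_sum_of_subset_of_nonneg sdiff_subset
      fun e _ _ => kill_nonneg G e).trans hd.sum_kill_le) (by positivity)).trans ?_
    rw [show 200 * cap Y ^ 2 / Y ^ 2 * (200 * Y * (pd G Y w + G.card * Y))
      = 40000 * cap Y ^ 2 * (pd G Y w / Y + G.card) by field_simp; ring]
    refine mul_le_mul_of_nonneg_left (add_le_add ?_ le_rfl) (by positivity)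
    exact div_le_self hp (by linarith)
  have k3 : ∑ e ∈ G \ B, 50 / Y ^ 4 * ∑ t ∈ tri G, near G B t e ^ 2
      ≤ 200 * (((cycles G B).card : ℝ) / Y ^ 3)
        + 5 * 10 ^ 7 * (G.card / Y + (taint G B Y + phiSum G Y) + pd G Y w / Y) := by
    rw [← mul_sum]
    refine (mul_le_mul_of_nonneg_left hd.sum_near_sq (by positivity)).trans ?_
    have : 0 ≤ pd G Y w / Y := by positivity
    have : 0 ≤ taint G B Y + phiSum G Y := add_nonneg ht0 (phiSum_nonneg _ _)
    rw [show 50 / Y ^ 4 * (4 * Y * ((cycles G B).card : ℝ) + 1000000 * Y ^ 3 * G.card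
        + 10000 * Y ^ 4 * (taint G B Y + phiSum G Y) + 500 * Y ^ 3 * pd G Y w)
      = 200 * (((cycles G B).card : ℝ) / Y ^ 3) + (50000000 * (G.card / Y)
        + 500000 * (taint G B Y + phiSum G Y) + 25000 * (pd G Y w / Y)) by field_simp; ring]
    linarith
  have u : ∀ X : ℝ, 0 ≤ X → X / Y ≤ cap Y ^ 2 * X := fun X hX => by
    rw [div_eq_mul_one_div, mul_comm]; exact mul_le_mul_of_nonneg_right hi hX
  have v : ∀ X : ℝ, 0 ≤ X → X ≤ cap Y ^ 2 * (Y * X) := fun X hX => by
    have := mul_le_mul_of_nonneg_left hi1 hX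
    linarith
  have q1 : triNum G / Y ^ 2 ≤ 7 * (cap Y ^ 2 * pd G Y w + cap Y ^ 2 * G.card) := by
    have h1 := div_le_div_of_nonneg_right hd.sum_side_le.2 (sq_nonneg Y)
    refine h1.trans ?_
    rw [show 7 * (pd G Y w + G.card * Y) / Y ^ 2 = 7 * (pd G Y w / Y / Y + G.card / Y) by
      field_simp]
    have := u _ hm
    have := u _ hp
    have : pd G Y w / Y / Y ≤ pd G Y w / Y := div_le_self (by positivity) (by linarith)
    linarith
  have v1 := v _ ht0
  have v2 := v _ (phiSum_nonneg G Y)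
  have v3 : cap Y ^ 2 * (Y * phiSum G Y) ≤ 29 * (cap Y ^ 2 * bulk G B Y w) := by
    have := mul_le_mul_of_nonneg_left hd.phiSum_bulk hY.le
    have := mul_le_mul_of_nonneg_left
      (show Y * phiSum G Y ≤ 29 * bulk G B Y w by linarith) (sq_nonneg (cap Y))
    linarith
  have u1 := u _ hm
  have u2 := u _ hp
  have b1 := mul_le_mul_of_nonneg_left hbp (sq_nonneg (cap Y))
  have : 0 ≤ ((cycles G B).card : ℝ) / Y ^ 3 := by positivity
  have : 0 ≤ cap Y ^ 2 * bulk G B Y w := by positivity
  have : 0 ≤ cap Y ^ 2 * (Y * taint G B Y) := by positivity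
  have : 0 ≤ cap Y ^ 2 * (G.card : ℝ) := by positivity
  have e1 : (10 : ℝ) ^ 8 / Y ^ 2 * triNum G = 10 ^ 8 * (triNum G / Y ^ 2) := by ring
  unfold budget
  linarith

/-- One step for the neighbour average. -/
theorem Dense.tq_step (hd : Dense G B Y w) :
    ∑ t ∈ tri G, tq (G \ sides t) (nextB G B Y t) (nextY G Y) (nextW G B Y w t)
      ≤ triNum G * tq G B Y w - 4/5 * (Y * tq G B Y w)
        + 10 ^ 15 * (((cycles G B).card : ℝ) / Y ^ 3 + cap Y * budget G B Y w) := by
  classical
  have hY := hd.pos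
  have h0 : ∀ t ∈ tri G, tq (G \ sides t) (nextB G B Y t) (nextY G Y) (nextW G B Y w t)
      ≤ ∑ e ∈ (G \ B) \ sides t, (xx G Y w e + delta G B Y w t e) ^ 2 := by
    intro t _
    rw [tq, ← sum_congr rfl (fun e _ => show
      xx (G \ sides t) (nextY G Y) (nextW G B Y w t) e ^ 2
        = (xx G Y w e + delta G B Y w t e) ^ 2 by rw [hd.xx_next])]
    refine sum_le_sum_of_subset_of_nonneg ?_ fun _ _ _ => sq_nonneg _
    intro e he
    simp only [nextB, mem_sdiff, mem_union, not_or] at he ⊢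
    exact ⟨⟨he.1.1, he.2.1⟩, he.1.2⟩
  refine (sum_le_sum h0).trans ?_
  rw [sum_avoid_comm G (G \ B)]
  have main : ∀ e ∈ G \ B,
      ∑ t ∈ (tri G).filter (e ∉ sides ·), (xx G Y w e + delta G B Y w t e) ^ 2
      ≤ (triNum G - 4/5 * Y) * xx G Y w e ^ 2
        + ((∑ k ∈ (tri G).filter (e ∈ sides ·), tshare G Y k)
          + 200 * cap Y ^ 2 / Y ^ 2 * kill G e
          + 50 / Y ^ 4 * ∑ t ∈ tri G, near G B t e ^ 2) := by
    intro e he
    obtain ⟨hd1, hd2⟩ := hd.flat_deg he
    set x := xx G Y w e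
    have ex : ∑ t ∈ (tri G).filter (e ∉ sides ·), (x + delta G B Y w t e) ^ 2
        = (triNum G - deg G e) * x ^ 2
          + 2 * x * (∑ t ∈ (tri G).filter (e ∉ sides ·), delta G B Y w t e)
          + ∑ t ∈ (tri G).filter (e ∉ sides ·), delta G B Y w t e ^ 2 := by
      rw [← card_avoid, ← nsmul_eq_mul, ← sum_const, mul_sum, ← sum_add_distrib, ← sum_add_distrib]
      exact sum_congr rfl fun t _ => by ring
    rw [ex]
    have hx2 : 0 ≤ x ^ 2 := sq_nonneg x
    have p2 : 2 * x * (∑ t ∈ (tri G).filter (e ∉ sides ·), delta G B Y w t e)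
        ≤ (deg G e : ℝ) * (x ^ 2 / 25)
          + ∑ k ∈ (tri G).filter (e ∈ sides ·), tshare G Y k := by
      refine (le_abs_self _).trans ?_
      rw [abs_mul, abs_mul, abs_of_pos (show (0:ℝ) < 2 by norm_num)]
      refine (mul_le_mul_of_nonneg_left (hd.drift_le he) (by positivity)).trans ?_
      rw [mul_sum, show (deg G e : ℝ) * (x ^ 2 / 25)
        = ∑ _k ∈ (tri G).filter (e ∈ sides ·), x ^ 2 / 25 by rw [sum_const, nsmul_eq_mul]; rfl,
        ← sum_add_distrib]
      exact sum_le_sum fun k hk => hd.cross_x he (mem_filter.1 hk).1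
    have p3 : 6 * (drop G Y * Y) * x ^ 2 ≤ 1/100 * Y * x ^ 2 := by
      refine mul_le_mul_of_nonneg_right ?_ hx2
      have := hd.drop_small
      have := hd.drop_nonneg
      nlinarith [mul_le_mul_of_nonneg_right hd.drop_small hY.le]
    have p4 := mul_le_mul_of_nonneg_right hd1 hx2
    have p5 := mul_le_mul_of_nonneg_right hd2 (show 0 ≤ x ^ 2 / 25 by positivity)
    have := hd.delta_sq e
    have : 0 ≤ Y * x ^ 2 := by positivity
    linarith
  refine (sum_le_sum main).trans ?_
  rw [sum_add_distrib, sum_add_distrib, sum_add_distrib, ← mul_sum]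
  have := hd.tq_errors
  have hnn : 0 ≤ ((cycles G B).card : ℝ) / Y ^ 3 + cap Y * budget G B Y w := by
    refine add_nonneg (by positivity) (mul_nonneg (cap_pos hY).le ?_)
    obtain ⟨hb0, -, -, -⟩ := hd.bulk_parts
    have := taint_nonneg G B Y
    unfold budget
    have := cap_pos hY
    positivity
  unfold tq
  linarith

end Vale.Agent.P046.Sharp
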