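import Vale.Agent.P046.Sharp.Sums

/-! P046: one step for the martingale part and for the tainted edges. -/

open Finset

namespace Vale.Agent.P046.Sharp

variable {α : Type*} [DecidableEq α] [Fintype α] {G B : Finset (Finset α)} {Y : ℝ}
  {w : Finset α → ℝ} {t k e : Finset α}

/-- The increment of the relative degree. -/
noncomputable def hh (G : Finset (Finset α)) (Y : ℝ) (t e : Finset α) : ℝ :=
  drop G Y * zeta G Y e - (1 + drop G Y) / Y * dk G t e

theorem Dense.zeta_next (h : Dense G B Y w) (he : e ∉ sides t) :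
    zeta (G \ sides t) (nextY G Y) e = zeta G Y e + hh G Y t e := by
  have h1 : (deg (G \ sides t) e : ℝ) + dkill G t e = deg G e := by exact_mod_cast deg_sdiff he
  have hs : (1 : ℝ) + drop G Y ≠ 0 := by have := h.drop_nonneg; linarith
  rw [hh, dk_eq he, zeta, zeta, show (deg (G \ sides t) e : ℝ) = deg G e - dkill G t e by linarith,
    nextY]
  have := h.pos
  field_simp
  ring

theorem Dense.sum_hh (h : Dense G B Y w) (he : e ∈ G) :
    ∑ t ∈ (tri G).filter (e ∉ sides ·), hh G Y t e
      = ∑ k ∈ (tri G).filter (e ∈ sides ·),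
          (2 - (1 + drop G Y) * (side G Y k - zeta G Y e - 2 / Y) - drop G Y * zeta G Y e) := by
  simp only [hh]
  rw [sum_sub_distrib, sum_const, nsmul_eq_mul, card_avoid, ← mul_sum, sum_dk_avoid, kill_eq he,
    mul_sum]
  have hd : drop G Y * triNum G = 2 * Y := h.drop_mul
  have e1 : (triNum G - deg G e) * (drop G Y * zeta G Y e)
      = ∑ _k ∈ (tri G).filter (e ∈ sides ·), (2 - drop G Y * zeta G Y e) := by
    rw [sum_const, nsmul_eq_mul]
    change _ = (deg G e : ℝ) * _
    have hY := h.pos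
    simp only [zeta]
    field_simp
    linear_combination (deg G e : ℝ) * hd
  rw [e1, ← sum_sub_distrib]
  refine sum_congr rfl fun k _ => ?_
  have hY := h.pos
  simp only [side, zeta, ← sum_div]
  field_simp
  ring

theorem Dense.sum_hh_sq (h : Dense G B Y w) (e : Finset α) :
    ∑ t ∈ (tri G).filter (e ∉ sides ·), hh G Y t e ^ 2
      ≤ 4 * Y * drop G Y * zeta G Y e ^ 2 + 7 / Y ^ 2 * kill G e := by
  have hs := h.drop_nonneg
  have hY := h.pos
  have hd : drop G Y * triNum G = 2 * Y := h.drop_mul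
  calc ∑ t ∈ (tri G).filter (e ∉ sides ·), hh G Y t e ^ 2
      ≤ ∑ t ∈ (tri G).filter (e ∉ sides ·),
          (2 * drop G Y ^ 2 * zeta G Y e ^ 2 + 7 / Y ^ 2 * dk G t e) := sum_le_sum fun t ht => by
        have h3 := dk_le_three (e := e) (mem_filter.1 ht).1
        have h0 := dk_nonneg G t e
        set u := (1 + drop G Y) / Y * dk G t e with hu
        have h4 : u ^ 2 ≤ 7/2 / Y ^ 2 * dk G t e := by
          rw [hu, mul_pow, div_pow, div_mul_eq_mul_div, div_mul_eq_mul_div]
          refine div_le_div_of_nonneg_right ?_ (sq_nonneg _)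
          have : (1 + drop G Y) ^ 2 ≤ 21/20 := by have := h.drop_small; nlinarith
          calc (1 + drop G Y) ^ 2 * dk G t e ^ 2 ≤ 21/20 * (3 * dk G t e) :=
                mul_le_mul this (by nlinarith) (sq_nonneg _) (by norm_num)
            _ ≤ _ := by linarith
        have h5 : 2 * (7/2 / Y ^ 2 * dk G t e) = 7 / Y ^ 2 * dk G t e := by ring
        rw [hh, ← hu]
        nlinarith [sq_nonneg (drop G Y * zeta G Y e + u)]
    _ ≤ _ := by
        rw [sum_add_distrib, sum_const, nsmul_eq_mul, card_avoid, ← mul_sum, sum_dk_avoid]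
        have : 0 ≤ (deg G e : ℝ) * (2 * drop G Y ^ 2 * zeta G Y e ^ 2) := by positivity
        have e2 : triNum G * (2 * drop G Y ^ 2 * zeta G Y e ^ 2)
            = 4 * Y * drop G Y * zeta G Y e ^ 2 := by
          linear_combination (2 * drop G Y * zeta G Y e ^ 2) * hd
        linarith

theorem sum_kill_eq (G : Finset (Finset α)) :
    ∑ e ∈ G, kill G e = ∑ t ∈ tri G, ∑ e ∈ G \ sides t, (dkill G t e : ℝ) := by
  simp only [kill]
  rw [sum_comm]
  refine sum_congr rfl fun t ht => ?_
  rw [← sum_sdiff (mem_tri.1 ht).2, sum_eq_zero (s := sides t) (f := fun e => dk G t e) (fun e he => if_pos he), add_zero]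
  exact sum_congr rfl fun e he => dk_eq (mem_sdiff.1 he).2

theorem Dense.sum_kill_le (h : Dense G B Y w) :
    ∑ e ∈ G, kill G e ≤ 200 * Y * (pd G Y w + G.card * Y) := by
  rw [sum_kill_eq]
  have h1 := sum_dkill G (fun _ => (1 : ℝ))
  simp only [mul_one, one_mul] at h1
  rw [h1]
  refine le_trans (sum_le_sum fun t ht => ?_)
    (le_trans (le_of_eq (mul_sum _ _ (2 * Y)).symm)
      ((mul_le_mul_of_nonneg_left h.sum_side_le.1 (by linarith [h.pos])).trans (by linarith)))
  simp only [sum_sub_distrib, sum_const, card_sides ht, side, zeta, ← sum_div, nsmul_eq_mul]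
  have hY := h.pos
  field_simp
  push_cast
  linarith [sum_nonneg (s := sides t) (fun i _ => (Nat.cast_nonneg (deg G i) : (0:ℝ) ≤ _))]

theorem sum_avoid_comm (G : Finset (Finset α)) (S : Finset (Finset α))
    (f : Finset α → Finset α → ℝ) :
    ∑ t ∈ tri G, ∑ e ∈ S \ sides t, f t e
      = ∑ e ∈ S, ∑ t ∈ (tri G).filter (e ∉ sides ·), f t e := by
  refine sum_comm' fun t e => ?_
  simp only [mem_filter, mem_sdiff]
  tauto

/-- One step for the martingale part. -/
theorem Dense.sq_step (h : Dense G B Y w) :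
    ∑ t ∈ tri G, sq (G \ sides t) (nextW G B Y w t)
      ≤ triNum G * sq G w + Y * (-(9/10) * sq G w + 4 * cap Y ^ 2 * taint G B Y)
        + 800 / Y * (pd G Y w + G.card * Y) := by
  have hY := h.pos
  simp only [sq, nextW]
  have e1 : ∀ t ∈ tri G, ∑ e ∈ G \ sides t, (w e + dw G B Y w t e) ^ 2
      = (∑ e ∈ G, w e ^ 2 - ∑ e ∈ sides t, w e ^ 2)
        + ∑ e ∈ G, 2 * w e * dw G B Y w t e + ∑ e ∈ G, dw G B Y w t e ^ 2 := fun t ht => by
    rw [← sum_sdiff (mem_tri.1 ht).2 (f := fun e => w e ^ 2), add_sub_cancel_right,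
      ← sum_sdiff (mem_tri.1 ht).2 (f := fun e => 2 * w e * dw G B Y w t e),
      ← sum_sdiff (mem_tri.1 ht).2 (f := fun e => dw G B Y w t e ^ 2),
      sum_eq_zero (s := sides t) (fun e he => by rw [dw_sides he, mul_zero]),
      sum_eq_zero (s := sides t) (f := fun e => dw G B Y w t e ^ 2)
        (fun e he => by rw [dw_sides he]; ring), add_zero, add_zero,
      ← sum_add_distrib, ← sum_add_distrib]
    exact sum_congr rfl fun e _ => by ring
  rw [sum_congr rfl e1]
  simp only [sum_add_distrib, sum_sub_distrib, sum_const, nsmul_eq_mul]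
  rw [sum_tri_sides, sum_comm (f := fun t e => 2 * w e * dw G B Y w t e),
    sum_eq_zero (s := G) (f := fun e => ∑ t ∈ tri G, 2 * w e * dw G B Y w t e)
      (fun e _ => by rw [← mul_sum, sum_dw, mul_zero]),
    sum_comm (f := fun t e => dw G B Y w t e ^ 2)]
  have hV : ∑ e ∈ G, ∑ t ∈ tri G, dw G B Y w t e ^ 2
      ≤ 800 / Y * (pd G Y w + G.card * Y) := by
    refine (sum_le_sum fun e _ => h.sum_dw_sq e).trans ?_
    rw [← mul_sum]
    calc 4 / Y ^ 2 * ∑ e ∈ G, kill G e ≤ 4 / Y ^ 2 * (200 * Y * (pd G Y w + G.card * Y)) :=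
          mul_le_mul_of_nonneg_left h.sum_kill_le (by positivity)
      _ = _ := by field_simp; ring
  have hR : 9/10 * Y * ∑ e ∈ G, w e ^ 2 - 4 * Y * cap Y ^ 2 * taint G B Y
      ≤ ∑ e ∈ G, (deg G e : ℝ) * w e ^ 2 := by
    rw [← sum_sdiff (inter_subset_left : G ∩ B ⊆ G) (f := fun e => w e ^ 2),
      ← sum_sdiff (inter_subset_left : G ∩ B ⊆ G) (f := fun e => (deg G e : ℝ) * w e ^ 2),
      sdiff_inter_self_left]
    have a1 : 9/10 * Y * ∑ e ∈ G \ B, w e ^ 2 ≤ ∑ e ∈ G \ B, (deg G e : ℝ) * w e ^ 2 := by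
      rw [mul_sum]
      exact sum_le_sum fun e he => mul_le_mul_of_nonneg_right (h.flat_deg he).1 (sq_nonneg _)
    have a2 : ∑ e ∈ G ∩ B, w e ^ 2 ≤ 4 * cap Y ^ 2 * taint G B Y := by
      refine (sum_le_card_nsmul _ _ (4 * cap Y ^ 2) fun e _ => ?_).trans ?_
      · calc w e ^ 2 ≤ (2 * cap Y) ^ 2 :=
              sq_le_sq.2 (le_trans (h.good.small e) (le_abs_self _))
          _ = _ := by ring
      · rw [nsmul_eq_mul, mul_comm]
        exact mul_le_mul_of_nonneg_left (card_tainted_le G B Y) (by positivity)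
    have a2' := mul_le_mul_of_nonneg_left a2 hY.le
    have a3 : 0 ≤ ∑ e ∈ G ∩ B, (deg G e : ℝ) * w e ^ 2 := sum_nonneg fun e _ => by positivity
    have a4 : 0 ≤ Y * ∑ e ∈ G ∩ B, w e ^ 2 :=
      mul_nonneg hY.le (sum_nonneg fun e _ => sq_nonneg _)
    linarith
  simp only [triNum] at *
  linarith

theorem abs_mul_le_phi {a b : ℝ} (ha : |a| ≤ 1/10) (hb : -1 ≤ b) :
    |a| * |b| ≤ 100 * (phi a + phi b) := by
  obtain ⟨a1, a2⟩ := abs_le.1 ha
  have h1 := sq_le_phi (show -1 ≤ a by linarith) (show a ≤ 1 by linarith)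
  have := phi_nonneg a
  have := phi_nonneg b
  rcases le_or_gt b 1 with h | h
  · have := sq_le_phi hb h
    nlinarith [sq_nonneg (|a| - |b|), sq_abs a, sq_abs b]
  · have := le_two_phi h
    rw [abs_of_pos (show 0 < b by linarith)]
    nlinarith [abs_nonneg a]

/-- One step for the tainted edges. -/
theorem Dense.taint_step (h : Dense G B Y w) :
    ∑ t ∈ tri G, taint (G \ sides t) (nextB G B Y t) (nextY G Y)
      ≤ triNum G * taint G B Y + 10 ^ 9 * (bulk G B Y w + G.card) := by
  classical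
  have hY := h.pos
  have hs := h.drop_nonneg
  set U := G \ B with hU
  have point : ∀ t ∈ tri G, taint (G \ sides t) (nextB G B Y t) (nextY G Y)
      ≤ ((G ∩ B).card : ℝ)
        + ∑ e ∈ U \ sides t, 100 * (zeta G Y e + hh G Y t e - 1) ^ 2 := by
    intro t ht
    set G' := G \ sides t with hG'
    set N := G'.filter fun e => 1/10 < |zeta G' (nextY G Y) e - 1| with hN
    have e1 : G' \ nextB G B Y t = (G' \ B) \ (N \ B) := by
      ext e; simp only [nextB, ← hG', ← hN, mem_sdiff, mem_union]; tauto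
    have e2 : G' ∩ nextB G B Y t = (G' ∩ B) ∪ (N \ B) := by
      have hs : N ⊆ G' := filter_subset _ _
      ext e; simp only [nextB, ← hG', ← hN, mem_inter, mem_union, mem_sdiff]
      have := @hs e; tauto
    have hsub : N \ B ⊆ G' \ B := sdiff_subset_sdiff (filter_subset _ _) le_rfl
    have e3 : U \ sides t = G' \ B := by
      ext e; simp only [hU, hG', mem_sdiff]; tauto
    rw [taint, e1, e2, e3, ← sum_sdiff hsub
      (f := fun e => 100 * (zeta G Y e + hh G Y t e - 1) ^ 2)]
    have hz : ∀ e ∈ G', zeta G' (nextY G Y) e = zeta G Y e + hh G Y t e :=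
      fun e he => h.zeta_next (mem_sdiff.1 he).2
    rw [sum_congr rfl (fun e he => show 100 * (zeta G' (nextY G Y) e - 1) ^ 2
      = 100 * (zeta G Y e + hh G Y t e - 1) ^ 2 by
      rw [hz e (mem_sdiff.1 (mem_sdiff.1 he).1).1])]
    have c1 : (((G' ∩ B) ∪ (N \ B)).card : ℝ)
        ≤ ((G ∩ B).card : ℝ) + ((N \ B).card : ℝ) := by
      have := card_union_le (G' ∩ B) (N \ B)
      have := card_le_card (show G' ∩ B ⊆ G ∩ B from inter_subset_inter_right sdiff_subset)
      have : ((G' ∩ B) ∪ (N \ B)).card ≤ (G ∩ B).card + (N \ B).card := by omega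
      exact_mod_cast this
    have c2 : ((N \ B).card : ℝ)
        ≤ ∑ e ∈ N \ B, 100 * (zeta G Y e + hh G Y t e - 1) ^ 2 := by
      rw [card_eq_sum_ones, Nat.cast_sum]
      refine sum_le_sum fun e he => ?_
      obtain ⟨he', hgt⟩ := mem_filter.1 (mem_sdiff.1 he).1
      rw [hz e he'] at hgt
      have := pow_le_pow_left₀ (by norm_num) hgt.le 2
      rw [sq_abs] at this
      norm_num
      linarith
    linarith
  refine (sum_le_sum point).trans ?_
  rw [sum_add_distrib, sum_const, nsmul_eq_mul, sum_avoid_comm G U, taint, ← hU,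
    mul_add, mul_sum, add_assoc]
  refine add_le_add le_rfl ?_
  have main : ∀ e ∈ U, ∑ t ∈ (tri G).filter (e ∉ sides ·),
        100 * (zeta G Y e + hh G Y t e - 1) ^ 2
      ≤ triNum G * (100 * (zeta G Y e - 1) ^ 2)
        + ((∑ k ∈ (tri G).filter (e ∈ sides ·), ((∑ i ∈ sides k, 2 * 10 ^ 5 * phi (zeta G Y i - 1))
            + 2 * 10 ^ 5 * phi (zeta G Y e - 1) + 1000 / Y ^ 2))
          + (1000 + 700 / Y ^ 2 * kill G e)) := by
    intro e he
    have heG := (mem_sdiff.1 he).1
    have hflat := h.good.flat e heG (mem_sdiff.1 he).2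
    obtain ⟨hy1, hy2⟩ := abs_le.1 hflat
    have ex : ∑ t ∈ (tri G).filter (e ∉ sides ·), 100 * (zeta G Y e + hh G Y t e - 1) ^ 2
        = (triNum G - deg G e) * (100 * (zeta G Y e - 1) ^ 2)
          + 200 * (zeta G Y e - 1) * (∑ t ∈ (tri G).filter (e ∉ sides ·), hh G Y t e)
          + 100 * ∑ t ∈ (tri G).filter (e ∉ sides ·), hh G Y t e ^ 2 := by
      rw [← card_avoid, ← nsmul_eq_mul, ← sum_const, mul_sum, mul_sum, ← sum_add_distrib,
        ← sum_add_distrib]
      exact sum_congr rfl fun t _ => by ring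
    rw [ex]
    have p1 : 0 ≤ (deg G e : ℝ) * (100 * (zeta G Y e - 1) ^ 2) := by positivity
    have p2 : 200 * (zeta G Y e - 1) * (∑ t ∈ (tri G).filter (e ∉ sides ·), hh G Y t e)
        ≤ ∑ k ∈ (tri G).filter (e ∈ sides ·), ((∑ i ∈ sides k, 2 * 10 ^ 5 * phi (zeta G Y i - 1))
            + 2 * 10 ^ 5 * phi (zeta G Y e - 1) + 1000 / Y ^ 2) := by
      rw [h.sum_hh heG, mul_sum]
      refine sum_le_sum fun k hk => ?_
      simp only [mem_filter] at hk
      set z := fun i => zeta G Y i - 1 with hz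
      have hside : side G Y k - zeta G Y e = 2 + ∑ i ∈ (sides k).erase e, z i := by
        simp only [hz, side]
        rw [← add_sum_erase _ _ hk.2, sum_sub_distrib, sum_const, card_erase_of_mem hk.2,
          card_sides hk.1]
        simp
      rw [show side G Y k - zeta G Y e - 2 / Y = 2 + (∑ i ∈ (sides k).erase e, z i) - 2 / Y by
        rw [← hside]]
      set Z := ∑ i ∈ (sides k).erase e, z i
      have hzz : |z e| * |Z| ≤ ∑ i ∈ sides k, 100 * phi (z i) + 200 * phi (z e) := by
        refine (mul_le_mul_of_nonneg_left (abs_sum_le_sum_abs _ _) (abs_nonneg _)).trans ?_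
        rw [mul_sum]
        refine (sum_le_sum (g := fun i => 100 * (phi (z e) + phi (z i))) fun i _ =>
          abs_mul_le_phi hflat (by have := zeta_nonneg' (G := G) hY i; simp only [hz]; linarith)).trans ?_
        simp only [mul_add, sum_add_distrib, sum_const, card_erase_of_mem hk.2, card_sides hk.1]
        have : ∑ i ∈ (sides k).erase e, 100 * phi (z i) ≤ ∑ i ∈ sides k, 100 * phi (z i) :=
          sum_le_sum_of_subset_of_nonneg (erase_subset _ _) fun i _ _ => by
            have := phi_nonneg (z i); positivity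
        simp
        linarith
      have he2 := sq_le_phi (show -1 ≤ z e by simp only [hz]; linarith)
        (show z e ≤ 1 by simp only [hz]; linarith)
      have hlin : |2 - (1 + drop G Y) * (2 + Z - 2 / Y) - drop G Y * zeta G Y e|
          ≤ 101/100 * |Z| + 6 / Y := by
        have a1 := h.drop_le_inv
        have a2 := h.drop_small
        have a3 : drop G Y * zeta G Y e ≤ 11/10 * (1 / Y) :=
          (mul_le_mul a1 (show zeta G Y e ≤ 11/10 by linarith) (zeta_nonneg' hY e)
            (by positivity)).trans (by linarith)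
        have a4 : 0 ≤ drop G Y * zeta G Y e := mul_nonneg hs (zeta_nonneg' hY e)
        have a5 : drop G Y * (2 / Y) ≤ 1 / Y := by
          have : drop G Y * (2 / Y) ≤ 1/1000 * (2 / Y) :=
            mul_le_mul_of_nonneg_right a2 (by positivity)
          have e : (2:ℝ) / Y = 2 * (1 / Y) := by ring
          have : 0 ≤ 1 / Y := by positivity
          linarith
        have a6 : |(1 + drop G Y) * Z| ≤ 101/100 * |Z| := by
          rw [abs_mul, abs_of_nonneg (show 0 ≤ 1 + drop G Y by linarith)]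
          exact mul_le_mul_of_nonneg_right (by linarith) (abs_nonneg _)
        obtain ⟨a7, a8⟩ := abs_le.1 a6
        have : 0 ≤ drop G Y * (2 / Y) := by positivity
        have e6 : (6:ℝ) / Y = 6 * (1 / Y) := by ring
        have e2 : (2:ℝ) / Y = 2 * (1 / Y) := by ring
        rw [abs_le]; constructor <;> linarith
      calc 200 * (zeta G Y e - 1) * (2 - (1 + drop G Y) * (2 + Z - 2 / Y) - drop G Y * zeta G Y e)
          ≤ 200 * |z e| * (101/100 * |Z| + 6 / Y) := by
            refine (le_abs_self _).trans ?_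
            rw [abs_mul, abs_mul, abs_of_pos (show (0:ℝ) < 200 by norm_num)]
            exact mul_le_mul_of_nonneg_left hlin (by positivity)
        _ = 202 * (|z e| * |Z|) + 1200 * (|z e| * (1 / Y)) := by ring
        _ ≤ _ := by
            have y2 : |z e| * (1 / Y) ≤ z e ^ 2 / 2 + 1 / Y ^ 2 / 2 := by
              nlinarith [sq_nonneg (|z e| - 1 / Y), sq_abs (z e), one_div_pow Y 2]
            have q1 := phi_nonneg (z e)
            have q2 : 0 ≤ ∑ i ∈ sides k, phi (z i) := sum_nonneg fun i _ => phi_nonneg _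
            have e3 : (1000:ℝ) / Y ^ 2 = 1000 * (1 / Y ^ 2) := by ring
            have q3 : 0 ≤ 1 / Y ^ 2 := by positivity
            simp only [← mul_sum] at hzz ⊢
            simp only [hz] at *
            linarith
    have p3 : 100 * ∑ t ∈ (tri G).filter (e ∉ sides ·), hh G Y t e ^ 2
        ≤ 1000 + 700 / Y ^ 2 * kill G e := by
      have b1 : 4 * Y * drop G Y * zeta G Y e ^ 2 ≤ 10 := by
        have : Y * drop G Y ≤ 1 := by
          have := h.drop_le_inv; rw [le_div_iff₀ hY] at this; linarith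
        nlinarith [sq_nonneg (zeta G Y e), mul_nonneg hY.le hs]
      have e7 : (700:ℝ) / Y ^ 2 * kill G e = 100 * (7 / Y ^ 2 * kill G e) := by ring
      linarith [h.sum_hh_sq e]
    linarith
  refine (sum_le_sum main).trans ?_
  rw [sum_add_distrib]
  refine add_le_add le_rfl ?_
  rw [sum_add_distrib, sum_add_distrib, sum_const, nsmul_eq_mul]
  have t1 : ∑ e ∈ U, ∑ k ∈ (tri G).filter (e ∈ sides ·),
        ((∑ i ∈ sides k, 2 * 10 ^ 5 * phi (zeta G Y i - 1)) + 2 * 10 ^ 5 * phi (zeta G Y e - 1) + 1000 / Y ^ 2)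
      ≤ 8 * 10 ^ 5 * (200 * bulk G B Y w) + 3000 / Y ^ 2 * triNum G := by
    refine (sum_le_sum_of_subset_of_nonneg sdiff_subset fun e _ _ => sum_nonneg fun k _ =>
      add_nonneg (add_nonneg (sum_nonneg fun i _ => mul_nonneg (by norm_num) (phi_nonneg _))
        (mul_nonneg (by norm_num) (phi_nonneg _))) (by positivity)).trans ?_
    rw [sum_star G (fun k i => (∑ j ∈ sides k, 2 * 10 ^ 5 * phi (zeta G Y j - 1))
      + 2 * 10 ^ 5 * phi (zeta G Y i - 1) + 1000 / Y ^ 2)]
    refine le_trans (le_of_eq ?_) (add_le_add (mul_le_mul_of_nonneg_left h.sum_phiz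
      (by norm_num)) le_rfl)
    rw [mul_sum, triNum, show (3000 : ℝ) / Y ^ 2 * ((tri G).card : ℝ)
      = ∑ _t ∈ tri G, 3000 / Y ^ 2 by rw [sum_const, nsmul_eq_mul, mul_comm], ← sum_add_distrib]
    refine sum_congr rfl fun t ht => ?_
    simp only [sum_add_distrib, sum_const, card_sides ht, ← mul_sum]
    ring
  have t2 : ∑ e ∈ U, 700 / Y ^ 2 * kill G e
      ≤ 700 / Y ^ 2 * (200 * Y * (pd G Y w + G.card * Y)) := by
    rw [← mul_sum]
    refine mul_le_mul_of_nonneg_left ((sum_le_sum_of_subset_of_nonneg sdiff_subset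
      fun e _ _ => kill_nonneg G e).trans h.sum_kill_le) (by positivity)
  have t3 : (U.card : ℝ) ≤ G.card := by exact_mod_cast card_le_card sdiff_subset
  have t4 := h.sum_side_le.2
  have hp := h.pd_nonneg
  have hb : pd G Y w ≤ bulk G B Y w := by
    have := psi_nonneg G Y w; have := sq_nonneg' G w; have := taint_nonneg G B Y
    unfold bulk
    have : 0 ≤ Y * (psi G Y w + sq G w + cap Y ^ 2 * taint G B Y) := by positivity
    linarith
  have hL := h.large
  have i2 : 3000 / Y ^ 2 * triNum G ≤ pd G Y w + G.card := by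
    rw [div_mul_eq_mul_div, div_le_iff₀ (by positivity)]
    have : pd G Y w * (21000 : ℝ) ≤ pd G Y w * Y ^ 2 :=
      mul_le_mul_of_nonneg_left (by nlinarith) hp
    have : (G.card : ℝ) * (21000 * Y) ≤ (G.card : ℝ) * Y ^ 2 :=
      mul_le_mul_of_nonneg_left (by nlinarith) (Nat.cast_nonneg _)
    nlinarith
  have i3 : 700 / Y ^ 2 * (200 * Y * (pd G Y w + G.card * Y))
      ≤ pd G Y w + 140000 * G.card := by
    rw [show 700 / Y ^ 2 * (200 * Y * (pd G Y w + G.card * Y))
      = 140000 * pd G Y w / Y + 140000 * G.card by field_simp; ring]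
    have : 140000 * pd G Y w / Y ≤ pd G Y w := by rw [div_le_iff₀ hY]; nlinarith
    linarith
  have : 0 ≤ (G.card : ℝ) := Nat.cast_nonneg _
  linarith

end Vale.Agent.P046.Sharp
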