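import Vale.Agent.P046.Sharp.Theta
import Vale.Agent.P046.Sharp.StepPsiMain
import Vale.Agent.P046.Sharp.Cycles
import Vale.Agent.P046.Sharp.StepTMain
import Vale.Agent.P046.Sharp.StepTaint

/-!
P046: the certificate. The six potentials are combined as
`β √Y ψ + √Y cap (K₂ W₂ + K_G Γ) + (4/ε) √Y T + K_W Y^{-7/2} W / ε`.
-/

open Finset Filter

namespace Vale.Agent.P046.Sharp

variable {α : Type*} [DecidableEq α] [Fintype α]

/-- The ratio that measures the distance to the start. -/
noncomputable def rho (N Y : ℝ) : ℝ := cap N / cap Y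

/-- The Young parameter. -/
noncomputable def eps (N Y : ℝ) : ℝ := cap Y + 1 / 450 * rho N Y

/-- The coefficient of the drift part. -/
noncomputable def beta (N Y : ℝ) : ℝ := 2 - 10 ^ 29 * cap Y + rho N Y

/-- The scale factor of the cycle count. -/
noncomputable def inv7 (Y : ℝ) : ℝ := 1 / (Y ^ 3 * √Y)

/-- The penalty. -/
noncomputable def pen (N : ℝ) (G B : Finset (Finset α)) (Y : ℝ) (w : Finset α → ℝ) : ℝ :=
  beta N Y * √Y * psi G Y w + √Y * cap Y * (10 ^ 27 * sq G w + 10 ^ 17 * taint G B Y)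
    + 4 / eps N Y * √Y * tq G B Y w + 10 ^ 17 * inv7 Y / eps N Y * (cycles G B).card

/-- The step of the neighbour potential. -/
def TqBound (α : Type*) [DecidableEq α] [Fintype α] : Prop :=
  ∀ (G B : Finset (Finset α)) (Y : ℝ) (w : Finset α → ℝ), Dense G B Y w →
    ∑ t ∈ tri G, tq (G \ sides t) (nextB G B Y t) (nextY G Y) (nextW G B Y w t) ≤
      triNum G * tq G B Y w - 4 / 5 * (Y * tq G B Y w)
        + 10 ^ 15 * ((cycles G B).card / Y ^ 3 + cap Y * budget G B Y w)

variable {G B : Finset (Finset α)} {Y N : ℝ} {w : Finset α → ℝ}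

theorem rho_nonneg (hN : 0 < N) (hY : 0 < Y) : 0 ≤ rho N Y :=
  (div_pos (cap_pos hN) (cap_pos hY)).le

theorem rho_le_one (hY : 0 < Y) (h : Y ≤ N) : rho N Y ≤ 1 := by
  rw [rho, div_le_one (cap_pos hY)]; exact cap_anti hY h

theorem eps_pos (hN : 0 < N) (hY : 0 < Y) : 0 < eps N Y :=
  add_pos_of_pos_of_nonneg (cap_pos hY) (mul_nonneg (by norm_num) (rho_nonneg hN hY))

theorem cap_le_eps (hN : 0 < N) (hY : 0 < Y) : cap Y ≤ eps N Y :=
  le_add_of_nonneg_right (mul_nonneg (by norm_num) (rho_nonneg hN hY))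

/-- The factor by which the cap grows. -/
noncomputable def grow (s : ℝ) : ℝ := (1 + s) ^ (1 / 50 : ℝ)

theorem grow_bounds {s : ℝ} (hs : 0 ≤ s) (hs1 : s ≤ 1 / 1000) :
    1 + s / 150 ≤ grow s ∧ grow s ≤ 1 + s / 50 := by
  have h1 : 0 < 1 + s := by linarith
  refine ⟨?_, ?_⟩
  · have := cap_next (Y := 1) one_pos hs (by linarith)
    rw [cap, cap, Real.one_rpow, one_mul, one_div, Real.inv_rpow h1.le,
      Real.rpow_neg h1.le, inv_inv] at this
    exact this
  · refine le_trans (rpow_one_add_le_one_add_mul_self (by linarith) (by norm_num) (by norm_num))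
      (le_of_eq (by ring))

theorem cap_next_eq {s : ℝ} (hY : 0 < Y) (hs : 0 ≤ s) :
    cap (Y / (1 + s)) = cap Y * grow s := by
  rw [grow, cap, cap, Real.div_rpow hY.le (by linarith), Real.rpow_neg (show 0 ≤ 1 + s by linarith),
    div_inv_eq_mul]

theorem rho_next {s : ℝ} (hY : 0 < Y) (hs : 0 ≤ s) :
    rho N (Y / (1 + s)) = rho N Y / grow s := by
  rw [rho, rho, cap_next_eq hY hs, div_div]

theorem beta_range (hN : 0 < N) (hY : 0 < Y) (hYN : Y ≤ N) (hp : cap Y ≤ 1 / 10 ^ 30) :
    19 / 10 ≤ beta N Y ∧ beta N Y ≤ 3 := by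
  have := cap_pos hY
  have := rho_nonneg hN hY
  have := rho_le_one hY hYN
  unfold beta
  constructor <;> linarith

/-- How the coefficients move in one step. -/
theorem coef_moves {s : ℝ} (hN : 0 < N) (hY : 0 < Y) (hYN : Y ≤ N)
    (hp : cap Y ≤ 1 / 10 ^ 30) (hs : 0 ≤ s) (hs1 : s ≤ 1 / 1000) :
    beta N (Y / (1 + s)) + (10 ^ 29 * cap Y + rho N Y / 2) * (s / 150) ≤ beta N Y ∧
    18 / 10 ≤ beta N (Y / (1 + s)) ∧
    √(Y / (1 + s)) * cap (Y / (1 + s)) ≤ √Y * cap Y * (1 - 2 / 5 * s) ∧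
    √(Y / (1 + s)) / eps N (Y / (1 + s)) ≤ √Y / eps N Y ∧
    inv7 (Y / (1 + s)) / eps N (Y / (1 + s)) ≤
      (1 + 88 / 25 * s + 50 * s ^ 2) * (inv7 Y / eps N Y) := by
  obtain ⟨g1, g2⟩ := grow_bounds hs hs1
  have h1 : 0 < 1 + s := by linarith
  have hg : 0 < grow s := by linarith
  have hr := rho_nonneg hN hY
  have hc := cap_pos hY
  have hY' : 0 < Y / (1 + s) := div_pos hY h1
  have ec := cap_next_eq (Y := Y) hY hs
  have er := rho_next (N := N) hY hs
  have he := eps_pos hN hY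
  have he' := eps_pos hN hY'
  have hb : beta N (Y / (1 + s)) + (10 ^ 29 * cap Y + rho N Y / 2) * (s / 150) ≤ beta N Y := by
    have k1 : rho N Y / grow s ≤ rho N Y * (1 - s / 300) := by
      rw [div_le_iff₀ hg, mul_assoc]
      refine le_mul_of_one_le_right hr ?_
      nlinarith
    have k2 := mul_le_mul_of_nonneg_left g1 (show 0 ≤ 10 ^ 29 * cap Y by positivity)
    unfold beta
    rw [ec, er]
    linarith
  refine ⟨hb, ?_, ?_, ?_, ?_⟩
  · have k1 : 0 ≤ rho N (Y / (1 + s)) := rho_nonneg hN hY'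
    have k2 : cap Y * grow s ≤ 1 / 10 ^ 30 * 2 :=
      mul_le_mul hp (by linarith) hg.le (by norm_num)
    unfold beta
    rw [ec]
    linarith
  · rw [ec, Real.sqrt_div hY.le,
      show √Y / √(1 + s) * (cap Y * grow s) = √Y * cap Y * (grow s / √(1 + s)) by ring]
    refine mul_le_mul_of_nonneg_left ?_ (by positivity)
    have hq := Lower.le_sqrt_one_add hs (by linarith)
    rw [div_le_iff₀ (Real.sqrt_pos.2 h1)]
    refine g2.trans (le_trans ?_ (mul_le_mul_of_nonneg_left hq (by linarith)))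
    nlinarith
  · rw [div_le_div_iff₀ he' he, Real.sqrt_div hY.le]
    have k : eps N Y ≤ eps N (Y / (1 + s)) * √(1 + s) := by
      have hq := Lower.le_sqrt_one_add hs (by linarith)
      have hgq : grow s ≤ √(1 + s) := by nlinarith
      have k1 : cap Y ≤ cap (Y / (1 + s)) * √(1 + s) := by
        rw [ec, mul_assoc]
        exact le_mul_of_one_le_right hc.le
          (one_le_mul_of_one_le_of_one_le (by linarith) (Real.one_le_sqrt.2 (by linarith)))
      have k2 : rho N Y ≤ rho N (Y / (1 + s)) * √(1 + s) := by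
        rw [er, div_mul_eq_mul_div, le_div_iff₀ hg]
        exact mul_le_mul_of_nonneg_left hgq hr
      unfold eps
      linarith
    calc √Y / √(1 + s) * eps N Y ≤ √Y / √(1 + s) * (eps N (Y / (1 + s)) * √(1 + s)) :=
          mul_le_mul_of_nonneg_left k (by positivity)
      _ = _ := by field_simp
  · have k : eps N Y / grow s ≤ eps N (Y / (1 + s)) := by
      rw [eps, eps, ec, er, add_div, mul_div_assoc]
      gcongr ?_ + _
      rw [div_le_iff₀ hg, mul_assoc]
      exact le_mul_of_one_le_right hc.le (one_le_mul_of_one_le_of_one_le (by linarith) (by linarith))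
    have e7 : inv7 (Y / (1 + s)) = inv7 Y * ((1 + s) ^ 3 * √(1 + s)) := by
      rw [inv7, inv7, Real.sqrt_div hY.le, div_pow]
      field_simp
    have hpos : 0 ≤ inv7 Y := by unfold inv7; positivity
    calc inv7 (Y / (1 + s)) / eps N (Y / (1 + s)) ≤ inv7 (Y / (1 + s)) / (eps N Y / grow s) :=
          div_le_div_of_nonneg_left (by rw [e7]; positivity) (div_pos he hg) k
      _ = ((1 + s) ^ 3 * √(1 + s) * grow s) * (inv7 Y / eps N Y) := by
          rw [e7]; field_simp
      _ ≤ _ := by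
          refine mul_le_mul_of_nonneg_right ?_ (div_nonneg hpos he.le)
          calc (1 + s) ^ 3 * √(1 + s) * grow s ≤ (1 + s) ^ 3 * (1 + s / 2) * (1 + s / 50) :=
                mul_le_mul (mul_le_mul_of_nonneg_left (Lower.sqrt_one_add_le hs) (by positivity)) g2
                  hg.le (by positivity)
            _ ≤ _ := by
                have s3 : s ^ 3 ≤ s ^ 2 := by nlinarith
                have s4 : s ^ 4 ≤ s ^ 2 := by nlinarith
                have s5 : s ^ 5 ≤ s ^ 2 := by nlinarith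
                nlinarith

/-- The drift part and its coefficient. -/
theorem psi_scalar {Y Q s b b' e P D T U p r M : ℝ} (hY : 10 ^ 9 ≤ Y) (hQ : 0 < Q)
    (hs : s * Q = 2 * Y) (hsY : s ≤ 1 / Y) (hb' : 18 / 10 ≤ b') (hb : b ≤ 3)
    (hmove : b' + (10 ^ 29 * p + r / 2) * (s / 150) ≤ b) (he : e = p + 1 / 450 * r)
    (hpY : 2 ≤ p * Y) (hr : 0 ≤ r) (hp : 0 ≤ p) (he0 : 0 < e)
    (hP : 0 ≤ P) (hD : 0 ≤ D) (hT : 0 ≤ T) (hU : 0 ≤ U)
    (hM : M ≤ Q * P + (1 + e) * (Y * P) - D + Y / e * T + 10 ^ 11 * U) :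
    b' * √(Y / (1 + s)) * M + (10 ^ 27 * p * Y * P + D) * √Y ≤
      √Y * (Q * (b * P) + 4 * (Y / e * T) * (3 / 4) + 3 * 10 ^ 11 * U) := by
  have hY0 : 0 < Y := by linarith
  have hs0 : 0 ≤ s := by
    by_contra h
    push Not at h
    nlinarith
  have hsm : s ≤ 1 / 1000 := hsY.trans (one_div_le_one_div_of_le (by norm_num) (by linarith))
  have hq := Lower.le_sqrt_one_add hs0 (by linarith)
  have hq0 : 0 < √(1 + s) := Real.sqrt_pos.2 (by linarith)
  have hqu := Lower.sqrt_one_add_le hs0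
  have hq1 : 1 ≤ √(1 + s) := Real.one_le_sqrt.2 (by linarith)
  rw [Real.sqrt_div hY0.le]
  generalize √(1 + s) = q at hq hq0 hqu hq1 ⊢
  have hsY' : s * Y ≤ 1 := by rwa [le_div_iff₀ hY0] at hsY
  have h1 : (Q + Y) / q ≤ Q + 2 := by
    rw [div_le_iff₀ hq0]
    refine le_trans ?_ (mul_le_mul_of_nonneg_left hq (by linarith))
    nlinarith
  have hb0 : b' ≤ 3 := by
    have : 0 ≤ (10 ^ 29 * p + r / 2) * (s / 150) := by positivity
    linarith
  have hb1 : 1 ≤ b' / q := by rw [le_div_iff₀ hq0]; linarith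
  have hb3 : b' / q ≤ 3 := by rw [div_le_iff₀ hq0]; nlinarith
  have m1 := mul_le_mul_of_nonneg_left hM (show 0 ≤ b' / q by linarith)
  have m2 := mul_le_mul_of_nonneg_right h1 hP
  have m3 := mul_le_mul_of_nonneg_left m2 (show 0 ≤ b' by linarith)
  have m4 : b' / q * (e * (Y * P)) ≤ 3 * (e * (Y * P)) :=
    mul_le_mul_of_nonneg_right hb3 (by positivity)
  have m5 : D ≤ b' / q * D := le_mul_of_one_le_left hD hb1
  have m6 : b' / q * (Y / e * T + 10 ^ 11 * U) ≤ 3 * (Y / e * T + 10 ^ 11 * U) :=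
    mul_le_mul_of_nonneg_right hb3 (by positivity)
  have m7 := mul_le_mul_of_nonneg_right (mul_le_mul_of_nonneg_left hmove hQ.le) hP
  have m8 : Q * ((10 ^ 29 * p + r / 2) * (s / 150)) = (10 ^ 29 * p + r / 2) * (Y / 75) := by
    rw [show Q * ((10 ^ 29 * p + r / 2) * (s / 150)) =
      (10 ^ 29 * p + r / 2) * (s * Q / 150) by ring, hs]
    ring
  have m9 : Q * b' + Q * ((10 ^ 29 * p + r / 2) * (s / 150)) =
      Q * b' + (10 ^ 29 * p + r / 2) * (Y / 75) := by rw [m8]
  have m10 : b' * (2 * P) ≤ 3 * (p * Y * P) := by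
    have := mul_le_mul_of_nonneg_right hpY hP
    have := mul_le_mul_of_nonneg_right hb0 (show 0 ≤ 2 * P by positivity)
    linarith
  have key : b' / q * M + 10 ^ 27 * p * Y * P + D ≤
      Q * (b * P) + 4 * (Y / e * T) * (3 / 4) + 3 * 10 ^ 11 * U := by
    have e1 : b' / q * (Q * P + (1 + e) * (Y * P) - D + Y / e * T + 10 ^ 11 * U) =
        b' * ((Q + Y) / q * P) + b' / q * (e * (Y * P)) - b' / q * D
          + b' / q * (Y / e * T + 10 ^ 11 * U) := by
      field_simp; ring
    rw [e1] at m1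
    have e2 : e * (Y * P) = p * Y * P + 1 / 450 * r * (Y * P) := by rw [he]; ring
    have e3 : Q * (b' + (10 ^ 29 * p + r / 2) * (s / 150)) * P =
        Q * b' * P + (10 ^ 29 * p + r / 2) * (Y / 75) * P := by
      rw [mul_add, m8]; ring
    rw [e3] at m7
    have : 0 ≤ p * Y * P := by positivity
    linarith
  calc b' * (√Y / q) * M + (10 ^ 27 * p * Y * P + D) * √Y
      = √Y * (b' / q * M + 10 ^ 27 * p * Y * P + D) := by ring
    _ ≤ _ := mul_le_mul_of_nonneg_left key (Real.sqrt_nonneg _)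

theorem tq_nonneg (G B : Finset (Finset α)) (Y : ℝ) (w : Finset α → ℝ) : 0 ≤ tq G B Y w :=
  sum_nonneg fun _ _ => sq_nonneg _

/-- One dense step of the penalty. -/
theorem pen_step (htq : TqBound α) (hd : Dense G B Y w) (hYN : Y ≤ N)
    (hp : cap Y ≤ 1 / 10 ^ 30) :
    ∑ t ∈ tri G, pen N (G \ sides t) (nextB G B Y t) (nextY G Y) (nextW G B Y w t)
        + 2 * Y * (√Y * cap Y) * (psi G Y w + sq G w) ≤
      triNum G * pen N G B Y w + 10 ^ 32 * (2 * (√Y * cap Y * G.card)) := by
  have hY := hd.pos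
  have hN : 0 < N := hY.trans_le hYN
  have hc := cap_pos hY
  have hs := hd.drop_nonneg
  have hs1 := hd.drop_small
  have hQ := hd.triNum_pos
  have hL := hd.large
  obtain ⟨mb, mb2, mR, mT, mW⟩ := coef_moves hN hY hYN hp hs hs1
  obtain ⟨hb1, hb2⟩ := beta_range hN hY hYN hp
  obtain ⟨hbk, hpdle, hbψ, hbq⟩ := hd.bulk_parts
  have hψ := psi_nonneg G Y w
  have hq2 := sq_nonneg' G w
  have hΓ := taint_nonneg G B Y
  have hT := tq_nonneg G B Y w
  have hpd := hd.pd_nonneg
  have hy : 0 < √Y := Real.sqrt_pos.2 hY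
  have he := eps_pos hN hY
  have hYp := inv_le_cap_sq (show (1 : ℝ) ≤ Y by linarith)
  have hpY2 : 2 ≤ cap Y * Y := by
    rw [div_le_iff₀ hY] at hYp
    have : cap Y * (cap Y * Y) ≤ 1 / 10 ^ 30 * (cap Y * Y) :=
      mul_le_mul_of_nonneg_right hp (by positivity)
    linarith
  -- the sources
  set Bu := Y * psi G Y w + Y * sq G w + Y * taint G B Y + pd G Y w + (G.card : ℝ) with hBu
  have hc2 : cap Y ^ 2 ≤ 1 / 10 ^ 50 := by
    refine (pow_le_pow_left₀ hc.le hp 2).trans ?_
    norm_num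
  have hbud : budget G B Y w ≤ 2 * cap Y * Bu := by
    unfold budget bulk
    rw [hBu]
    have := mul_le_mul_of_nonneg_right hc2 (mul_nonneg hY.le hΓ)
    have : 0 ≤ Y * psi G Y w := by positivity
    have : 0 ≤ Y * sq G w := by positivity
    have : 0 ≤ Y * taint G B Y := by positivity
    have : (0:ℝ) ≤ G.card := Nat.cast_nonneg _
    calc _ ≤ cap Y * (2 * (Y * psi G Y w + Y * sq G w + Y * taint G B Y + pd G Y w + G.card)) :=
          mul_le_mul_of_nonneg_left (by linarith) hc.le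
      _ = _ := by ring
  have hbud0 : 0 ≤ budget G B Y w := by
    unfold budget; positivity
  -- the five steps
  have s1 := psi_scalar (s := drop G Y) (b := beta N Y) (b' := beta N (nextY G Y)) (e := eps N Y)
    hL hQ hd.drop_mul hd.drop_le_inv (by rw [nextY]; exact mb2) hb2 (by rw [nextY]; exact mb)
    (r := rho N Y) (p := cap Y) rfl hpY2 (rho_nonneg hN hY) hc.le he hψ hpd hT hbud0
    (hd.psi_step he)
  rw [show Y / (1 + drop G Y) = nextY G Y from rfl] at s1 mR mT mW
  have hR0 : 0 ≤ √(nextY G Y) * cap (nextY G Y) :=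
    mul_nonneg (Real.sqrt_nonneg _) (cap_pos hd.nextY_pos).le
  have hshrink : √Y * cap Y * (1 - 2 / 5 * drop G Y) ≤ √Y * cap Y :=
    mul_le_of_le_one_right (by positivity) (by linarith)
  have s2 : √(nextY G Y) * cap (nextY G Y) *
        ∑ t ∈ tri G, sq (G \ sides t) (nextW G B Y w t) ≤
      √Y * cap Y * (triNum G * sq G w - 4 / 5 * (Y * sq G w) + 1 / 10 ^ 40 * (Y * taint G B Y)
        + 1 / 10 ^ 5 * pd G Y w + 800 * G.card) := by
    refine le_trans (mul_le_mul_of_nonneg_left hd.sq_step hR0) ?_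
    have k1 : 0 ≤ triNum G * sq G w + Y * (-(9 / 10) * sq G w + 4 * cap Y ^ 2 * taint G B Y) +
        800 / Y * (pd G Y w + G.card * Y) := by
      refine le_trans ?_ hd.sq_step
      exact sum_nonneg fun t _ => sq_nonneg' _ _
    refine le_trans (mul_le_mul_of_nonneg_right (mR.trans hshrink) k1) ?_
    refine mul_le_mul_of_nonneg_left ?_ (by positivity)
    have k2 : 800 / Y * (pd G Y w + G.card * Y) = 800 / Y * pd G Y w + 800 * G.card := by
      field_simp
    have k3 : 800 / Y * pd G Y w ≤ 1 / 10 ^ 5 * pd G Y w := by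
      refine mul_le_mul_of_nonneg_right ?_ hpd
      rw [div_le_div_iff₀ hY (by norm_num)]; linarith
    have k4 := mul_le_mul_of_nonneg_right hc2 (mul_nonneg hY.le hΓ)
    have : 0 ≤ Y * sq G w := by positivity
    have : 0 ≤ Y * taint G B Y := by positivity
    linarith
  have s3 : √(nextY G Y) * cap (nextY G Y) *
        ∑ t ∈ tri G, taint (G \ sides t) (nextB G B Y t) (nextY G Y) ≤
      √Y * cap Y * (triNum G * taint G B Y - 7 / 10 * (Y * taint G B Y)
        + 10 ^ 9 * (Y * psi G Y w + Y * sq G w + pd G Y w + G.card)) := by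
    refine le_trans (mul_le_mul_of_nonneg_left hd.taint_step hR0) ?_
    refine le_trans (mul_le_mul_of_nonneg_right mR (by positivity)) ?_
    rw [mul_assoc]
    refine mul_le_mul_of_nonneg_left ?_ (by positivity)
    have k1 : (1 - 2 / 5 * drop G Y) * (10 ^ 9 * (bulk G B Y w + G.card)) ≤
        10 ^ 9 * (bulk G B Y w + G.card) :=
      mul_le_of_le_one_left (by positivity) (by linarith)
    have k2 : drop G Y * (triNum G * taint G B Y) = 2 * (Y * taint G B Y) := by
      rw [← mul_assoc, hd.drop_mul]; ring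
    have k3 := mul_le_mul_of_nonneg_right hc2 (mul_nonneg hY.le hΓ)
    have : 0 ≤ Y * taint G B Y := by positivity
    unfold bulk at k1 ⊢
    linarith
  have s4 : √(nextY G Y) / eps N (nextY G Y) *
        ∑ t ∈ tri G, tq (G \ sides t) (nextB G B Y t) (nextY G Y) (nextW G B Y w t) ≤
      √Y / eps N Y * (triNum G * tq G B Y w - 4 / 5 * (Y * tq G B Y w))
        + 10 ^ 15 * ((cycles G B).card * inv7 Y * Y / eps N Y)
        + 2 * 10 ^ 15 * (√Y * cap Y * Bu) := by
    have k0 : 0 ≤ √(nextY G Y) / eps N (nextY G Y) :=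
      div_nonneg (Real.sqrt_nonneg _) (eps_pos hN hd.nextY_pos).le
    have k1 := htq G B Y w hd
    refine le_trans (mul_le_mul_of_nonneg_left k1 k0) ?_
    refine le_trans (mul_le_mul_of_nonneg_right mT
      (le_trans (sum_nonneg fun t _ => tq_nonneg _ _ _ _) k1)) ?_
    have e1 : √Y / eps N Y * ((cycles G B).card / Y ^ 3) =
        (cycles G B).card * inv7 Y * Y / eps N Y := by
      rw [inv7]; field_simp; rw [Real.sq_sqrt hY.le]; ring
    have e2 : √Y / eps N Y * (cap Y * budget G B Y w) ≤ 2 * (√Y * cap Y * Bu) := by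
      calc √Y / eps N Y * (cap Y * budget G B Y w)
          = √Y * (cap Y / eps N Y) * budget G B Y w := by ring
        _ ≤ √Y * 1 * (2 * cap Y * Bu) := by
            gcongr
            rw [div_le_one he]; exact cap_le_eps hN hY
        _ = _ := by ring
    linarith
  have s5 : inv7 (nextY G Y) / eps N (nextY G Y) *
        ∑ t ∈ tri G, ((cycles (G \ sides t) (nextB G B Y t)).card : ℝ) ≤
      (triNum G - 3 / 20 * Y) * ((cycles G B).card * inv7 Y / eps N Y) := by
    have k := cycles_decay (G := G) (B := B) hY hd.good.flat (fun t => G \ sides t)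
      (fun t => nextB G B Y t) (fun _ _ => Subset.rfl) (fun t _ => subset_union_left)
    have k0 : 0 ≤ inv7 (nextY G Y) / eps N (nextY G Y) := by
      have := eps_pos hN hd.nextY_pos
      have := hd.nextY_pos
      unfold inv7; positivity
    refine le_trans (mul_le_mul_of_nonneg_left k k0) ?_
    refine le_trans (mul_le_mul_of_nonneg_right mW
      (le_trans (sum_nonneg fun t _ => Nat.cast_nonneg _) k)) ?_
    have e : (1 + 88 / 25 * drop G Y + 50 * drop G Y ^ 2) * (triNum G - (36 / 5 * Y - 28)) ≤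
        triNum G - 3 / 20 * Y := by
      have a1 : drop G Y * triNum G = 2 * Y := hd.drop_mul
      have a2 : drop G Y * Y ≤ 1 := by
        have := hd.drop_le_inv; rwa [le_div_iff₀ hY] at this
      have a3 : drop G Y ^ 2 * triNum G = 2 * (drop G Y * Y) := by
        rw [pow_two, mul_assoc, a1]; ring
      have a4 : 0 ≤ drop G Y * (36 / 5 * Y - 28) := mul_nonneg hs (by linarith)
      have a5 : 0 ≤ drop G Y ^ 2 * (36 / 5 * Y - 28) := mul_nonneg (sq_nonneg _) (by linarith)
      linarith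
    calc _ = (1 + 88 / 25 * drop G Y + 50 * drop G Y ^ 2) * (triNum G - (36 / 5 * Y - 28)) *
          ((cycles G B).card * inv7 Y / eps N Y) := by ring
      _ ≤ _ := mul_le_mul_of_nonneg_right e (by unfold inv7; positivity)
  -- combine
  have hsum : ∑ t ∈ tri G, pen N (G \ sides t) (nextB G B Y t) (nextY G Y) (nextW G B Y w t) =
      beta N (nextY G Y) * √(nextY G Y) * ∑ t ∈ tri G, psi (G \ sides t) (nextY G Y) (nextW G B Y w t)
      + 10 ^ 27 * (√(nextY G Y) * cap (nextY G Y) * ∑ t ∈ tri G, sq (G \ sides t) (nextW G B Y w t))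
      + 10 ^ 17 * (√(nextY G Y) * cap (nextY G Y) *
          ∑ t ∈ tri G, taint (G \ sides t) (nextB G B Y t) (nextY G Y))
      + 4 * (√(nextY G Y) / eps N (nextY G Y) *
          ∑ t ∈ tri G, tq (G \ sides t) (nextB G B Y t) (nextY G Y) (nextW G B Y w t))
      + 10 ^ 17 * (inv7 (nextY G Y) / eps N (nextY G Y) *
          ∑ t ∈ tri G, ((cycles (G \ sides t) (nextB G B Y t)).card : ℝ)) := by
    simp only [pen, mul_sum, ← sum_add_distrib]
    exact sum_congr rfl fun t _ => by ring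
  rw [hsum, show pen N G B Y w = beta N Y * √Y * psi G Y w +
    √Y * cap Y * (10 ^ 27 * sq G w + 10 ^ 17 * taint G B Y) + 4 / eps N Y * √Y * tq G B Y w +
    10 ^ 17 * inv7 Y / eps N Y * (cycles G B).card from rfl]
  have q1 := mul_le_mul_of_nonneg_left s2 (show (0:ℝ) ≤ 10 ^ 27 by positivity)
  have q2 := mul_le_mul_of_nonneg_left s3 (show (0:ℝ) ≤ 10 ^ 17 by positivity)
  have q3 := mul_le_mul_of_nonneg_left s4 (show (0:ℝ) ≤ 4 by positivity)
  have q4 := mul_le_mul_of_nonneg_left s5 (show (0:ℝ) ≤ 10 ^ 17 by positivity)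
  have q5 : √Y * budget G B Y w ≤ 2 * (√Y * cap Y * Bu) :=
    (mul_le_mul_of_nonneg_left hbud hy.le).trans_eq (by ring)
  have q6 : √Y * cap Y * pd G Y w ≤ 1 / 10 ^ 30 * (√Y * pd G Y w) := by
    calc √Y * cap Y * pd G Y w = cap Y * (√Y * pd G Y w) := by ring
      _ ≤ _ := mul_le_mul_of_nonneg_right hp (by positivity)
  have n1 : 0 ≤ √Y * cap Y * (Y * psi G Y w) := by positivity
  have n2 : 0 ≤ √Y * cap Y * (Y * sq G w) := by positivity
  have n3 : 0 ≤ √Y * cap Y * (Y * taint G B Y) := by positivity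
  have n4 : 0 ≤ √Y * cap Y * (G.card : ℝ) := by positivity
  have n5 : 0 ≤ √Y / eps N Y * (Y * tq G B Y w) := by positivity
  have n6 : 0 ≤ (cycles G B).card * inv7 Y * Y / eps N Y := by unfold inv7; positivity
  have n7 : 0 ≤ √Y * pd G Y w := by positivity
  simp only [hBu] at q3 q5
  linear_combination s1 + q1 + q2 + q3 + q4 + 3 * 10 ^ 11 * q5
    + 100010000008000600000000000 * q6 + 899999999991999399999999998 * n1
    + 699999999991999399999999998 * n2 + 619993999999999999999999999999 / 10000000000000 * n3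
    + 199199899999999991999400000000000 * n4 + 1 / 5 * n5 + 11000000000000000 * n6
    + 4999499949999959997 / 5000000000000000000 * n7

/-- The certificate, from the step of the neighbour potential. -/
theorem certified_of (htq : ∀ n : ℕ, TqBound (Fin n)) : Certified := by
  have e : ∀ᶠ x : ℝ in atTop, cap x ≤ 1 / 10 ^ 30 :=
    (tendsto_rpow_neg_atTop (show (0 : ℝ) < 1 / 50 by norm_num)).eventually_le_const (by norm_num)
  obtain ⟨K, hK⟩ := eventually_atTop.1 (e.and (eventually_ge_atTop ((10 : ℝ) ^ 9)))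
  refine ⟨K, 10 ^ 32, by norm_num, ?_⟩
  filter_upwards [eventually_ge_atTop (10 : ℕ)] with n hn
  have hn' : (10 : ℝ) ≤ n := by exact_mod_cast hn
  refine ⟨pen (n : ℝ), ⟨fun G B Y w hG hY hYN hT t ht => ?_, fun G B Y w hG hY hYN => ?_,
    fun G B Y w hG hY hYN hT => ?_⟩, ?_⟩
  · obtain ⟨hp, hL⟩ := hK Y hY
    exact Dense.next_good ⟨hG, hL, hp.trans (by norm_num), hT, ⟨t, ht⟩⟩ ht
  · obtain ⟨hp, hL⟩ := hK Y hY
    have hY0 : 0 < Y := by linarith
    obtain ⟨b1, -⟩ := beta_range (show (0:ℝ) < n by linarith) hY0 hYN hp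
    have he := eps_pos (show (0:ℝ) < n by linarith) hY0
    have := tq_nonneg G B Y w
    have : 0 ≤ √Y * psi G Y w := mul_nonneg (Real.sqrt_nonneg _) (psi_nonneg _ _ _)
    have : 0 ≤ √Y * cap Y * sq G w :=
      mul_nonneg (mul_nonneg (Real.sqrt_nonneg _) (cap_pos hY0).le) (sq_nonneg' _ _)
    have : 0 ≤ √Y * cap Y * taint G B Y :=
      mul_nonneg (mul_nonneg (Real.sqrt_nonneg _) (cap_pos hY0).le) (taint_nonneg _ _ _)
    have : 0 ≤ 4 / eps (n : ℝ) Y * √Y * tq G B Y w := by positivity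
    have : 0 ≤ 10 ^ 17 * inv7 Y / eps (n : ℝ) Y * ((cycles G B).card : ℝ) := by
      unfold inv7; positivity
    have hb : √Y * psi G Y w ≤ beta (n : ℝ) Y * (√Y * psi G Y w) :=
      le_mul_of_one_le_left (by assumption) (by linarith)
    unfold pen
    linarith
  · obtain ⟨hp, hL⟩ := hK Y hY
    rcases (tri G).eq_empty_or_nonempty with h | h
    · simp [h, triNum]
    have hd : Dense G B Y w := ⟨hG, hL, hp.trans (by norm_num), hT, h⟩
    refine le_trans (le_of_eq ?_) ((pen_step (htq n) hd hYN hp).trans (le_of_eq ?_))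
    · rw [← hd.drop_mul]; ring
    · rw [mul_add, show triNum G * (10 ^ 32 * drop G Y * ((G.card : ℝ) * cap Y / √Y)) =
        10 ^ 32 * (drop G Y * triNum G) * ((G.card : ℝ) * cap Y / √Y) by ring, hd.drop_mul]
      congr 1
      rw [mul_div_assoc']
      rw [eq_div_iff (Real.sqrt_pos.2 hd.pos).ne']
      rw [show 10 ^ 32 * (2 * (√Y * cap Y * (G.card : ℝ))) * √Y =
        10 ^ 32 * (2 * (cap Y * G.card)) * (√Y * √Y) by ring, Real.mul_self_sqrt hd.pos.le]
      ring
  · set Y := (n : ℝ) - 2 with hYdef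
    have hY0 : 0 < Y := by rw [hYdef]; linarith
    have hz : ∀ e ∈ complete n, zeta (complete n) Y e = 1 := fun e he => by
      rw [zeta, deg_complete he, hYdef, Nat.cast_sub (by omega), Nat.cast_ofNat, div_self]
      linarith
    have h1 : psi (complete n) Y (fun _ => 0) = 0 := sum_eq_zero fun e he => by
      rw [uu, hz e he]; simp [phi_zero]
    have h2 : sq (complete n) (fun _ => (0 : ℝ)) = 0 := sum_eq_zero fun e _ => by simp
    have h3 : taint (complete n) ∅ Y = 0 := by
      rw [taint, inter_empty, card_empty, Nat.cast_zero, zero_add]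
      exact sum_eq_zero fun e he => by rw [hz e (mem_sdiff.1 he).1]; simp
    have h4 : tq (complete n) ∅ Y (fun _ => (0 : ℝ)) = 0 :=
      sum_eq_zero fun e _ => by simp [xx]
    rw [pen, h1, h2, h3, h4]
    have hN : (0:ℝ) < n := by linarith
    have hYN : Y ≤ n := by rw [hYdef]; linarith
    have h2Y : (n : ℝ) ≤ 2 * Y := by rw [hYdef]; linarith
    have he : 1 / 900 ≤ eps (n : ℝ) Y := by
      have k : 1 / 2 ≤ rho (n : ℝ) Y := by
        rw [rho, le_div_iff₀ (cap_pos hY0)]
        have k1 : cap (2 * Y) ≤ cap n := cap_anti hN h2Y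
        have k2 : 1 / 2 * cap Y ≤ cap (2 * Y) := by
          rw [cap, cap, Real.mul_rpow (by norm_num) hY0.le]
          refine mul_le_mul_of_nonneg_right ?_ (Real.rpow_nonneg hY0.le _)
          calc (1 / 2 : ℝ) = (2 : ℝ) ^ (-1 : ℝ) := by rw [Real.rpow_neg_one]; norm_num
            _ ≤ _ := Real.rpow_le_rpow_of_exponent_le (by norm_num) (by norm_num)
        linarith
      unfold eps
      linarith [cap_pos hY0]
    have h5 := cycles_complete_le n (∅ : Finset (Finset (Fin n)))
    have h6 : inv7 Y * (n : ℝ) ^ 5 ≤ 16 * ((n : ℝ) * √n) := by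
      rw [inv7, div_mul_eq_mul_div, one_mul, div_le_iff₀ (by positivity)]
      have a1 : √(n : ℝ) ≤ 2 * √Y := by
        rw [Real.sqrt_le_left (by positivity), mul_pow, Real.sq_sqrt hY0.le]; linarith
      have a2 : (n : ℝ) ^ 3 ≤ (2 * Y) ^ 3 := pow_le_pow_left₀ hN.le h2Y 3
      calc (n : ℝ) ^ 5 = (n : ℝ) ^ 3 * ((n : ℝ) * (√n * √n)) := by
            rw [Real.mul_self_sqrt hN.le]; ring
        _ ≤ (2 * Y) ^ 3 * ((n : ℝ) * (√n * (2 * √Y))) := by gcongr
        _ = _ := by ring
    have h7 : 10 ^ 17 * inv7 Y / eps (n : ℝ) Y * ((cycles (complete n) ∅).card : ℝ) ≤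
        10 ^ 17 * 900 * (8 * (inv7 Y * (n : ℝ) ^ 5)) := by
      have i0 : 0 ≤ inv7 Y := by unfold inv7; positivity
      calc _ = 10 ^ 17 * (1 / eps (n : ℝ) Y) * (((cycles (complete n) ∅).card : ℝ) * inv7 Y) := by
            ring
        _ ≤ 10 ^ 17 * 900 * ((8 * (n : ℝ) ^ 5) * inv7 Y) := by
            gcongr
            · have := eps_pos hN hY0
              rw [div_le_iff₀ this]; linarith
        _ = _ := by ring
    have : 0 ≤ (n : ℝ) * √n := by positivity
    simp only [mul_zero, zero_add, add_zero]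
    linarith

/-- The certificate. -/
theorem certified : Certified := certified_of fun _ _ _ _ _ h => h.tq_step

end Vale.Agent.P046.Sharp
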