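import Vale.Agent.P046.Sharp.State

/-! P046: elementary facts on the potential shape and the cap. -/

open Finset

namespace Vale.Agent.P046.Sharp

theorem phi_le_abs (z : ℝ) : phi z ≤ |z| := by
  unfold phi
  split_ifs with h1 h2
  · rw [abs_of_nonneg h1, div_le_iff₀ (by linarith)]; nlinarith
  · rw [abs_of_neg (not_le.1 h1)]; nlinarith
  · rw [abs_of_neg (not_le.1 h1)]; linarith

theorem dphi_abs_le (z : ℝ) : |dphi z| ≤ 1 :=
  abs_le.2 ⟨by linarith [dphi_ge z], dphi_le z⟩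

theorem dphi_sq_le (z : ℝ) : dphi z ^ 2 ≤ 4 * phi z := by
  unfold dphi phi
  split_ifs with h1 h2
  · have e : 1 - 1 / (1 + z) ^ 2 = z * (2 + z) / (1 + z) ^ 2 := by field_simp; ring
    rw [e, div_pow, ← mul_div_assoc, div_le_div_iff₀ (by positivity) (by linarith)]
    nlinarith [mul_nonneg (mul_nonneg (sq_nonneg z) (show 0 ≤ 1 + z by linarith))
      (show 0 ≤ 4 * (1 + z) ^ 3 - (2 + z) ^ 2 by
        nlinarith [pow_nonneg h1 3, sq_nonneg z])]
  · nlinarith
  · nlinarith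

theorem sq_le_phi {z : ℝ} (h : -1 ≤ z) (h' : z ≤ 1) : z ^ 2 ≤ 100 * phi z := by
  unfold phi
  split_ifs with h1 h2
  · rw [← mul_div_assoc, le_div_iff₀ (by linarith)]; nlinarith [sq_nonneg z]
  · nlinarith [sq_nonneg z]
  · nlinarith

theorem le_two_phi {z : ℝ} (h : 1 < z) : z ≤ 2 * phi z := by
  rw [phi, if_pos (by linarith), ← mul_div_assoc, le_div_iff₀ (by linarith)]; nlinarith

theorem young_dphi (a : ℝ) {b : ℝ} (hb : -1 ≤ b) : |dphi a| * |b| ≤ 4 * phi a + 100 * phi b := by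
  have h1 := dphi_sq_le a
  have h3 := phi_nonneg a
  have h4 := phi_nonneg b
  rcases le_or_gt b 1 with h | h
  · have := sq_le_phi hb h
    nlinarith [sq_nonneg (|dphi a| - |b|), sq_abs (dphi a), sq_abs b]
  · rw [abs_of_pos (show 0 < b by linarith)]
    have := le_two_phi h
    nlinarith [dphi_abs_le a]

theorem zeta_le_phi {z : ℝ} : 1 + z ≤ 2 + 2 * phi z := by
  rcases le_or_gt z 1 with h | h
  · linarith [phi_nonneg z]
  · linarith [le_two_phi h]

theorem phi_shift {ζ w : ℝ} (hζ : 0 ≤ ζ) (hw : |w| ≤ 1/50) :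
    phi (ζ - 1) ≤ 5 * phi (ζ * (1 - w) - 1) + 24 * w ^ 2 := by
  set u := ζ * (1 - w) - 1 with hu
  obtain ⟨hw1, hw2⟩ := abs_le.1 hw
  have hp := phi_nonneg u
  rcases le_or_gt ζ 2 with h | h
  · have e : ζ - 1 = u + ζ * w := by rw [hu]; ring
    rw [e]
    refine (phi_step u (ζ * w)).trans ?_
    have hb : (ζ * w) ^ 2 ≤ 4 * w ^ 2 := by
      rw [mul_pow]; exact mul_le_mul_of_nonneg_right (by nlinarith) (sq_nonneg w)
    nlinarith [dphi_sq_le u, sq_nonneg (dphi u / 2 - ζ * w)]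
  · have hu0 : 4/5 ≤ u := by rw [hu]; nlinarith
    have h1 : phi (ζ - 1) ≤ ζ - 1 := (phi_le_abs _).trans (abs_of_pos (by linarith)).le
    have h2 : 1 ≤ 3 * phi u := by
      rw [phi, if_pos (by linarith), ← mul_div_assoc, le_div_iff₀ (by linarith)]; nlinarith
    have h3 : u - 1 ≤ phi u := by
      rw [phi, if_pos (by linarith), le_div_iff₀ (by linarith)]; nlinarith
    have h4 : ζ * (49/50) ≤ u + 1 := by
      rw [hu, sub_add_cancel]; exact mul_le_mul_of_nonneg_left (by linarith) hζ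
    nlinarith [sq_nonneg w]

theorem cap_pos {Y : ℝ} (hY : 0 < Y) : 0 < cap Y := Real.rpow_pos_of_pos hY _

theorem cap_anti {Y Z : ℝ} (hY : 0 < Y) (h : Y ≤ Z) : cap Z ≤ cap Y :=
  Real.rpow_le_rpow_of_nonpos hY h (by norm_num)

theorem inv_le_cap_sq {Y : ℝ} (hY : 1 ≤ Y) : 1 / Y ≤ cap Y ^ 2 := by
  rw [cap, ← Real.rpow_natCast, ← Real.rpow_mul (by linarith), one_div, ← Real.rpow_neg_one]
  exact Real.rpow_le_rpow_of_exponent_le hY (by norm_num)

end Vale.Agent.P046.Sharp
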