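import Vale.Agent.P046.Sharp.Shape2

/-! P046: facts used by all the one-step estimates. -/

open Finset

namespace Vale.Agent.P046.Sharp

variable {α : Type*} [DecidableEq α] [Fintype α] {G B : Finset (Finset α)} {Y : ℝ}
  {w : Finset α → ℝ} {t k e : Finset α}

/-- A state at a large scale with enough triangles. -/
structure Dense (G B : Finset (Finset α)) (Y : ℝ) (w : Finset α → ℝ) : Prop where
  good : Good G B Y w
  large : 10 ^ 9 ≤ Y
  capsmall : cap Y ≤ 1 / 1000
  many : (G.card : ℝ) * Y / 2 ≤ 3 * triNum G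
  nonempty : (tri G).Nonempty

theorem Dense.pos (h : Dense G B Y w) : 0 < Y := by have := h.large; linarith

theorem Dense.triNum_pos (h : Dense G B Y w) : 0 < triNum G := by
  rw [triNum]
  exact_mod_cast card_pos.2 h.nonempty

/-- A graph with `m` edges has at most `(2/3) m^{3/2}` triangles. -/
theorem three_triNum_le (G : Finset (Finset α)) :
    3 * triNum G ≤ 2 * (G.card : ℝ) * Real.sqrt G.card := by
  set E : α → Finset (Finset α) := fun u => G.filter fun e => e.card = 2 ∧ u ∈ e with hE
  set T : α → Finset (Finset α) := fun u => (tri G).filter (u ∈ ·) with hT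
  have h1 : ∀ u, ((T u).card : ℝ) ≤ (E u).card * Real.sqrt G.card := by
    intro u
    have a1 : (T u).card ≤ G.card := by
      refine card_le_card_of_injOn (·.erase u) (fun t ht => ?_) (fun a ha b hb hab => ?_)
      · simp only [hT, mem_coe, mem_filter, mem_tri] at ht
        exact ht.1.2 (mem_powersetCard.2 ⟨erase_subset _ _, by rw [card_erase_of_mem ht.2, ht.1.1]⟩)
      · simp only [hT, mem_coe, mem_filter] at ha hb
        simp only at hab
        rw [← insert_erase ha.2, ← insert_erase hb.2, hab]
    have a2 : (T u).card ≤ (E u).card * (E u).card := by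
      rw [← card_product]
      refine (card_le_card (t := (E u ×ˢ E u).image fun p => p.1 ∪ p.2) fun t ht => ?_).trans
        card_image_le
      simp only [hT, mem_filter, mem_tri] at ht
      obtain ⟨v, x, hvx, hs⟩ := card_eq_two.1
        (show (t.erase u).card = 2 by rw [card_erase_of_mem ht.2, ht.1.1])
      have hv : v ∈ t.erase u := by simp [hs]
      have hx : x ∈ t.erase u := by simp [hs]
      rw [mem_erase] at hv hx
      have side : ∀ y ∈ t, y ≠ u → ({u, y} : Finset α) ∈ E u := by
        intro y hy hyu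
        have hc : ({u, y} : Finset α).card = 2 := card_pair (Ne.symm hyu)
        simp only [hE, mem_filter]
        exact ⟨ht.1.2 (mem_powersetCard.2 ⟨by simp [insert_subset_iff, ht.2, hy], hc⟩), hc, by simp⟩
      refine mem_image.2 ⟨({u, v}, {u, x}), mem_product.2 ⟨side v hv.2 hv.1, side x hx.2 hx.1⟩, ?_⟩
      rw [← insert_erase ht.2, hs]
      ext y; simp
    have b1 : ((T u).card : ℝ) ≤ Real.sqrt G.card * Real.sqrt G.card := by
      rw [Real.mul_self_sqrt (Nat.cast_nonneg _)]; exact_mod_cast a1
    have b2 : ((T u).card : ℝ) ≤ ((E u).card : ℝ) * (E u).card := by exact_mod_cast a2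
    rcases le_total ((E u).card : ℝ) (Real.sqrt G.card) with h | h
    · exact b2.trans (mul_le_mul_of_nonneg_left h (Nat.cast_nonneg _))
    · exact b1.trans (mul_le_mul_of_nonneg_right h (Real.sqrt_nonneg _))
  have h2 : ∑ u, ((T u).card : ℝ) = 3 * triNum G := by
    simp only [hT, card_filter, Nat.cast_sum, Nat.cast_ite, Nat.cast_one, Nat.cast_zero, triNum]
    rw [sum_comm, sum_congr rfl (fun t ht => show ∑ u, (if u ∈ t then (1 : ℝ) else 0) = 3 by
      rw [sum_boole, filter_univ_mem, (mem_tri.1 ht).1]; norm_num), sum_const, nsmul_eq_mul,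
      mul_comm]
  have h3 : ∑ u, ((E u).card : ℝ) ≤ 2 * G.card := by
    simp only [hE, card_filter, Nat.cast_sum, Nat.cast_ite, Nat.cast_one, Nat.cast_zero]
    rw [sum_comm]
    refine (sum_le_sum (g := fun _ => (2 : ℝ)) fun e _ => ?_).trans (by simp [mul_comm])
    rcases eq_or_ne e.card 2 with h | h
    · simp only [h, true_and]; rw [sum_boole, filter_univ_mem, h]; norm_num
    · simp [h]
  rw [← h2]
  refine (sum_le_sum fun u _ => h1 u).trans ?_
  rw [← sum_mul]
  exact mul_le_mul_of_nonneg_right h3 (Real.sqrt_nonneg _)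

theorem Dense.sq_le (h : Dense G B Y w) : Y ^ 2 ≤ 16 * G.card := by
  have h1 := three_triNum_le G
  have h2 := h.many
  have hm : 0 < (G.card : ℝ) := by
    rcases (Nat.cast_nonneg G.card : (0:ℝ) ≤ _).eq_or_lt with hz | hz
    · rw [← hz] at h1; have := h.triNum_pos; linarith
    · exact hz
  have h3 : Y ≤ 4 * Real.sqrt G.card := by
    have : (G.card : ℝ) * Y ≤ (G.card : ℝ) * (4 * Real.sqrt G.card) := by nlinarith
    exact le_of_mul_le_mul_left this hm
  have := pow_le_pow_left₀ h.pos.le h3 2
  rw [mul_pow, Real.sq_sqrt hm.le] at this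
  linarith

theorem Dense.drop_nonneg (h : Dense G B Y w) : 0 ≤ drop G Y :=
  div_nonneg (by have := h.pos; linarith) h.triNum_pos.le

theorem Dense.drop_mul (h : Dense G B Y w) : drop G Y * triNum G = 2 * Y :=
  div_mul_cancel₀ _ h.triNum_pos.ne'

theorem Dense.drop_le (h : Dense G B Y w) : drop G Y ≤ 200 / Y ^ 2 := by
  have := h.pos
  have := h.many
  have := h.sq_le
  rw [drop, div_le_div_iff₀ h.triNum_pos (by positivity)]
  nlinarith

theorem Dense.drop_le_inv (h : Dense G B Y w) : drop G Y ≤ 1 / Y := by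
  have := h.pos
  have := h.large
  refine h.drop_le.trans ?_
  rw [div_le_div_iff₀ (by positivity) (by positivity)]; nlinarith

theorem Dense.drop_small (h : Dense G B Y w) : drop G Y ≤ 1 / 1000 := by
  refine h.drop_le_inv.trans (one_div_le_one_div_of_le (by norm_num) ?_)
  have := h.large; linarith

theorem Dense.nextY_pos (h : Dense G B Y w) : 0 < nextY G Y :=
  div_pos h.pos (by have := h.drop_nonneg; linarith)

theorem Dense.nextY_le (h : Dense G B Y w) : nextY G Y ≤ Y :=
  div_le_self h.pos.le (by have := h.drop_nonneg; linarith)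

theorem dk_nonneg (G : Finset (Finset α)) (t e : Finset α) : 0 ≤ dk G t e := by
  unfold dk; split_ifs <;> positivity

theorem dk_le_three (ht : t ∈ tri G) : dk G t e ≤ 3 := by
  unfold dk
  split_ifs with h
  · norm_num
  · exact_mod_cast dkill_le ht h

theorem dk_eq (he : e ∉ sides t) : dk G t e = dkill G t e := if_neg he

theorem kill_nonneg (G : Finset (Finset α)) (e : Finset α) : 0 ≤ kill G e :=
  sum_nonneg fun _ _ => dk_nonneg _ _ _

/-- The total destruction at an edge, through its triangles. -/
theorem kill_eq (he : e ∈ G) :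
    kill G e = ∑ k ∈ (tri G).filter (e ∈ sides ·),
      ((∑ j ∈ sides k, (deg G j : ℝ)) - deg G e - 2) := by
  have h := sum_dkill G (fun i => if i = e then (1 : ℝ) else 0)
  simp only [mul_ite, mul_one, mul_zero, ite_mul, one_mul, zero_mul, sum_ite_eq', mem_sdiff,
    he, true_and] at h
  rw [kill, sum_filter, ← h]
  refine sum_congr rfl fun t _ => ?_
  unfold dk
  split_ifs <;> rfl

theorem sum_sides_split (f : Finset α → ℝ) (e : Finset α) :
    ∑ t ∈ tri G, f t = ∑ t ∈ (tri G).filter (e ∈ sides ·), f t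
      + ∑ t ∈ (tri G).filter (e ∉ sides ·), f t :=
  (sum_filter_add_sum_filter_not _ _ _).symm

theorem card_avoid (G : Finset (Finset α)) (e : Finset α) :
    (((tri G).filter (e ∉ sides ·)).card : ℝ) = triNum G - deg G e := by
  have h := card_filter_add_card_filter_not (s := tri G) (e ∈ sides ·)
  rw [triNum, ← h, deg]
  push_cast; ring

theorem sum_dk_avoid (G : Finset (Finset α)) (e : Finset α) :
    ∑ t ∈ (tri G).filter (e ∉ sides ·), dk G t e = kill G e := by
  rw [kill, sum_sides_split (fun t => dk G t e) e, sum_eq_zero (s := (tri G).filter (e ∈ sides ·)),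
    zero_add]
  intro t ht
  exact if_pos (mem_filter.1 ht).2

theorem kill_le (G : Finset (Finset α)) (e : Finset α) :
    kill G e ≤ 3 * (triNum G - deg G e) := by
  rw [← sum_dk_avoid, ← card_avoid, mul_comm, ← nsmul_eq_mul, ← sum_const]
  exact sum_le_sum fun t ht => dk_le_three (mem_filter.1 ht).1

theorem dbar_range (G : Finset (Finset α)) (e : Finset α) : 0 ≤ dbar G e ∧ dbar G e ≤ 3 := by
  have h0 := kill_nonneg G e
  have h1 := kill_le G e
  unfold dbar
  rcases le_or_gt (triNum G - deg G e) 0 with h | h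
  · rw [show kill G e = 0 by linarith, zero_div]; norm_num
  · exact ⟨div_nonneg h0 h.le, by rw [div_le_iff₀ h]; linarith⟩

theorem sum_centred (G : Finset (Finset α)) (e : Finset α) :
    ∑ t ∈ (tri G).filter (e ∉ sides ·), (dk G t e - dbar G e) = 0 := by
  rw [sum_sub_distrib, sum_dk_avoid, sum_const, nsmul_eq_mul, card_avoid, dbar]
  rcases eq_or_ne (triNum G - deg G e) 0 with h | h
  · have := kill_le G e; have := kill_nonneg G e
    rw [h]; rw [h] at *; linarith
  · field_simp; ring

theorem dw_sides (he : e ∈ sides t) : dw G B Y w t e = 0 := if_neg (fun h => h.1 he)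

/-- The martingale property. -/
theorem sum_dw (G B : Finset (Finset α)) (Y : ℝ) (w : Finset α → ℝ) (e : Finset α) :
    ∑ t ∈ tri G, dw G B Y w t e = 0 := by
  rw [sum_sides_split _ e, sum_eq_zero (s := (tri G).filter (e ∈ sides ·))
    (fun t ht => dw_sides (mem_filter.1 ht).2), zero_add]
  by_cases hg : gated B Y w e
  · rw [sum_congr rfl (fun t ht => show dw G B Y w t e
      = -((1 + drop G Y) / Y) * (dk G t e - dbar G e) by
      rw [dw, if_pos ⟨(mem_filter.1 ht).2, hg⟩]; ring), ← mul_sum, sum_centred, mul_zero]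
  · exact sum_eq_zero fun t _ => if_neg (fun h => hg h.2)

theorem Dense.dw_abs_le (h : Dense G B Y w) (ht : t ∈ tri G) (e : Finset α) :
    |dw G B Y w t e| ≤ 4 / Y := by
  have hY := h.pos
  unfold dw
  split_ifs
  · rw [abs_neg, abs_mul, abs_of_nonneg (div_nonneg (by have := h.drop_nonneg; linarith) hY.le)]
    have := dk_nonneg G t e
    have := dk_le_three (e := e) ht
    obtain ⟨h1, h2⟩ := dbar_range G e
    have h3 : |dk G t e - dbar G e| ≤ 3 := abs_le.2 ⟨by linarith, by linarith⟩
    rw [div_mul_eq_mul_div]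
    refine div_le_div_of_nonneg_right ?_ hY.le
    have := h.drop_small
    have := h.drop_nonneg
    nlinarith [abs_nonneg (dk G t e - dbar G e)]
  · rw [abs_zero]; positivity

/-- The second moment of one increment. -/
theorem Dense.sum_dw_sq (h : Dense G B Y w) (e : Finset α) :
    ∑ t ∈ tri G, dw G B Y w t e ^ 2 ≤ 4 / Y ^ 2 * kill G e := by
  rw [sum_sides_split _ e, sum_eq_zero (s := (tri G).filter (e ∈ sides ·))
    (fun t ht => by rw [dw_sides (mem_filter.1 ht).2]; ring), zero_add]
  set A := (tri G).filter (e ∉ sides ·) with hA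
  have hc := sum_centred G e
  rw [← hA] at hc
  have h1 : ∑ t ∈ A, (dk G t e - dbar G e) ^ 2 ≤ 3 * kill G e := by
    rw [← sum_dk_avoid, mul_sum, ← hA]
    calc ∑ t ∈ A, (dk G t e - dbar G e) ^ 2
        = ∑ t ∈ A, dk G t e ^ 2 - ∑ t ∈ A, dbar G e ^ 2
          - 2 * dbar G e * ∑ t ∈ A, (dk G t e - dbar G e) := by
          rw [mul_sum, ← sum_sub_distrib, ← sum_sub_distrib]
          exact sum_congr rfl fun t _ => by ring
      _ ≤ ∑ t ∈ A, dk G t e ^ 2 := by
          rw [hc]; linarith [sum_nonneg (s := A) (fun _ _ => sq_nonneg (dbar G e))]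
      _ ≤ _ := sum_le_sum fun t ht => by
          have := dk_nonneg G t e
          have := dk_le_three (e := e) (mem_filter.1 ht).1
          nlinarith
  calc ∑ t ∈ A, dw G B Y w t e ^ 2
      ≤ ∑ t ∈ A, (1 + drop G Y) ^ 2 / Y ^ 2 * (dk G t e - dbar G e) ^ 2 :=
        sum_le_sum fun t _ => by
          unfold dw
          split_ifs
          · rw [neg_sq, mul_pow, div_pow]
          · rw [zero_pow two_ne_zero]; positivity
    _ ≤ (1 + drop G Y) ^ 2 / Y ^ 2 * (3 * kill G e) := by rw [← mul_sum]; gcongr
    _ ≤ _ := by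
        rw [show (1 + drop G Y) ^ 2 / Y ^ 2 * (3 * kill G e)
          = 3 * (1 + drop G Y) ^ 2 / Y ^ 2 * kill G e by ring]
        refine mul_le_mul_of_nonneg_right ?_ (kill_nonneg G e)
        have := h.drop_small
        have := h.drop_nonneg
        gcongr; nlinarith

theorem Dense.four_div_le_cap (h : Dense G B Y w) : 4 / Y ≤ cap Y := by
  have h1 := inv_le_cap_sq (show (1:ℝ) ≤ Y by have := h.large; linarith)
  have h2 := cap_pos h.pos
  have := h.capsmall
  rw [show 4 / Y = 4 * (1 / Y) by ring]
  nlinarith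

theorem Dense.next_small (h : Dense G B Y w) (ht : t ∈ tri G) (e : Finset α) :
    |nextW G B Y w t e| ≤ 2 * cap (nextY G Y) := by
  have h1 := cap_anti h.nextY_pos h.nextY_le
  have h2 := cap_pos h.pos
  unfold nextW
  by_cases hg : e ∉ sides t ∧ gated B Y w e
  · calc |w e + dw G B Y w t e| ≤ |w e| + |dw G B Y w t e| := abs_add_le _ _
      _ ≤ cap Y + 4 / Y := add_le_add hg.2.2 (h.dw_abs_le ht e)
      _ ≤ _ := by linarith [h.four_div_le_cap]
  · rw [dw, if_neg hg, add_zero]
    exact (h.good.small e).trans (by linarith)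

theorem Dense.next_good (h : Dense G B Y w) (ht : t ∈ tri G) :
    Good (G \ sides t) (nextB G B Y t) (nextY G Y) (nextW G B Y w t) := by
  refine ⟨fun e he hB => ?_, h.next_small ht⟩
  classical
  simp only [nextB, mem_union, mem_filter, not_or, not_and, not_lt] at hB
  exact hB.2 he

end Vale.Agent.P046.Sharp
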