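import Vale.Agent.P046.Sharp.Sums
import Vale.Agent.P046.Lower.Final

/-!
P046: the matching lower bound `c n^{3/2} ≤ E F_n`, from a penalty that drops by its margin at every
dense step. The subsolution is `a(Y) m / √Y - θ ξ - 400000` with `a = 1/2 + A Y^{-1/50}`; its base is
the stage lemma at a constant scale `K`.
-/

open Finset Filter

namespace Vale.Agent.P046.Sharp

variable {α : Type*} [DecidableEq α] [Fintype α]

/-- What the certificate provides: `xi` dominates the potentials and one dense step pays the margin,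
up to a source of order `s m cap / √Y`. -/
structure Penalty (α : Type*) [DecidableEq α] [Fintype α] (N K C : ℝ)
    (xi : Finset (Finset α) → Finset (Finset α) → ℝ → (Finset α → ℝ) → ℝ) : Prop where
  good : ∀ (G B : Finset (Finset α)) (Y : ℝ) (w : Finset α → ℝ), Good G B Y w → K ≤ Y → Y ≤ N →
    (G.card : ℝ) * Y / 2 ≤ 3 * triNum G → ∀ t ∈ tri G,
    Good (G \ sides t) (nextB G B Y t) (nextY G Y) (nextW G B Y w t)
  ge : ∀ (G B : Finset (Finset α)) (Y : ℝ) (w : Finset α → ℝ), Good G B Y w → K ≤ Y → Y ≤ N →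
    √Y * psi G Y w + √Y * cap Y * sq G w ≤ C * xi G B Y w
  step : ∀ (G B : Finset (Finset α)) (Y : ℝ) (w : Finset α → ℝ), Good G B Y w → K ≤ Y → Y ≤ N →
    (G.card : ℝ) * Y / 2 ≤ 3 * triNum G →
    ∑ t ∈ tri G, xi (G \ sides t) (nextB G B Y t) (nextY G Y) (nextW G B Y w t) +
        triNum G * (drop G Y * (√Y * cap Y) * (psi G Y w + sq G w)) ≤
      triNum G * (xi G B Y w + C * drop G Y * ((G.card : ℝ) * cap Y / √Y))

theorem cap_le_one {Y : ℝ} (hY : 1 ≤ Y) : cap Y ≤ 1 :=
  Real.rpow_le_one_of_one_le_of_nonpos hY (by norm_num)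

theorem sqrt_cap_eq {Y : ℝ} (hY : 0 < Y) : √Y * cap Y = Y ^ (12 / 25 : ℝ) := by
  rw [Real.sqrt_eq_rpow, cap, ← Real.rpow_add hY]; norm_num

theorem sqrt_cap_mono {X Y : ℝ} (hX : 0 < X) (h : X ≤ Y) : √X * cap X ≤ √Y * cap Y := by
  rw [sqrt_cap_eq hX, sqrt_cap_eq (hX.trans_le h)]
  exact Real.rpow_le_rpow hX.le h (by norm_num)

theorem cap_next {Y s : ℝ} (hY : 0 < Y) (hs : 0 ≤ s) (hs1 : s ≤ 1) :
    cap Y * (1 + s / 150) ≤ cap (Y / (1 + s)) := by
  have h1 : 0 < 1 + s := by linarith
  have e : cap (Y / (1 + s)) = cap Y * (1 + s) ^ (1 / 50 : ℝ) := by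
    rw [cap, cap, Real.div_rpow hY.le h1.le, Real.rpow_neg h1.le, div_inv_eq_mul]
  rw [e]
  refine mul_le_mul_of_nonneg_left ?_ (cap_pos hY).le
  rw [Real.rpow_def_of_pos h1]
  refine le_trans ?_ (Real.add_one_le_exp _)
  have hlog : s / 2 ≤ Real.log (1 + s) := by
    refine le_trans ?_ (Real.one_sub_inv_le_log_of_pos h1)
    rw [← one_div, le_sub_iff_add_le, ← le_sub_iff_add_le', div_le_iff₀ h1]
    nlinarith
  linarith

theorem shape_le_split {G B : Finset (Finset α)} {Y : ℝ} {w : Finset α → ℝ} (hY : 0 < Y)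
    (hc : cap Y ≤ 1 / 100) (h : Good G B Y w) :
    Lower.shape G Y ≤ 5 * psi G Y w + 24 * sq G w := by
  rw [Lower.shape_eq, psi, sq, mul_sum, mul_sum, ← sum_add_distrib]
  exact sum_le_sum fun e _ => phi_shift (div_nonneg (Nat.cast_nonneg _) hY.le)
    ((h.small e).trans (by linarith))

/-- The scalar inequality of one step. -/
theorem lower_arith {Y m T c a a' θ C P PS X U : ℝ} (hY1 : 1 ≤ Y) (hT : 0 < T)
    (hc : 0 < c) (hC : 0 ≤ C) (hθ : 0 ≤ θ) (hθ1 : θ ≤ 1)
    (hm : 400000 * √Y ≤ m) (hmY : m * Y / 2 ≤ 3 * T) (hYc : 1 ≤ √Y * c)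
    (ha0 : 0 ≤ a) (ha' : a' ≤ 1) (ha : a + (2 * C + 8) * c * (Y / T) ≤ a')
    (hex : 3 * T - m * Y ≤ Y * (c * m + 2 / c * P)) (hPS : 0 ≤ PS) (hP : P ≤ 24 * PS)
    (hθY : 24 ≤ θ * (Y * c ^ 2))
    (hU : U + 2 * (Y / T) * (√Y * c) * PS ≤ X + C * (2 * (Y / T)) * (m * c / √Y)) :
    a * m / √Y - θ * X ≤ a' * (m - 3) / √(Y / (1 + 2 * (Y / T))) - θ * U := by
  have hY : 0 < Y := by linarith
  have hy : 0 < √Y := Real.sqrt_pos.2 hY
  have hy1 : 1 ≤ √Y := Real.one_le_sqrt.2 hY1
  obtain ⟨d, hd⟩ : ∃ d, d = Y / T := ⟨_, rfl⟩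
  rw [← hd] at ha hU ⊢
  have hd0 : 0 < d := hd ▸ div_pos hY hT
  have hdm : d * m ≤ 6 := by
    rw [hd, div_mul_eq_mul_div, div_le_iff₀ hT]; linarith
  have hm4 : 400000 ≤ m := by linarith
  have hd1 : 2 * d ≤ 1 := by
    have := mul_le_mul_of_nonneg_left hm4 hd0.le
    linarith
  rw [Real.sqrt_div hY.le]
  have hql : 1 + d - d ^ 2 / 2 ≤ √(1 + 2 * d) := by
    refine le_trans (le_of_eq ?_) (Lower.le_sqrt_one_add (show 0 ≤ 2 * d by linarith) hd1)
    ring
  have hq0 : 0 < √(1 + 2 * d) := Real.sqrt_pos.2 (by linarith)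
  generalize √(1 + 2 * d) = q at hql hq0 ⊢
  have hex' : 3 - m * d ≤ d * (10 * c / 10 * m + 20 / (10 * c) * P) := by
    rw [show 10 * c / 10 = c by ring, show 20 / (10 * c) = 2 / c by field_simp; norm_num, hd,
      ← sub_nonneg]
    have : 0 ≤ (Y * (c * m + 2 / c * P) - (3 * T - m * Y)) / T := div_nonneg (by linarith) hT.le
    refine this.trans_eq ?_
    field_simp
    try ring
  have h1 := Lower.step_main hd0 hdm (by linarith) hex' hql
  rw [show 10 * c / 10 = c by ring, show 20 / (10 * c) = 2 / c by field_simp; norm_num] at h1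
  have ha0' : 0 ≤ a' := le_trans ha0 (le_trans (le_add_of_nonneg_right (by positivity)) ha)
  have h2 := mul_le_mul_of_nonneg_left h1 ha0'
  have h3 : 6 ≤ m * c := by
    calc (6 : ℝ) ≤ 400000 * (√Y * c) := by linarith
      _ = 400000 * √Y * c := by ring
      _ ≤ _ := mul_le_mul_of_nonneg_right hm hc.le
  have h4 : a' * (m * (d * c)) ≤ m * (d * c) := mul_le_of_le_one_left (by positivity) ha'
  have h5 : a' * (6 * d) ≤ m * c * d :=
    (mul_le_of_le_one_left (by positivity) ha').trans (mul_le_mul_of_nonneg_right h3 hd0.le)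
  have h6 : 2 / c * (24 * PS) ≤ θ * (2 * √Y * c * PS) * √Y := by
    rw [show θ * (2 * √Y * c * PS) * √Y = θ * (√Y * √Y * c) * (2 * PS) by ring,
      Real.mul_self_sqrt hY.le, div_mul_eq_mul_div, div_le_iff₀ hc]
    calc 2 * (24 * PS) = 24 * (2 * PS) := by ring
      _ ≤ θ * (Y * c ^ 2) * (2 * PS) := mul_le_mul_of_nonneg_right hθY (by linarith)
      _ = _ := by ring
  have h7 : a' * (2 / c * P * d) ≤ θ * (2 * √Y * c * PS) * √Y * d := by
    refine le_trans ?_ (mul_le_mul_of_nonneg_right h6 hd0.le)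
    refine le_trans (mul_le_mul_of_nonneg_left (mul_le_mul_of_nonneg_right
      (mul_le_mul_of_nonneg_left hP (by positivity)) hd0.le) ha0')
      (mul_le_of_le_one_left (by positivity) ha')
  have h8 := mul_le_mul_of_nonneg_right ha (show 0 ≤ m by linarith)
  have h9 := mul_le_mul_of_nonneg_left hU (mul_nonneg hθ hy.le)
  have h10 : θ * √Y * (C * (2 * d) * (m * c / √Y)) ≤ C * (2 * d) * (m * c) := by
    rw [show θ * √Y * (C * (2 * d) * (m * c / √Y)) = θ * (C * (2 * d) * (m * c)) by field_simp]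
    exact mul_le_of_le_one_left (by have : 0 ≤ m := by linarith
                                    positivity) hθ1
  have key : a * m - θ * √Y * X ≤ a' * ((m - 3) * q) - θ * √Y * U := by
    have : 0 ≤ m * c * d := by have : 0 ≤ m := by linarith
                               positivity
    linarith
  have e1 : a * m / √Y - θ * X = (a * m - θ * √Y * X) / √Y := by
    field_simp
  have e2 : a' * (m - 3) / (√Y / q) - θ * U = (a' * ((m - 3) * q) - θ * √Y * U) / √Y := by
    field_simp
  rw [e1, e2]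
  gcongr

variable {N K K0 C A θ : ℝ}
variable {xi : Finset (Finset α) → Finset (Finset α) → ℝ → (Finset α → ℝ) → ℝ}

/-- The conditions on the constants. -/
structure Params (K K0 C A θ : ℝ) : Prop where
  big : 16 ≤ K0 / 2
  hK : K ≤ K0 / 2
  hC : 1 ≤ C
  hA : 150 * (C + 4) ≤ A
  small : A * cap (K0 / 2) ≤ 1 / 2
  hθ : θ ≤ 1
  base : 48 * 10 ^ 17 * C ≤ θ * (√(K0 / 2) * cap (K0 / 2))

/-- The subsolution lies below the leave. -/
theorem sub_le_leave_sharp (hX : Penalty α N K C xi) (hP : Params K K0 C A θ) :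
    ∀ (G B : Finset (Finset α)) (Y : ℝ) (w : Finset α → ℝ), Good G B Y w → K0 / 2 ≤ Y → Y ≤ N →
      (1 / 2 + A * cap Y) * G.card / √Y - θ * xi G B Y w - 400000 ≤
        1500 * K0 ^ 2 * leave G := by
  intro G
  induction hn : G.card using Nat.strong_induction_on generalizing G with
  | _ n ih =>
    subst hn
    intro B Y w hG hY hYN
    obtain ⟨big, hK, hC, hA, small, hθ1, base⟩ := hP
    have hA0 : 16 ≤ A := by linarith
    have hY0 : 0 < Y := by linarith
    have hy : 0 < √Y := Real.sqrt_pos.2 hY0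
    have hc := cap_pos hY0
    have hcap : A * cap Y ≤ 1 / 2 :=
      (mul_le_mul_of_nonneg_left (cap_anti (by linarith) hY) (by linarith)).trans small
    have hc20 : cap Y ≤ 1 / 100 := by nlinarith
    have ha1 : (1 / 2 + A * cap Y) ≤ 1 := by linarith
    have hmono := sqrt_cap_mono (show 0 < K0 / 2 by linarith) hY
    have hθ0 : 0 < θ :=
      pos_of_mul_pos_left (lt_of_lt_of_le (by positivity) base)
        (mul_nonneg (Real.sqrt_nonneg _) (cap_pos (by linarith)).le)
    have hbig : 48 * 10 ^ 17 * C ≤ θ * (√Y * cap Y) :=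
      base.trans (mul_le_mul_of_nonneg_left hmono hθ0.le)
    have hF : 0 ≤ 1500 * K0 ^ 2 * leave G := mul_nonneg (by positivity) (Lower.leave_nonneg G)
    have hp := psi_nonneg G Y w
    have hs := sq_nonneg' G w
    have hge := hX.ge G B Y w hG (hK.trans hY) hYN
    have hX0 : 0 ≤ xi G B Y w :=
      nonneg_of_mul_nonneg_right (le_trans (by positivity) hge) (by linarith)
    have hsh := shape_le_split hY0 hc20 hG
    -- the penalty pays for `10^17` times the shape
    have hpay : 10 ^ 17 * Lower.shape G Y ≤ θ * xi G B Y w := by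
      refine le_trans (mul_le_mul_of_nonneg_left hsh (by norm_num)) ?_
      refine le_of_mul_le_mul_right ?_ (show 0 < C by linarith)
      have h1 : θ * (√Y * cap Y) * psi G Y w ≤ θ * √Y * psi G Y w := by
        refine mul_le_mul_of_nonneg_right (mul_le_mul_of_nonneg_left ?_ hθ0.le) hp
        exact mul_le_of_le_one_right hy.le (by linarith)
      have h2 := mul_le_mul_of_nonneg_left hge hθ0.le
      have h3 := mul_le_mul_of_nonneg_right hbig (add_nonneg hp hs)
      have h4 := mul_nonneg (show 0 ≤ C by linarith) hp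
      have h5 := mul_nonneg (show 0 ≤ C by linarith) hs
      linarith
    rcases le_or_gt Y K0 with hYK | hYK
    · have h1 := Lower.stage_lower G (Y := Y) (by linarith)
      have h2 : (1 / 2 + A * cap Y) * G.card / √Y ≤ (G.card : ℝ) / √Y := by
        gcongr; exact mul_le_of_le_one_left (Nat.cast_nonneg _) ha1
      have h3 : 1500 * Y ^ 2 * leave G ≤ 1500 * K0 ^ 2 * leave G :=
        mul_le_mul_of_nonneg_right (by gcongr) (Lower.leave_nonneg G)
      linarith
    have hθX : 0 ≤ θ * xi G B Y w := mul_nonneg hθ0.le hX0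
    rcases le_or_gt ((G.card : ℝ)) (400000 * √Y) with hm | hm
    · have h1 : (1 / 2 + A * cap Y) * G.card / √Y ≤ 400000 := by
        rw [div_le_iff₀ hy]
        exact le_trans (mul_le_of_le_one_left (Nat.cast_nonneg _) ha1) hm
      linarith
    rcases lt_or_ge (3 * ((tri G).card : ℝ)) (G.card * Y / 2) with hT | hT
    · have h1 := Lower.shape_of_few G hY0 hT
      have h2 : (1 / 2 + A * cap Y) * G.card / √Y ≤ G.card := by
        rw [div_le_iff₀ hy]
        exact (mul_le_of_le_one_left (Nat.cast_nonneg _) ha1).trans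
          (le_mul_of_one_le_right (Nat.cast_nonneg _) (Real.one_le_sqrt.2 (by linarith)))
      linarith
    have hy1 : 1 ≤ √Y := Real.one_le_sqrt.2 (by linarith)
    have hm12 : (12 : ℝ) ≤ G.card := by linarith
    have hT0 : (0 : ℝ) < (tri G).card := by
      have := mul_pos (show (0 : ℝ) < G.card by linarith) hY0
      linarith
    have hne : (tri G).Nonempty := card_pos.1 (by exact_mod_cast hT0)
    have hd : drop G Y = 2 * (Y / (tri G).card) := by rw [drop, triNum]; ring
    have hs0 : 0 ≤ drop G Y := by rw [hd]; positivity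
    have hs1 : drop G Y ≤ 1 := by
      rw [drop, triNum, div_le_one hT0]
      nlinarith
    have hY' : K0 / 2 ≤ nextY G Y := by
      rw [nextY, le_div_iff₀ (by linarith)]; nlinarith
    have hY'N : nextY G Y ≤ N := le_trans (div_le_self hY0.le (by linarith)) hYN
    have hacap := cap_next hY0 hs0 hs1
    have hcap' : A * cap (nextY G Y) ≤ 1 / 2 :=
      (mul_le_mul_of_nonneg_left (cap_anti (by linarith) hY') (by linarith)).trans small
    have hYc : 1 ≤ √Y * cap Y := by
      by_contra hh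
      push Not at hh
      nlinarith
    have hU : (∑ t ∈ tri G, xi (G \ sides t) (nextB G B Y t) (nextY G Y) (nextW G B Y w t)) /
        (tri G).card + drop G Y * (√Y * cap Y) * (psi G Y w + sq G w) ≤
        xi G B Y w + C * drop G Y * ((G.card : ℝ) * cap Y / √Y) := by
      rw [← le_sub_iff_add_le, div_le_iff₀ hT0]
      have := hX.step G B Y w hG (hK.trans hY) hYN hT
      rw [triNum] at this
      linarith
    rw [hd] at hU
    have key := lower_arith (a := 1 / 2 + A * cap Y) (a' := 1 / 2 + A * cap (nextY G Y))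
      (C := C) (θ := θ) (c := cap Y) (by linarith) hT0 hc (by linarith) hθ0.le hθ1
      hm.le hT hYc (by positivity) (by linarith)
      (by
        have h1 := mul_le_mul_of_nonneg_left hacap (show 0 ≤ A by linarith)
        have h2 := mul_le_mul_of_nonneg_right hA (mul_nonneg hc.le hs0)
        rw [hd] at h1 h2
        change _ ≤ 1 / 2 + A * cap (Y / (1 + drop G Y))
        rw [hd]
        linarith)
      (Lower.tri_excess_le G hY0 hc (by linarith)) (add_nonneg hp hs)
      (by linarith) (by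
        have h1 : 24 ≤ θ * (√Y * cap Y) := le_trans (by linarith) hbig
        have h2 := mul_le_mul h1 hYc zero_le_one (by linarith)
        calc (24 : ℝ) = 24 * 1 := by ring
          _ ≤ _ := h2
          _ = θ * (√Y * √Y * cap Y ^ 2) := by ring
          _ = _ := by rw [Real.mul_self_sqrt hY0.le])
      hU
    have e : Y / (1 + 2 * (Y / (tri G).card)) = nextY G Y := by rw [nextY, hd]
    rw [e] at key
    refine (sub_le_sub_right key 400000).trans ?_
    have hrec : ∀ t ∈ tri G, (1 / 2 + A * cap (nextY G Y)) * (((G.card : ℝ) - 3)) / √(nextY G Y) -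
        θ * xi (G \ sides t) (nextB G B Y t) (nextY G Y) (nextW G B Y w t) - 400000 ≤
        1500 * K0 ^ 2 * leave (G \ sides t) := fun t ht => by
      have hc := congrArg (fun n : ℕ => (n : ℝ)) (Lower.card_sdiff_sides (G := G) ht)
      push_cast at hc
      have := ih _ (card_removed_lt ht) (G \ sides t) rfl (nextB G B Y t) (nextY G Y)
        (nextW G B Y w t) (hX.good G B Y w hG (hK.trans hY) hYN hT t ht) hY' hY'N
      rwa [show ((G \ sides t).card : ℝ) = (G.card : ℝ) - 3 by linarith] at this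
    have hsum := sum_le_sum hrec
    simp only [sum_sub_distrib, sum_const, nsmul_eq_mul, ← mul_sum, ← Lower.leave_mul hne] at hsum
    refine le_of_mul_le_mul_left ?_ hT0
    refine le_trans (le_of_eq ?_) (hsum.trans_eq (by ring))
    field_simp

/-- From a penalty of order `n^{3/2}` at the start: `E F_n` is at least of order `n^{3/2}`. -/
theorem leave_complete_ge_sharp {K C : ℝ} (hC1 : 1 ≤ C)
    (h : ∀ᶠ n : ℕ in atTop, ∃ xi, Penalty (Fin n) n K C xi ∧
      xi (complete n) ∅ ((n : ℝ) - 2) (fun _ => 0) ≤ C * ((n : ℝ) * √n)) :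
    ∃ c : ℝ, 0 < c ∧ ∀ᶠ n : ℕ in atTop, c * ((n : ℝ) * √n) ≤ leave (complete n) := by
  set A := 150 * (C + 4)
  -- the penalty weight must be below `1/(100 C)`
  set M := 48 * 10 ^ 17 * C * (100 * C) with hM
  have e1 : ∀ᶠ x : ℝ in atTop, M ≤ √x * cap x := by
    filter_upwards [(tendsto_rpow_atTop (show (0 : ℝ) < 12 / 25 by norm_num)).eventually_ge_atTop M,
      eventually_gt_atTop 0] with x hx h0
    rwa [sqrt_cap_eq h0]
  have e2 : ∀ᶠ x : ℝ in atTop, A * cap x ≤ 1 / 2 := by
    have := ((tendsto_rpow_neg_atTop (show (0 : ℝ) < 1 / 50 by norm_num)).const_mul A)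
    rw [mul_zero] at this
    exact this.eventually_le_const (by norm_num)
  obtain ⟨x, hx1, hx2, hx3⟩ := (e1.and (e2.and (eventually_ge_atTop (max 16 K)))).exists
  set θ := 1 / (100 * C) with hθ
  have hP : Params K (2 * x) C A θ := by
    have hx16 := le_max_left (16 : ℝ) K
    have hxK := le_max_right (16 : ℝ) K
    refine ⟨by linarith, by linarith, hC1, le_rfl, ?_, ?_, ?_⟩
    · rwa [mul_div_cancel_left₀ x two_ne_zero]
    · rw [hθ, div_le_one (by positivity)]; linarith
    · rw [mul_div_cancel_left₀ x two_ne_zero, hθ, div_mul_eq_mul_div, one_mul,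
        le_div_iff₀ (by positivity)]
      linarith
  refine ⟨1 / (24 * (1500 * (2 * x) ^ 2)), by have : (0:ℝ) < x := by linarith [le_max_left (16:ℝ) K]
                                              positivity, ?_⟩
  filter_upwards [h, eventually_ge_atTop (⌈x⌉₊ + 10 ^ 8)] with n ⟨xi, hX, hstart⟩ hn
  have hx0 : 16 ≤ x := (le_max_left _ _).trans hx3
  have hn8 : (10 ^ 8 : ℝ) ≤ n := by exact_mod_cast le_of_add_le_right hn
  have hnx : x + 2 ≤ (n : ℝ) := by
    have h1 : ((⌈x⌉₊ + 10 ^ 8 : ℕ) : ℝ) ≤ n := by exact_mod_cast hn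
    push_cast at h1
    linarith [Nat.le_ceil x]
  have hY0 : (0 : ℝ) < (n : ℝ) - 2 := by linarith
  have hG : Good (complete n) ∅ ((n : ℝ) - 2) (fun _ => 0) := by
    refine ⟨fun e he _ => ?_, fun e => ?_⟩
    · rw [zeta, deg_complete he, Nat.cast_sub (by omega), Nat.cast_ofNat, div_self hY0.ne',
        sub_self, abs_zero]
      norm_num
    · rw [abs_zero]; exact mul_nonneg (by norm_num) (cap_pos hY0).le
  have key := sub_le_leave_sharp hX hP (complete n) ∅ ((n : ℝ) - 2) _ hG (by linarith)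
    (by linarith)
  have hcard : ((complete n).card : ℝ) = n * ((n : ℝ) - 1) / 2 := by
    rw [complete, card_powersetCard, card_univ, Fintype.card_fin, Nat.cast_choose_two]
  rw [hcard] at key
  have hsn : 1 ≤ √(n : ℝ) := Real.one_le_sqrt.2 (by linarith)
  have h4 : (n : ℝ) * √n / 8 ≤ (1 / 2 + A * cap ((n : ℝ) - 2)) * (n * ((n : ℝ) - 1) / 2) /
      √((n : ℝ) - 2) := by
    rw [le_div_iff₀ (Real.sqrt_pos.2 hY0)]
    have h1 : √((n : ℝ) - 2) ≤ √n := Real.sqrt_le_sqrt (by linarith)
    have h2 : 0 ≤ A * cap ((n : ℝ) - 2) := mul_nonneg (by positivity) (cap_pos hY0).le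
    calc (n : ℝ) * √n / 8 * √((n : ℝ) - 2) ≤ (n : ℝ) * √n / 8 * √n :=
          mul_le_mul_of_nonneg_left h1 (by positivity)
      _ = (n : ℝ) * n / 8 := by rw [div_mul_eq_mul_div, mul_assoc, Real.mul_self_sqrt (by linarith)]
      _ ≤ (1 / 2) * (n * ((n : ℝ) - 1) / 2) := by nlinarith
      _ ≤ _ := mul_le_mul_of_nonneg_right (by linarith) (by nlinarith)
  have h5 : θ * xi (complete n) ∅ ((n : ℝ) - 2) (fun _ => 0) ≤ (n : ℝ) * √n / 100 := by
    refine le_trans (mul_le_mul_of_nonneg_left hstart (by positivity)) (le_of_eq ?_)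
    rw [hθ]; field_simp
  have h6 : 400000 ≤ (n : ℝ) * √n / 100 := by nlinarith
  rw [one_div_mul_eq_div, div_le_iff₀ (by positivity)]
  linarith

end Vale.Agent.P046.Sharp
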