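import Vale.Agent.P046.Step
import Mathlib.Analysis.SpecialFunctions.Pow.Real

/-! P046: the enriched state (scale, martingale part, tainted edges) and its potentials. -/

open Finset

namespace Vale.Agent.P046.Sharp

variable {α : Type*} [DecidableEq α] [Fintype α]

/-- The cap of the martingale part. -/
noncomputable def cap (Y : ℝ) : ℝ := Y ^ (-(1/50) : ℝ)

/-- The number of triangles. -/
noncomputable def triNum (G : Finset (Finset α)) : ℝ := ((tri G).card : ℝ)

/-- The relative decrease of the scale in one step. -/
noncomputable def drop (G : Finset (Finset α)) (Y : ℝ) : ℝ := 2 * Y / triNum G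

/-- The scale after one step. -/
noncomputable def nextY (G : Finset (Finset α)) (Y : ℝ) : ℝ := Y / (1 + drop G Y)

/-- Triangles on `e` destroyed by deleting `t`, zero on the sides of `t`. -/
noncomputable def dk (G : Finset (Finset α)) (t e : Finset α) : ℝ :=
  if e ∈ sides t then 0 else (dkill G t e : ℝ)

/-- All destructions at the edge `e`. -/
noncomputable def kill (G : Finset (Finset α)) (e : Finset α) : ℝ := ∑ t ∈ tri G, dk G t e

/-- The mean destruction at `e`, given that `e` survives. -/
noncomputable def dbar (G : Finset (Finset α)) (e : Finset α) : ℝ :=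
  kill G e / (triNum G - deg G e)

/-- The edges whose martingale part moves. -/
def gated (B : Finset (Finset α)) (Y : ℝ) (w : Finset α → ℝ) (e : Finset α) : Prop :=
  e ∉ B ∧ |w e| ≤ cap Y

open Classical in
/-- The increment of the martingale part. -/
noncomputable def dw (G B : Finset (Finset α)) (Y : ℝ) (w : Finset α → ℝ) (t e : Finset α) : ℝ :=
  if e ∉ sides t ∧ gated B Y w e then -((1 + drop G Y) / Y * (dk G t e - dbar G e)) else 0

/-- The martingale part after one step. -/
noncomputable def nextW (G B : Finset (Finset α)) (Y : ℝ) (w : Finset α → ℝ) (t e : Finset α) : ℝ :=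
  w e + dw G B Y w t e

open Classical in
/-- The tainted edges after one step. -/
noncomputable def nextB (G B : Finset (Finset α)) (Y : ℝ) (t : Finset α) : Finset (Finset α) :=
  B ∪ (G \ sides t).filter fun e => 1/10 < |zeta (G \ sides t) (nextY G Y) e - 1|

/-- The invariant of the state. -/
structure Good (G B : Finset (Finset α)) (Y : ℝ) (w : Finset α → ℝ) : Prop where
  flat : ∀ e ∈ G, e ∉ B → |zeta G Y e - 1| ≤ 1/10
  small : ∀ e, |w e| ≤ 2 * cap Y

/-- The drift part of the deviation. -/
noncomputable def uu (G : Finset (Finset α)) (Y : ℝ) (w : Finset α → ℝ) (e : Finset α) : ℝ :=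
  zeta G Y e * (1 - w e) - 1

/-- The potential of the drift part. -/
noncomputable def psi (G : Finset (Finset α)) (Y : ℝ) (w : Finset α → ℝ) : ℝ :=
  ∑ e ∈ G, phi (uu G Y w e)

/-- The potential of the martingale part. -/
noncomputable def sq (G : Finset (Finset α)) (w : Finset α → ℝ) : ℝ := ∑ e ∈ G, w e ^ 2

/-- The tainted edges, with a precursor for the others. -/
noncomputable def taint (G B : Finset (Finset α)) (Y : ℝ) : ℝ :=
  ((G ∩ B).card : ℝ) + ∑ e ∈ G \ B, 100 * (zeta G Y e - 1) ^ 2

/-- The neighbour average of the martingale part. -/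
noncomputable def xx (G : Finset (Finset α)) (Y : ℝ) (w : Finset α → ℝ) (e : Finset α) : ℝ :=
  (∑ k ∈ (tri G).filter (e ∈ sides ·), ∑ f ∈ (sides k).erase e, w f) / Y

/-- The potential of the neighbour average. -/
noncomputable def tq (G B : Finset (Finset α)) (Y : ℝ) (w : Finset α → ℝ) : ℝ :=
  ∑ e ∈ G \ B, xx G Y w e ^ 2

/-- The edges sharing a triangle with `e`. -/
def nbrs (G : Finset (Finset α)) (e : Finset α) : Finset (Finset α) :=
  ((tri G).filter (e ∈ sides ·)).biUnion fun k => (sides k).erase e

/-- The sides of the triangle through two edges. -/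
def span (G : Finset (Finset α)) (e f : Finset α) : Finset (Finset α) :=
  ((tri G).filter fun k => e ∈ sides k ∧ f ∈ sides k).biUnion sides

/-- The edges of a four-cycle of triangles with corners `e, h, f, g`. -/
def support (G : Finset (Finset α)) (c : (Finset α × Finset α) × (Finset α × Finset α)) :
    Finset (Finset α) :=
  span G c.1.1 c.2.1 ∪ span G c.1.1 c.2.2 ∪ (span G c.1.2 c.2.1 ∪ span G c.1.2 c.2.2)

/-- Quadruples `e, h, f, g` with `f` and `g` both neighbours of both `e` and `h`. -/
def quads (G : Finset (Finset α)) : Finset ((Finset α × Finset α) × (Finset α × Finset α)) :=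
  ((G ×ˢ G) ×ˢ (G ×ˢ G)).filter fun c => c.1.1 ≠ c.1.2 ∧ c.2.1 ≠ c.2.2 ∧
    c.2.1 ∈ nbrs G c.1.1 ∧ c.2.2 ∈ nbrs G c.1.1 ∧ c.2.1 ∈ nbrs G c.1.2 ∧ c.2.2 ∈ nbrs G c.1.2

/-- Untainted four-cycles of triangles on eight distinct edges. -/
def cycles (G B : Finset (Finset α)) : Finset ((Finset α × Finset α) × (Finset α × Finset α)) :=
  (quads G).filter fun c => (support G c).card = 8 ∧ support G c ⊆ G \ B

end Vale.Agent.P046.Sharp
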