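import Vale.Agent.P046.Sharp.StepTaint

/-! P046: one step for the drift part. -/

open Finset

namespace Vale.Agent.P046.Sharp

variable {α : Type*} [DecidableEq α] [Fintype α] {G B : Finset (Finset α)} {Y : ℝ}
  {w : Finset α → ℝ} {t k e : Finset α}

/-- The error budget of the drift part. -/
noncomputable def budget (G B : Finset (Finset α)) (Y : ℝ) (w : Finset α → ℝ) : ℝ :=
  cap Y * (bulk G B Y w + Y * taint G B Y + G.card)

theorem inv_le_cap_pow {Y : ℝ} (hY : 1 ≤ Y) (n : ℕ) (hn : n ≤ 6) : 1 / Y ≤ cap Y ^ n := by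
  rw [cap, ← Real.rpow_natCast, ← Real.rpow_mul (by linarith), one_div, ← Real.rpow_neg_one]
  refine Real.rpow_le_rpow_of_exponent_le hY ?_
  have : (n : ℝ) ≤ 6 := by exact_mod_cast hn
  linarith

theorem Dense.bulk_parts (h : Dense G B Y w) :
    0 ≤ bulk G B Y w ∧ pd G Y w ≤ bulk G B Y w ∧ Y * psi G Y w ≤ bulk G B Y w ∧
      Y * sq G w ≤ bulk G B Y w := by
  have hY := h.pos
  have := h.pd_nonneg
  have : 0 ≤ Y * psi G Y w := mul_nonneg hY.le (psi_nonneg _ _ _)
  have : 0 ≤ Y * sq G w := mul_nonneg hY.le (sq_nonneg' _ _)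
  have : 0 ≤ Y * (cap Y ^ 2 * taint G B Y) := by
    have := taint_nonneg G B Y; positivity
  unfold bulk
  refine ⟨?_, ?_, ?_, ?_⟩ <;> linarith

theorem Dense.sum_flat_small (h : Dense G B Y w) :
    ∑ e ∈ G, phi (zeta G Y e - 1) + sq G w ≤ 25 * (psi G Y w + sq G w) := by
  have := h.phiSum_bulk
  have := psi_nonneg G Y w
  unfold phiSum at *
  linarith

/-- The noise at one edge. -/
noncomputable def noise (G B : Finset (Finset α)) (Y : ℝ) (w : Finset α → ℝ) (e : Finset α) : ℝ :=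
  ∑ t ∈ (tri G).filter (e ∉ sides ·),
    ((1 - w e) * hh G Y t e - zeta G Y e * dw G B Y w t e - hh G Y t e * dw G B Y w t e) ^ 2

open Classical in
/-- The contribution of one triangle to the noise bound. -/
noncomputable def share (G B : Finset (Finset α)) (Y : ℝ) (w : Finset α → ℝ) (k e : Finset α) : ℝ :=
  (if 26 < side G Y k then 200 * side G Y k else 0) / Y
    + (if gated B Y w e then 150000 * (phi (zeta G Y e - 1) + w e ^ 2) else 300) / Y

theorem Dense.kill_side (h : Dense G B Y w) (he : e ∈ G) :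
    kill G e ≤ Y * ∑ k ∈ (tri G).filter (e ∈ sides ·), side G Y k := by
  rw [kill_eq he, mul_sum]
  refine sum_le_sum fun k _ => ?_
  have : Y * side G Y k = ∑ j ∈ sides k, (deg G j : ℝ) := by
    have := h.pos
    simp only [side, zeta, ← sum_div]; field_simp
  have : (0 : ℝ) ≤ deg G e := Nat.cast_nonneg _
  linarith

/-- The change of the drift part at a gated edge, split. -/
theorem Dense.gated_point (h : Dense G B Y w) (he : e ∈ G) (hg : gated B Y w e) (htr : t ∈ tri G)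
    (hte : e ∉ sides t) :
    ((1 - w e) * hh G Y t e - zeta G Y e * dw G B Y w t e
        - hh G Y t e * dw G B Y w t e) ^ 2
      ≤ (6 * ((zeta G Y e - 1) ^ 2 + w e ^ 2) + 48 / Y ^ 2) * hh G Y t e ^ 2
        + 4 * (2 * drop G Y ^ 2 * zeta G Y e ^ 2 + 3 / Y ^ 2 * dbar G e ^ 2) := by
  have hY := h.pos
  have hflat := h.good.flat e he hg.1
  obtain ⟨hz1, hz2⟩ := abs_le.1 hflat
  set ζ := zeta G Y e with hζ
  set z := ζ - 1 with hz
  set s := drop G Y with hs
  have hs0 : 0 ≤ s := h.drop_nonneg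
  set D := dbar G e with hD
  obtain ⟨ht, hte'⟩ : t ∈ tri G ∧ e ∉ sides t := ⟨htr, hte⟩
  set H := hh G Y t e with hH
  set d := dw G B Y w t e with hd
  have hHd : H - d = s * ζ - (1 + s) / Y * D := by
    rw [hH, hd, hh, dw, if_pos ⟨hte', hg⟩, ← hs, ← hζ, ← hD]; ring
  have e1 : (1 - w e) * H - ζ * d - H * d = -(z + w e) * H + ζ * (H - d) - H * d := by
    rw [hz]; ring
  rw [e1]
  have hd4 : d ^ 2 ≤ 16 / Y ^ 2 := by
    have := h.dw_abs_le ht e
    calc d ^ 2 ≤ (4 / Y) ^ 2 := sq_le_sq.2 (le_trans this (le_abs_self _))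
      _ = _ := by ring
  have hq : ((1 + s) / Y * D) ^ 2 ≤ 3/2 / Y ^ 2 * D ^ 2 := by
    rw [mul_pow, div_pow]
    refine mul_le_mul_of_nonneg_right (div_le_div_of_nonneg_right ?_ (sq_nonneg _)) (sq_nonneg _)
    have := h.drop_small
    rw [← hs] at this
    nlinarith
  have h2 : (H - d) ^ 2 ≤ 2 * s ^ 2 * ζ ^ 2 + 3 / Y ^ 2 * D ^ 2 := by
    rw [hHd]
    have e3 : 3 / Y ^ 2 * D ^ 2 = 2 * (3/2 / Y ^ 2 * D ^ 2) := by ring
    nlinarith [sq_nonneg (s * ζ + (1 + s) / Y * D)]
  have hζ2 : ζ ^ 2 ≤ 5/4 := by nlinarith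
  have t1 : (ζ * (H - d)) ^ 2 ≤ 5/4 * (2 * s ^ 2 * ζ ^ 2 + 3 / Y ^ 2 * D ^ 2) := by
    rw [mul_pow]; exact mul_le_mul hζ2 h2 (sq_nonneg _) (by norm_num)
  have t2 : (H * d) ^ 2 ≤ 16 / Y ^ 2 * H ^ 2 := by
    rw [mul_pow, mul_comm]; exact mul_le_mul_of_nonneg_right hd4 (sq_nonneg _)
  have t3 : (-(z + w e) * H) ^ 2 ≤ 2 * (z ^ 2 + w e ^ 2) * H ^ 2 := by
    rw [mul_pow, neg_sq]
    exact mul_le_mul_of_nonneg_right (by nlinarith [sq_nonneg (z - w e)]) (sq_nonneg _)
  have e4 : (48 : ℝ) / Y ^ 2 * H ^ 2 = 3 * (16 / Y ^ 2 * H ^ 2) := by ring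
  have : 0 ≤ 2 * s ^ 2 * ζ ^ 2 + 3 / Y ^ 2 * D ^ 2 := by positivity
  nlinarith [sq_nonneg (-(z + w e) * H - ζ * (H - d)), sq_nonneg (-(z + w e) * H + H * d),
    sq_nonneg (ζ * (H - d) + H * d)]

/-- The sum of the large triangles at an edge. -/
noncomputable def bigSum (G : Finset (Finset α)) (Y : ℝ) (e : Finset α) : ℝ :=
  ∑ k ∈ (tri G).filter (e ∈ sides ·), (if 26 < side G Y k then side G Y k else 0)

theorem bigSum_nonneg (hY : 0 < Y) (e : Finset α) : 0 ≤ bigSum G Y e :=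
  sum_nonneg fun k _ => by
    split_ifs <;> first | exact side_nonneg' hY k | exact le_rfl

theorem Dense.kill_big (h : Dense G B Y w) (he : e ∈ G \ B) :
    kill G e ≤ 29 * Y ^ 2 + Y * bigSum G Y e := by
  obtain ⟨hd1, hd2⟩ := h.flat_deg he
  have hY := h.pos
  refine (h.kill_side (mem_sdiff.1 he).1).trans ?_
  set T := (tri G).filter (e ∈ sides ·) with hT
  have h1 : ∑ k ∈ T, side G Y k ≤ ∑ k ∈ T, (26 + if 26 < side G Y k then side G Y k else 0) :=
    sum_le_sum fun k _ => by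
      split_ifs with hk
      · linarith
      · linarith [not_lt.1 hk]
  rw [sum_add_distrib, sum_const, nsmul_eq_mul, show ((T.card : ℝ)) = deg G e from rfl,
    ← show bigSum G Y e = ∑ k ∈ T, (if 26 < side G Y k then side G Y k else 0) from rfl] at h1
  nlinarith

theorem Dense.dbar_sq (h : Dense G B Y w) (he : e ∈ G \ B) :
    triNum G * dbar G e ^ 2 ≤ 160000 * Y + 8 * (Y * bigSum G Y e) := by
  have hY := h.pos
  have hL := h.large
  obtain ⟨hd1, hd2⟩ := h.flat_deg he
  obtain ⟨hD0, hD3⟩ := dbar_range G e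
  have hK := h.kill_big he
  have hm := h.sq_le
  have hQm := h.many
  have hQ0 := h.triNum_pos
  have hbigs0 := bigSum_nonneg (G := G) hY e
  set bigs := bigSum G Y e with hbigs
  set D := dbar G e with hD
  have hmpos : 0 < (G.card : ℝ) := by nlinarith
  have hyQ : (deg G e : ℝ) ≤ triNum G / 10 := by
    have : 66 * Y ≤ (G.card : ℝ) * Y := by
      refine mul_le_mul_of_nonneg_right ?_ hY.le; nlinarith
    linarith
  have hQy : 0 < triNum G - deg G e := by linarith
  set a := 40 * Y ^ 2 / triNum G with ha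
  set b := 2 * (Y * bigs) / triNum G with hb
  have hDab : D ≤ a + b := by
    rw [hD, dbar, ha, hb, ← add_div, div_le_div_iff₀ hQy hQ0]
    have : kill G e * triNum G ≤ (29 * Y ^ 2 + Y * bigs) * triNum G :=
      mul_le_mul_of_nonneg_right hK hQ0.le
    have : (29 * Y ^ 2 + Y * bigs) * triNum G ≤ (40 * Y ^ 2 + 2 * (Y * bigs)) * (triNum G - deg G e) := by
      have : (29 * Y ^ 2 + Y * bigs) * triNum G ≤ (36 * Y ^ 2 + 9/5 * (Y * bigs)) * triNum G :=
        mul_le_mul_of_nonneg_right (by nlinarith) hQ0.le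
      have : (40 * Y ^ 2 + 2 * (Y * bigs)) * (9/10 * triNum G)
          ≤ (40 * Y ^ 2 + 2 * (Y * bigs)) * (triNum G - deg G e) :=
        mul_le_mul_of_nonneg_left (by linarith) (by positivity)
      linarith
    linarith
  have ha0 : 0 ≤ a := by positivity
  have hb0 : 0 ≤ b := by positivity
  have ha1 : a ≤ 1 := by
    rw [ha, div_le_one hQ0]
    have : 240 * Y ^ 2 ≤ (G.card : ℝ) * Y := by
      have := mul_le_mul_of_nonneg_right hm hY.le
      nlinarith
    linarith
  have hD2 : triNum G * D ^ 2 ≤ 160000 * Y + 8 * (Y * bigs) := by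
    have h1 : D ^ 2 ≤ a ^ 2 + 4 * b := by nlinarith
    have h2 : triNum G * a ^ 2 ≤ 160000 * Y := by
      rw [ha, div_pow, ← mul_div_assoc, div_le_iff₀ (by positivity)]
      have : (G.card : ℝ) * Y ≤ 6 * triNum G := by linarith
      have : Y ^ 2 * Y ≤ 16 * ((G.card : ℝ) * Y) := by nlinarith
      have := mul_le_mul_of_nonneg_left (show Y ^ 3 ≤ 96 * triNum G by nlinarith)
        (show 0 ≤ 1600 * Y * triNum G by positivity)
      nlinarith
    have h3 : triNum G * (4 * b) = 8 * (Y * bigs) := by rw [hb]; field_simp; ring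
    nlinarith
  exact hD2

theorem Dense.sum_hh_sq_gated (h : Dense G B Y w) (he : e ∈ G \ B) :
    ∑ t ∈ (tri G).filter (e ∉ sides ·), hh G Y t e ^ 2 ≤ 208 + 7 / Y * bigSum G Y e := by
  have hY := h.pos
  refine (h.sum_hh_sq e).trans ?_
  obtain ⟨hz1, hz2⟩ := abs_le.1 (h.good.flat e (mem_sdiff.1 he).1 (mem_sdiff.1 he).2)
  have a0 : drop G Y * Y ≤ 1 := by
    have := h.drop_le_inv; rwa [le_div_iff₀ hY] at this
  have a1 : 4 * Y * drop G Y * zeta G Y e ^ 2 ≤ 5 := by
    have hζ : zeta G Y e ^ 2 ≤ 5/4 := by nlinarith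
    calc 4 * Y * drop G Y * zeta G Y e ^ 2 = 4 * (drop G Y * Y) * zeta G Y e ^ 2 := by ring
      _ ≤ 4 * 1 * (5/4) := mul_le_mul (by linarith) hζ (sq_nonneg _) (by norm_num)
      _ = 5 := by norm_num
  have a2 : 7 / Y ^ 2 * kill G e ≤ 7 / Y ^ 2 * (29 * Y ^ 2 + Y * bigSum G Y e) :=
    mul_le_mul_of_nonneg_left (h.kill_big he) (by positivity)
  have a3 : 7 / Y ^ 2 * (29 * Y ^ 2 + Y * bigSum G Y e) = 203 + 7 / Y * bigSum G Y e := by
    field_simp; ring
  linarith

theorem Dense.gated_fixed (h : Dense G B Y w) (he : e ∈ G \ B) :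
    (triNum G - deg G e) * (4 * (2 * drop G Y ^ 2 * zeta G Y e ^ 2 + 3 / Y ^ 2 * dbar G e ^ 2))
      ≤ 1924000 / Y + 96 / Y * bigSum G Y e := by
  have hY := h.pos
  obtain ⟨hz1, hz2⟩ := abs_le.1 (h.good.flat e (mem_sdiff.1 he).1 (mem_sdiff.1 he).2)
  have hsY : drop G Y * Y ≤ 200 / Y :=
    (mul_le_mul_of_nonneg_right h.drop_le hY.le).trans (le_of_eq (by field_simp))
  set s := drop G Y
  have hd : s * triNum G = 2 * Y := h.drop_mul
  have x1 : triNum G * (2 * s ^ 2 * zeta G Y e ^ 2) = 4 * (s * Y) * zeta G Y e ^ 2 := by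
    linear_combination (2 * s * zeta G Y e ^ 2) * hd
  have x2 : 4 * (s * Y) * zeta G Y e ^ 2 ≤ 4 * (200 / Y) * (5/4) :=
    mul_le_mul (by linarith) (by nlinarith) (sq_nonneg _) (by positivity)
  have x3 := mul_le_mul_of_nonneg_left (h.dbar_sq he) (show 0 ≤ 12 / Y ^ 2 by positivity)
  have x4 : 0 ≤ (deg G e : ℝ) * (4 * (2 * s ^ 2 * zeta G Y e ^ 2 + 3 / Y ^ 2 * dbar G e ^ 2)) := by
    positivity
  have x6 : (triNum G - deg G e) * (4 * (2 * s ^ 2 * zeta G Y e ^ 2 + 3 / Y ^ 2 * dbar G e ^ 2))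
      = 4 * (triNum G * (2 * s ^ 2 * zeta G Y e ^ 2)) + 12 / Y ^ 2 * (triNum G * dbar G e ^ 2)
        - (deg G e : ℝ) * (4 * (2 * s ^ 2 * zeta G Y e ^ 2 + 3 / Y ^ 2 * dbar G e ^ 2)) := by ring
  have x7 : 12 / Y ^ 2 * (160000 * Y + 8 * (Y * bigSum G Y e))
      = 1920000 / Y + 96 / Y * bigSum G Y e := by field_simp; ring
  have x8 : (1924000 : ℝ) / Y = 4 * (4 * (200 / Y) * (5/4)) + 1920000 / Y := by ring
  rw [x6, x1, x8]
  linarith

theorem Dense.share_ge (h : Dense G B Y w) (he : e ∈ G) (hg : gated B Y w e) :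
    200 / Y * bigSum G Y e + 9/10 * (150000 * (phi (zeta G Y e - 1) + w e ^ 2))
      ≤ ∑ k ∈ (tri G).filter (e ∈ sides ·), share G B Y w k e := by
  classical
  have hY := h.pos
  have hd1 := (h.flat_deg (mem_sdiff.2 ⟨he, hg.1⟩)).1
  simp only [share, if_pos hg, sum_add_distrib, sum_const, nsmul_eq_mul, ← sum_div]
  refine add_le_add (le_of_eq ?_) ?_
  · rw [bigSum, div_mul_eq_mul_div, mul_sum]
    congr 1
    exact sum_congr rfl fun k _ => by split_ifs <;> simp
  · change _ ≤ (deg G e : ℝ) * _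
    have hp : 0 ≤ phi (zeta G Y e - 1) + w e ^ 2 := add_nonneg (phi_nonneg _) (sq_nonneg _)
    rw [← mul_div_assoc, le_div_iff₀ hY]
    have := mul_le_mul_of_nonneg_left hd1 (show 0 ≤ 150000 * (phi (zeta G Y e - 1) + w e ^ 2) by
      positivity)
    linarith

theorem Dense.noise_gated (h : Dense G B Y w) (he : e ∈ G) (hg : gated B Y w e) :
    noise G B Y w e ≤ ∑ k ∈ (tri G).filter (e ∈ sides ·), share G B Y w k e
      + 200 * (phi (zeta G Y e - 1) + w e ^ 2) + 10 ^ 7 / Y := by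
  have hY := h.pos
  have hL := h.large
  have heU : e ∈ G \ B := mem_sdiff.2 ⟨he, hg.1⟩
  obtain ⟨hz1, hz2⟩ := abs_le.1 (h.good.flat e he hg.1)
  refine (sum_le_sum fun t ht => h.gated_point he hg (mem_filter.1 ht).1 (mem_filter.1 ht).2).trans ?_
  rw [sum_add_distrib, ← mul_sum, sum_const, nsmul_eq_mul, card_avoid]
  have hH := h.sum_hh_sq_gated heU
  have hfix := h.gated_fixed heU
  have hshare := h.share_ge he hg
  have hb0 := bigSum_nonneg (G := G) hY e
  set bigs := bigSum G Y e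
  set S := ∑ k ∈ (tri G).filter (e ∈ sides ·), share G B Y w k e
  set H := ∑ t ∈ (tri G).filter (e ∉ sides ·), hh G Y t e ^ 2
  set z := zeta G Y e - 1
  have hzz := sq_le_phi (show -1 ≤ z by linarith) (show z ≤ 1 by linarith)
  have hp0 := phi_nonneg z
  have hw2 : w e ^ 2 ≤ (1/500 : ℝ) ^ 2 :=
    sq_le_sq.2 (le_trans (h.w_small e) (le_abs_self _))
  have h48 : (48:ℝ) / Y ^ 2 ≤ 1/10 := by rw [div_le_iff₀ (by positivity)]; nlinarith
  have h48' : (208:ℝ) * (48 / Y ^ 2) ≤ 10000 / Y := by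
    rw [← mul_div_assoc, div_le_div_iff₀ (by positivity) hY]; nlinarith
  have hq1 : 6 * (z ^ 2 + w e ^ 2) + 48 / Y ^ 2 ≤ 1 := by
    have : z ^ 2 ≤ 1/100 := by nlinarith
    linarith
  have p1 : (6 * (z ^ 2 + w e ^ 2) + 48 / Y ^ 2) * H
      ≤ (6 * (z ^ 2 + w e ^ 2) + 48 / Y ^ 2) * (208 + 7 / Y * bigs) :=
    mul_le_mul_of_nonneg_left hH (by positivity)
  have p2 : (6 * (z ^ 2 + w e ^ 2) + 48 / Y ^ 2) * (7 / Y * bigs) ≤ 1 * (7 / Y * bigs) :=
    mul_le_mul_of_nonneg_right hq1 (by positivity)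
  have p3 : 7 / Y * bigs + 96 / Y * bigs ≤ 200 / Y * bigs := by
    rw [← add_mul, ← add_div]
    exact mul_le_mul_of_nonneg_right (div_le_div_of_nonneg_right (by norm_num) hY.le) hb0
  have p4 : (10000 : ℝ) / Y + 1924000 / Y ≤ 10 ^ 7 / Y := by
    rw [← add_div]; exact div_le_div_of_nonneg_right (by norm_num) hY.le
  have : 0 ≤ w e ^ 2 := sq_nonneg _
  linarith

theorem Dense.noise_free (h : Dense G B Y w) (he : e ∈ G) (hg : ¬ gated B Y w e) :
    noise G B Y w e ≤ ∑ k ∈ (tri G).filter (e ∈ sides ·), share G B Y w k e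
      + 5 * Y * drop G Y * zeta G Y e ^ 2 := by
  classical
  have hY := h.pos
  have hdw : ∀ t, dw G B Y w t e = 0 := fun t => if_neg (fun hc => hg hc.2)
  unfold noise
  simp only [hdw, mul_zero, sub_zero, mul_pow]
  rw [← mul_sum]
  have hw : (1 - w e) ^ 2 ≤ 5/4 := by
    have := abs_le.1 (h.w_small e); nlinarith
  refine (mul_le_mul hw (h.sum_hh_sq e) (sum_nonneg fun _ _ => sq_nonneg _) (by norm_num)).trans ?_
  have hk := h.kill_side he
  have : 7 / Y ^ 2 * kill G e
      ≤ 7 / Y * ∑ k ∈ (tri G).filter (e ∈ sides ·), side G Y k :=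
    (mul_le_mul_of_nonneg_left hk (by positivity)).trans (le_of_eq (by field_simp))
  have h2 : 5/4 * (7 / Y * ∑ k ∈ (tri G).filter (e ∈ sides ·), side G Y k)
      ≤ ∑ k ∈ (tri G).filter (e ∈ sides ·), share G B Y w k e := by
    rw [mul_sum, mul_sum]
    refine sum_le_sum fun k _ => ?_
    simp only [share, if_neg hg]
    rw [← add_div, show 5/4 * (7 / Y * side G Y k) = (35/4 * side G Y k) / Y by ring]
    refine div_le_div_of_nonneg_right ?_ hY.le
    have := side_nonneg' (G := G) hY k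
    split_ifs with hb
    · linarith
    · linarith [not_lt.1 hb]
  linarith

theorem Dense.sum_noise (h : Dense G B Y w) :
    ∑ e ∈ G, noise G B Y w e ≤ 10 ^ 10 * budget G B Y w := by
  classical
  have hY := h.pos
  have hL := h.large
  have hc := cap_pos hY
  obtain ⟨hb0, hbp, hbψ, hbq⟩ := h.bulk_parts
  have hm0 : 0 ≤ (G.card : ℝ) := Nat.cast_nonneg _
  have ht0 := taint_nonneg G B Y
  have i1 := inv_le_cap_pow (show 1 ≤ Y by linarith) 1 (by norm_num)
  rw [pow_one] at i1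
  have i3 := inv_le_cap_pow (show 1 ≤ Y by linarith) 3 (by norm_num)
  have point : ∀ e ∈ G, noise G B Y w e
      ≤ ∑ k ∈ (tri G).filter (e ∈ sides ·), share G B Y w k e
        + (200 * (phi (zeta G Y e - 1) + w e ^ 2) + 10 ^ 7 / Y
          + 5 * Y * drop G Y * zeta G Y e ^ 2) := by
    intro e he
    have : 0 ≤ 5 * Y * drop G Y * zeta G Y e ^ 2 := by
      have := h.drop_nonneg; positivity
    have : (0:ℝ) ≤ 10 ^ 7 / Y := by positivity
    have : 0 ≤ phi (zeta G Y e - 1) + w e ^ 2 :=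
      add_nonneg (phi_nonneg _) (sq_nonneg _)
    by_cases hg : gated B Y w e
    · linarith [h.noise_gated he hg]
    · linarith [h.noise_free he hg]
  refine (sum_le_sum point).trans ?_
  simp only [sum_add_distrib, ← mul_sum, sum_const, nsmul_eq_mul]
  rw [sum_star G (fun k i => share G B Y w k i)]
  have hsmall := h.sum_flat_small
  -- sum of the shares
  have hshare : ∑ k ∈ tri G, ∑ i ∈ sides k, share G B Y w k i
      ≤ 3000 / Y * pd G Y w + 150000 * 200 / Y * bulk G B Y w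
        + 150000 / Y * (∑ k ∈ tri G, ∑ i ∈ sides k, w i ^ 2)
        + 300 * (2 * taint G B Y + 2 * phiSum G Y + 2 * (sq G w / cap Y ^ 2)) := by
    simp only [share, sum_add_distrib]
    have s1 : ∑ k ∈ tri G, ∑ _i ∈ sides k, (if 26 < side G Y k then 200 * side G Y k else 0) / Y
        ≤ 3000 / Y * pd G Y w := by
      rw [pd, mul_sum]
      refine sum_le_sum fun k hk => ?_
      rw [sum_const, card_sides hk, nsmul_eq_mul, Nat.cast_ofNat, ← mul_div_assoc,
        div_mul_eq_mul_div]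
      refine div_le_div_of_nonneg_right ?_ hY.le
      have := (h.pt_bounds hk).1
      split_ifs with hb
      · linarith [(h.big_le hk hb).1]
      · linarith
    have s2 : ∑ k ∈ tri G, ∑ i ∈ sides k,
          (if gated B Y w i then 150000 * (phi (zeta G Y i - 1) + w i ^ 2) else 300) / Y
        ≤ 150000 * 200 / Y * bulk G B Y w + 150000 / Y * (∑ k ∈ tri G, ∑ i ∈ sides k, w i ^ 2)
          + 300 * (2 * taint G B Y + 2 * phiSum G Y + 2 * (sq G w / cap Y ^ 2)) := by
      refine le_trans (sum_le_sum fun k _ => sum_le_sum fun i _ =>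
        show (if gated B Y w i then 150000 * (phi (zeta G Y i - 1) + w i ^ 2) else 300) / Y
          ≤ 150000 / Y * phi (zeta G Y i - 1) + 150000 / Y * w i ^ 2
            + (if gated B Y w i then 0 else 300 / Y) from ?_) ?_
      · have : 0 ≤ 150000 / Y * phi (zeta G Y i - 1) := by
          have := phi_nonneg (zeta G Y i - 1); positivity
        have : 0 ≤ 150000 / Y * w i ^ 2 := by positivity
        split_ifs
        · exact le_of_eq (by ring)
        · linarith
      simp only [sum_add_distrib, ← mul_sum]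
      refine add_le_add (add_le_add ((mul_le_mul_of_nonneg_left h.sum_phiz
        (by positivity)).trans (le_of_eq (by ring))) le_rfl) ?_
      rw [sum_tri_sides, ← sum_sdiff (inter_subset_left : G ∩ B ⊆ G), sdiff_inter_self_left]
      have u1 : ∑ e ∈ G \ B, (deg G e : ℝ) * (if gated B Y w e then 0 else 300 / Y)
          ≤ 300 * (2 * (sq G w / cap Y ^ 2)) := by
        rw [sq, sum_div, mul_sum, mul_sum]
        refine le_trans (sum_le_sum fun e he => ?_)
          (sum_le_sum_of_subset_of_nonneg sdiff_subset fun e _ _ => by positivity)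
        split_ifs with hg
        · rw [mul_zero]; positivity
        · have hw : cap Y < |w e| := not_le.1 fun hc' => hg ⟨(mem_sdiff.1 he).2, hc'⟩
          have h1 : 1 ≤ w e ^ 2 / cap Y ^ 2 := by
            rw [one_le_div (by positivity), ← sq_abs (w e)]
            exact pow_le_pow_left₀ hc.le hw.le 2
          have h2 := (h.flat_deg he).2
          rw [← mul_div_assoc, div_le_iff₀ hY]
          nlinarith
      have u2 : ∑ e ∈ G ∩ B, (deg G e : ℝ) * (if gated B Y w e then 0 else 300 / Y)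
          ≤ 300 * (2 * taint G B Y + 2 * phiSum G Y) := by
        refine le_trans ?_ (mul_le_mul_of_nonneg_left (sum_tainted_zeta G B Y) (by norm_num))
        rw [mul_sum]
        refine sum_le_sum fun e _ => ?_
        split_ifs
        · rw [mul_zero]; have := zeta_nonneg' (G := G) hY e; positivity
        · exact le_of_eq (by simp only [zeta]; ring)
      linarith
    linarith
  -- everything is within the budget
  have hW := h.sum_wsq
  have hΦ := h.phiSum_bulk
  have hss : ∑ e ∈ G, drop G Y * Y * zeta G Y e ^ 2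
      ≤ 200 / Y ^ 2 * (100 * (pd G Y w + G.card * Y)) := by
    have e1 : ∑ e ∈ G, drop G Y * Y * zeta G Y e ^ 2 = drop G Y * ∑ t ∈ tri G, side G Y t := by
      simp only [side]
      rw [sum_tri_sides, mul_sum]
      refine sum_congr rfl fun e _ => ?_
      simp only [zeta]; field_simp
    rw [e1]
    exact mul_le_mul h.drop_le h.sum_side_le.1 (sum_nonneg fun t _ => side_nonneg' hY t)
      (by positivity)
  rw [show 5 * Y * drop G Y * ∑ e ∈ G, zeta G Y e ^ 2
    = 5 * ∑ e ∈ G, drop G Y * Y * zeta G Y e ^ 2 by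
      rw [← mul_sum]; ring]
  have sqb : sq G w / cap Y ^ 2 ≤ cap Y * (Y * sq G w) := by
    rw [div_le_iff₀ (by positivity)]
    have : 1 ≤ cap Y ^ 3 * Y := by rw [← div_le_iff₀ hY]; exact i3
    have := mul_le_mul_of_nonneg_left this (sq_nonneg' G w)
    linarith
  have one : ∀ X : ℝ, 0 ≤ X → X / Y ≤ cap Y * X := fun X hX => by
    rw [div_eq_mul_one_div, mul_comm]; exact mul_le_mul_of_nonneg_right i1 hX
  have hYinv : ∀ X : ℝ, 0 ≤ X → X ≤ cap Y * (Y * X) := fun X hX => by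
    have := one (Y * X) (by positivity)
    rwa [mul_div_cancel_left₀ _ hY.ne'] at this
  have o1 := one _ hb0
  have o2 := one _ h.pd_nonneg
  have o3 := one _ hm0
  have f1 := hYinv _ (psi_nonneg G Y w)
  have f2 := hYinv _ (sq_nonneg' G w)
  have f3 := hYinv _ ht0
  have w1 : 150000 / Y * ∑ k ∈ tri G, ∑ i ∈ sides k, w i ^ 2
      ≤ 150000 * (2 * sq G w + 8 * (taint G B Y + phiSum G Y)) := by
    refine (mul_le_mul_of_nonneg_left hW (by positivity)).trans ?_
    rw [← mul_assoc, div_mul_cancel₀ _ hY.ne']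
    have := h.cap_sq_small
    have := mul_le_mul_of_nonneg_right (show cap Y ^ 2 ≤ 1 by linarith)
      (show 0 ≤ taint G B Y + phiSum G Y from add_nonneg ht0 (phiSum_nonneg _ _))
    linarith
  have w2 : 200 / Y ^ 2 * (100 * (pd G Y w + G.card * Y))
      ≤ 20000 * (pd G Y w / Y) + 20000 * (G.card / Y) := by
    have : pd G Y w / Y ^ 2 ≤ pd G Y w / Y :=
      div_le_div_of_nonneg_left h.pd_nonneg hY (by nlinarith)
    have e : 200 / Y ^ 2 * (100 * (pd G Y w + G.card * Y))
        = 20000 * (pd G Y w / Y ^ 2) + 20000 * (G.card / Y) := by field_simp; ring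
    linarith
  have sq_eq : ∑ e ∈ G, w e ^ 2 = sq G w := rfl
  have z_eq : phiSum G Y = ∑ e ∈ G, phi (zeta G Y e - 1) := rfl
  have b1 := mul_le_mul_of_nonneg_left hbψ hc.le
  have b2 := mul_le_mul_of_nonneg_left hbq hc.le
  have b3 := mul_le_mul_of_nonneg_left hbp hc.le
  unfold budget
  rw [sq_eq] at *
  have c0 : 0 ≤ cap Y * bulk G B Y w := by positivity
  have c1 : 0 ≤ cap Y * (Y * taint G B Y) := by positivity
  have c2 : 0 ≤ cap Y * (G.card : ℝ) := by positivity
  have e10 : (3000 : ℝ) / Y * pd G Y w = 3000 * (pd G Y w / Y) := by ring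
  have e11 : (150000 : ℝ) * 200 / Y * bulk G B Y w = 30000000 * (bulk G B Y w / Y) := by ring
  have e12 : (G.card : ℝ) * (10 ^ 7 / Y) = 10 ^ 7 * (G.card / Y) := by ring
  linarith

end Vale.Agent.P046.Sharp
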