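import Vale.Agent.P046.Sharp.StepPsiMain
import Vale.Agent.P046.Sharp.Cycles

/-! P046: one step for the neighbour average of the martingale part. -/

open Finset

namespace Vale.Agent.P046.Sharp

variable {α : Type*} [DecidableEq α] [Fintype α] {G B : Finset (Finset α)} {Y : ℝ}
  {w : Finset α → ℝ} {t k e f h : Finset α}

theorem disjoint_stars (G : Finset (Finset α)) (e : Finset α) :
    (((tri G).filter (e ∈ sides ·)) : Set (Finset α)).PairwiseDisjoint
      fun k => (sides k).erase e := by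
  intro a ha b hb hab
  simp only [coe_filter, Set.mem_ofPred_eq] at ha hb
  refine disjoint_left.2 fun i hia hib => hab ?_
  rw [mem_erase] at hia hib
  exact eq_of_two_sides ha.1 hb.1 hia.1 hia.2 ha.2 hib.2 hb.2

theorem sum_nbrs (G : Finset (Finset α)) (e : Finset α) (g : Finset α → ℝ) :
    ∑ f ∈ nbrs G e, g f = ∑ k ∈ (tri G).filter (e ∈ sides ·), ∑ f ∈ (sides k).erase e, g f :=
  sum_biUnion (disjoint_stars G e)

theorem nbrs_subset (G : Finset (Finset α)) (e : Finset α) : nbrs G e ⊆ G :=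
  biUnion_subset.2 fun _ hk => (erase_subset _ _).trans (mem_tri.1 (mem_filter.1 hk).1).2

/-- The untainted neighbours of `e`. -/
def clear (G B : Finset (Finset α)) (e : Finset α) : Finset (Finset α) := nbrs G e \ B

/-- The common untainted neighbours. -/
def common (G B : Finset (Finset α)) (e h : Finset α) : Finset (Finset α) :=
  (clear G B e).filter (h ∈ nbrs G ·)

theorem Dense.card_nbrs_flat (hd : Dense G B Y w) (he : e ∈ G \ B) :
    ((nbrs G e).card : ℝ) ≤ 11/5 * Y := by
  have h1 : ((nbrs G e).card : ℝ) ≤ 2 * deg G e := by exact_mod_cast card_nbrs_le G e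
  linarith [(hd.flat_deg he).2]

theorem dk_le_common :
    dk G t f ≤ (((sides t).filter (· ∈ nbrs G f)).card : ℝ) := by
  unfold dk
  split_ifs with hf
  · positivity
  · refine Nat.cast_le.2 ?_
    refine le_trans (card_le_card (t := ((sides t).filter (· ∈ nbrs G f)).biUnion fun i =>
      ((killed G t).filter (f ∈ sides ·)).filter (i ∈ sides ·)) ?_) ?_
    · intro k hk
      obtain ⟨hk1, hk2⟩ := mem_filter.1 hk
      obtain ⟨i, h1, h2⟩ := not_disjoint_iff.1 (mem_filter.1 hk1).2.2
      refine mem_biUnion.2 ⟨i, mem_filter.2 ⟨h2, ?_⟩, mem_filter.2 ⟨hk, h1⟩⟩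
      exact mem_nbrs.2 ⟨k, (mem_filter.1 hk1).1, hk2, h1, fun e' => hf (e' ▸ h2)⟩
    · refine (card_biUnion_le_card_mul _ _ 1 fun i hi => ?_).trans (by rw [mul_one])
      refine card_le_one.2 fun a ha b hb => ?_
      simp only [mem_filter, killed] at ha hb hi
      exact eq_of_two_sides ha.1.1.1 hb.1.1.1 (fun (h' : f = i) => hf (h'.symm ▸ hi.1))
        ha.1.2 ha.2 hb.1.2 hb.2

/-- Destructions next to `e`. -/
noncomputable def near (G B : Finset (Finset α)) (t e : Finset α) : ℝ :=
  ∑ f ∈ clear G B e, dk G t f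

theorem near_le_common :
    near G B t e ≤ ∑ i ∈ sides t, ((common G B e i).card : ℝ) := by
  refine (sum_le_sum fun f _ => dk_le_common).trans (le_of_eq ?_)
  simp only [common, card_filter, Nat.cast_sum, Nat.cast_ite, Nat.cast_one, Nat.cast_zero]
  exact sum_comm

theorem sum_sum_le_of_maps {ι κ : Type*} [DecidableEq κ] (s : Finset ι) (F : ι → Finset κ) :
    ((s.biUnion F).card : ℝ) ≤ ∑ a ∈ s, ((F a).card : ℝ) := by
  exact_mod_cast card_biUnion_le

theorem Dense.sum_common_le (hd : Dense G B Y w) (h : Finset α) :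
    ∑ e ∈ G \ B, ((common G B e h).card : ℝ) ≤ 2 * deg G h * (11/5 * Y) := by
  have e1 : ∑ e ∈ G \ B, ((common G B e h).card : ℝ)
      = ∑ f ∈ (nbrs G h \ B), (((G \ B).filter (f ∈ nbrs G ·)).card : ℝ) := by
    simp only [card_eq_sum_ones, Nat.cast_sum, Nat.cast_one]
    refine sum_comm' fun e f => ?_
    simp only [common, clear, mem_filter, mem_sdiff, nbrs_symm (e := f) (f := h)]
    tauto
  rw [e1]
  refine (sum_le_sum (g := fun _ => 11/5 * Y) fun f hf => ?_).trans ?_
  · refine le_trans (Nat.cast_le.2 (card_le_card fun e hee => ?_))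
      (hd.card_nbrs_flat (mem_sdiff.2 ⟨nbrs_subset _ _ (mem_sdiff.1 hf).1, (mem_sdiff.1 hf).2⟩))
    exact nbrs_symm.1 (mem_filter.1 hee).2
  · rw [sum_const, nsmul_eq_mul]
    refine mul_le_mul_of_nonneg_right ?_ (by linarith [hd.pos])
    have h1 := card_le_card (show nbrs G h \ B ⊆ nbrs G h from sdiff_subset)
    have h2 := card_nbrs_le G h
    exact_mod_cast h1.trans h2

theorem Dense.sum_offdiag_le (hd : Dense G B Y w) :
    ∑ e ∈ G \ B, ∑ h ∈ (G \ B).erase e, (((common G B e h).offDiag).card : ℝ)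
      ≤ (clean G B).card := by
  classical
  have e0 : ∑ e ∈ G \ B, ∑ i ∈ (G \ B).erase e, (((common G B e i).offDiag).card : ℝ)
      = ∑ p ∈ ((G \ B) ×ˢ (G \ B)).filter (fun p => p.1 ≠ p.2),
          (((common G B p.1 p.2).offDiag).card : ℝ) := by
    rw [sum_filter, sum_product]
    refine sum_congr rfl fun e _ => ?_
    rw [← sum_filter]
    exact sum_congr (by ext x; simp [and_comm, ne_comm]) fun _ _ => rfl
  rw [e0]
  set P := ((G \ B) ×ˢ (G \ B)).filter fun p => p.1 ≠ p.2 with hP
  have hdis : (P : Set (Finset α × Finset α)).PairwiseDisjoint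
      fun p => ((common G B p.1 p.2).offDiag).image fun q => (p, q) := by
    intro a _ b _ hab
    refine disjoint_left.2 fun x hx hy => hab ?_
    obtain ⟨q, -, rfl⟩ := mem_image.1 hx
    obtain ⟨q', -, hq⟩ := mem_image.1 hy
    exact (congrArg Prod.fst hq).symm
  rw [← Nat.cast_sum, Nat.cast_le]
  calc ∑ p ∈ P, ((common G B p.1 p.2).offDiag).card
      = (P.biUnion fun p => ((common G B p.1 p.2).offDiag).image fun q => (p, q)).card := by
        rw [card_biUnion hdis]
        exact sum_congr rfl fun p _ => (card_image_of_injective _ fun a b hab =>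
          congrArg Prod.snd hab).symm
    _ ≤ (clean G B).card := card_le_card fun c hc => ?_
  obtain ⟨⟨e, i⟩, hp, hc⟩ := mem_biUnion.1 hc
  obtain ⟨⟨f, g⟩, hq, rfl⟩ := mem_image.1 hc
  simp only [hP, mem_filter, mem_product, mem_sdiff] at hp
  simp only [mem_offDiag, common, clear, mem_filter, mem_sdiff] at hq
  obtain ⟨⟨⟨f1, fB⟩, f2⟩, ⟨⟨g1, gB⟩, g2⟩, hfg⟩ := hq
  refine mem_filter.2 ⟨mem_quads.2 ⟨⟨hp.1.1.1, hp.1.2.1, nbrs_subset _ _ f1,
    nbrs_subset _ _ g1⟩, hp.2, hfg, f1, g1, nbrs_symm.1 f2, nbrs_symm.1 g2⟩, hp.1.1.2, fB, gB⟩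

/-- Squared degrees of tainted edges. -/
theorem Dense.sum_tainted_sq (hd : Dense G B Y w) :
    ∑ h ∈ G ∩ B, (deg G h : ℝ) ^ 2
      ≤ 26 * Y ^ 2 * (2 * taint G B Y + 2 * phiSum G Y) + 15 * Y * pd G Y w := by
  classical
  have hY := hd.pos
  have point : ∀ i ∈ G ∩ B, (deg G i : ℝ) ^ 2 ≤ 26 * Y ^ 2 * zeta G Y i
      + Y * ∑ k ∈ (tri G).filter (i ∈ sides ·), (if 26 < side G Y k then side G Y k else 0) := by
    intro i _
    have e1 : (deg G i : ℝ) = Y * zeta G Y i := by rw [zeta]; field_simp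
    have h0 : 0 ≤ ∑ k ∈ (tri G).filter (i ∈ sides ·),
        (if 26 < side G Y k then side G Y k else 0) := sum_nonneg fun k _ => by
      split_ifs <;> first | exact side_nonneg' hY k | exact le_rfl
    have hz := zeta_nonneg' (G := G) hY i
    rcases le_or_gt (zeta G Y i) 26 with hs | hs
    · have : (deg G i : ℝ) ^ 2 ≤ 26 * Y ^ 2 * zeta G Y i := by
        rw [e1]
        nlinarith [mul_le_mul_of_nonneg_left hs (show 0 ≤ Y ^ 2 * zeta G Y i by positivity)]
      have := mul_nonneg hY.le h0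
      linarith
    · have h1 : (deg G i : ℝ) * zeta G Y i ≤ ∑ k ∈ (tri G).filter (i ∈ sides ·),
          (if 26 < side G Y k then side G Y k else 0) := by
        rw [show (deg G i : ℝ) * zeta G Y i
          = ∑ _k ∈ (tri G).filter (i ∈ sides ·), zeta G Y i by rw [sum_const, nsmul_eq_mul]; rfl]
        refine sum_le_sum fun k hk => ?_
        have : zeta G Y i ≤ side G Y k :=
          single_le_sum (fun j _ => zeta_nonneg' hY j) (mem_filter.1 hk).2
        rw [if_pos (by linarith)]
        exact this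
      have : (deg G i : ℝ) ^ 2 ≤ Y * ((deg G i : ℝ) * zeta G Y i) := le_of_eq (by rw [e1]; ring)
      have := mul_le_mul_of_nonneg_left h1 hY.le
      have : 0 ≤ 26 * Y ^ 2 * zeta G Y i := by positivity
      linarith
  refine (sum_le_sum point).trans ?_
  rw [sum_add_distrib, ← mul_sum, ← mul_sum]
  refine add_le_add (mul_le_mul_of_nonneg_left (sum_tainted_zeta G B Y) (by positivity)) ?_
  rw [show 15 * Y * pd G Y w = Y * (15 * pd G Y w) by ring]
  refine mul_le_mul_of_nonneg_left ?_ hY.le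
  refine (sum_le_sum_of_subset_of_nonneg inter_subset_left fun i _ _ => sum_nonneg fun k _ => by
    split_ifs <;> first | exact side_nonneg' hY k | exact le_rfl).trans ?_
  rw [sum_star G (fun k _ => if 26 < side G Y k then side G Y k else 0), pd, mul_sum]
  refine sum_le_sum fun k hk => ?_
  rw [sum_const, card_sides hk, nsmul_eq_mul, Nat.cast_ofNat]
  have := (hd.pt_bounds hk).1
  split_ifs with hb
  · linarith [(hd.big_le hk hb).1]
  · linarith

theorem Dense.sum_near_sq (hd : Dense G B Y w) :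
    ∑ e ∈ G \ B, ∑ t ∈ tri G, near G B t e ^ 2
      ≤ 4 * Y * ((cycles G B).card : ℝ) + 1000000 * Y ^ 3 * G.card
        + 10000 * Y ^ 4 * (taint G B Y + phiSum G Y) + 500 * Y ^ 3 * pd G Y w := by
  classical
  have hY := hd.pos
  set U := G \ B with hU
  -- triangles avoiding the edge
  set N : Finset α → Finset α → ℝ := fun e i => ((common G B e i).card : ℝ) with hN
  have step : ∀ e ∈ U, ∑ t ∈ tri G, near G B t e ^ 2
      ≤ 3 * ∑ i ∈ G, (deg G i : ℝ) * (if i = e then 0 else N e i ^ 2) + 60 * Y ^ 3 := by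
    intro e he
    rw [sum_sides_split _ e, ← sum_tri_sides G (fun i => if i = e then 0 else N e i ^ 2), mul_sum]
    have hB : ∀ t ∈ (tri G).filter (e ∈ sides ·), near G B t e ^ 2 ≤ 49 * Y ^ 2 := by
      intro t ht
      have h1 : near G B t e ≤ 3 * (clear G B e).card := by
        rw [mul_comm, ← nsmul_eq_mul, ← sum_const]
        exact sum_le_sum fun f _ => dk_le_three (mem_filter.1 ht).1
      have h2 : ((clear G B e).card : ℝ) ≤ 11/5 * Y :=
        le_trans (Nat.cast_le.2 (card_le_card sdiff_subset)) (hd.card_nbrs_flat he)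
      have h0 : 0 ≤ near G B t e := sum_nonneg fun f _ => dk_nonneg _ _ _
      have := pow_le_pow_left₀ h0 (show near G B t e ≤ 7 * Y by linarith) 2
      linarith
    have h2 : ∑ t ∈ (tri G).filter (e ∈ sides ·), near G B t e ^ 2 ≤ 60 * Y ^ 3 := by
      refine (sum_le_card_nsmul _ _ _ hB).trans ?_
      rw [nsmul_eq_mul]
      have := mul_le_mul_of_nonneg_right (hd.flat_deg he).2 (show 0 ≤ 49 * Y ^ 2 by positivity)
      rw [show (deg G e : ℝ) = (((tri G).filter (e ∈ sides ·)).card : ℝ) from rfl] at this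
      nlinarith [pow_nonneg hY.le 3]
    have h3 : ∑ t ∈ (tri G).filter (e ∉ sides ·), near G B t e ^ 2
        ≤ ∑ t ∈ tri G, 3 * ∑ i ∈ sides t, (if i = e then 0 else N e i ^ 2) := by
      refine (sum_le_sum fun t ht => ?_).trans (sum_le_sum_of_subset_of_nonneg (filter_subset _ _)
        fun t _ _ => mul_nonneg (by norm_num) (sum_nonneg fun i _ => by split_ifs <;> positivity))
      obtain ⟨ht1, ht2⟩ := mem_filter.1 ht
      rw [sum_congr rfl (fun i hi => show (if i = e then (0:ℝ) else N e i ^ 2) = N e i ^ 2 from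
        if_neg fun (e' : i = e) => ht2 (e' ▸ hi))]
      refine (pow_le_pow_left₀ (sum_nonneg fun f _ => dk_nonneg _ _ _) near_le_common 2).trans ?_
      refine sq_sum_le_card_mul_sum_sq.trans (le_of_eq ?_)
      rw [card_sides ht1]; norm_num
      rfl
    linarith
  refine (sum_le_sum step).trans ?_
  rw [sum_add_distrib, ← mul_sum, sum_comm, sum_const, nsmul_eq_mul,
    ← sum_sdiff (inter_subset_left : G ∩ B ⊆ G), sdiff_inter_self_left, ← hU]
  have hN0 : ∀ e i, 0 ≤ N e i := fun e i => Nat.cast_nonneg _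
  have hsum : ∀ i ∈ G, ∑ e ∈ U, N e i ≤ 2 * deg G i * (11/5 * Y) :=
    fun i _ => hd.sum_common_le i
  have tB : ∑ i ∈ G ∩ B, ∑ e ∈ U, (deg G i : ℝ) * (if i = e then 0 else N e i ^ 2)
      ≤ 10 * Y ^ 2 * ∑ i ∈ G ∩ B, (deg G i : ℝ) ^ 2 := by
    rw [mul_sum]
    refine sum_le_sum fun i hi => ?_
    calc ∑ e ∈ U, (deg G i : ℝ) * (if i = e then 0 else N e i ^ 2)
        ≤ ∑ e ∈ U, (deg G i : ℝ) * (11/5 * Y * N e i) := sum_le_sum fun e he => by
          refine mul_le_mul_of_nonneg_left ?_ (Nat.cast_nonneg _)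
          have h1 : N e i ≤ 11/5 * Y :=
            le_trans (Nat.cast_le.2 (card_le_card ((filter_subset _ _).trans sdiff_subset)))
              (hd.card_nbrs_flat he)
          split_ifs
          · exact mul_nonneg (by linarith) (hN0 e i)
          · rw [pow_two]; exact mul_le_mul_of_nonneg_right h1 (hN0 e i)
      _ = (deg G i : ℝ) * (11/5 * Y) * ∑ e ∈ U, N e i := by
          rw [mul_sum]; exact sum_congr rfl fun e _ => by ring
      _ ≤ (deg G i : ℝ) * (11/5 * Y) * (2 * deg G i * (11/5 * Y)) :=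
          mul_le_mul_of_nonneg_left (hsum i (mem_inter.1 hi).1) (by positivity)
      _ ≤ _ := by
          have : 0 ≤ Y ^ 2 * (deg G i : ℝ) ^ 2 := by positivity
          linarith
  have tU : ∑ i ∈ U, ∑ e ∈ U, (deg G i : ℝ) * (if i = e then 0 else N e i ^ 2)
      ≤ 11/10 * Y * (((clean G B).card : ℝ) + 6 * Y ^ 2 * G.card) := by
    have hU' : (U.card : ℝ) ≤ G.card := Nat.cast_le.2 (card_le_card sdiff_subset)
    have hdiag : ∑ i ∈ U, ∑ e ∈ U, N e i ≤ 6 * Y ^ 2 * G.card := by
      refine (sum_le_card_nsmul _ _ (6 * Y ^ 2) fun i hi => ?_).trans ?_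
      · refine (hsum i (mem_sdiff.1 hi).1).trans ?_
        have := mul_le_mul_of_nonneg_right (hd.flat_deg hi).2 hY.le
        nlinarith [sq_nonneg Y]
      · rw [nsmul_eq_mul, mul_comm]; exact mul_le_mul_of_nonneg_left hU' (by positivity)
    have hoff : ∑ i ∈ U, ∑ e ∈ U, (if i = e then 0 else (((common G B e i).offDiag).card : ℝ))
        ≤ ((clean G B).card : ℝ) := by
      rw [sum_comm]
      refine le_of_eq_of_le ?_ hd.sum_offdiag_le
      refine sum_congr rfl fun e _ => ?_
      rw [← sum_subset (erase_subset e U) (fun x hx hx' => by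
        rw [mem_erase] at hx'; rw [if_pos]; tauto)]
      exact sum_congr rfl fun x hx => if_neg (mem_erase.1 hx).1
    calc ∑ i ∈ U, ∑ e ∈ U, (deg G i : ℝ) * (if i = e then 0 else N e i ^ 2)
        ≤ ∑ i ∈ U, ∑ e ∈ U, 11/10 * Y *
            ((if i = e then 0 else (((common G B e i).offDiag).card : ℝ)) + N e i) :=
          sum_le_sum fun i hi => sum_le_sum fun e _ => by
            refine mul_le_mul (hd.flat_deg hi).2 ?_ (by split_ifs <;> positivity)
              (by linarith)
            split_ifs with hie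
            · linarith [hN0 e i]
            · refine le_of_eq ?_
              rw [hN, offDiag_card]
              simp only
              rw [Nat.cast_sub (Nat.le_mul_self _), Nat.cast_mul]; ring
      _ ≤ _ := by
          simp only [← mul_sum, sum_add_distrib]
          exact mul_le_mul_of_nonneg_left (add_le_add hoff hdiag) (by linarith)
  have hcl := mul_le_mul_of_nonneg_left
    (clean_le hY hd.good.flat) (show 0 ≤ 11/10 * Y by linarith)
  have hsq := mul_le_mul_of_nonneg_left hd.sum_tainted_sq (show 0 ≤ 10 * Y ^ 2 by positivity)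
  have hz := mul_le_mul_of_nonneg_left (sum_tainted_zeta G B Y)
    (show 0 ≤ 11/10 * Y * (200 * Y ^ 3) by positivity)
  have hU2 : (U.card : ℝ) * (60 * Y ^ 3) ≤ (G.card : ℝ) * (60 * Y ^ 3) :=
    mul_le_mul_of_nonneg_right (Nat.cast_le.2 (card_le_card sdiff_subset)) (by positivity)
  have : 0 ≤ Y ^ 4 * taint G B Y := mul_nonneg (by positivity) (taint_nonneg _ _ _)
  have : 0 ≤ Y ^ 4 * phiSum G Y := mul_nonneg (by positivity) (phiSum_nonneg _ _)
  have : 0 ≤ Y ^ 3 * pd G Y w := mul_nonneg (by positivity) hd.pd_nonneg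
  have : 0 ≤ Y * ((cycles G B).card : ℝ) := by positivity
  have : 0 ≤ Y ^ 3 * (G.card : ℝ) := by positivity
  linarith

end Vale.Agent.P046.Sharp
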