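import Vale.Agent.P046.Sharp.Basic

/-! P046: sums over triangles, controlled by the potentials and the dissipation. -/

open Finset

namespace Vale.Agent.P046.Sharp

variable {α : Type*} [DecidableEq α] [Fintype α] {G B : Finset (Finset α)} {Y : ℝ}
  {w : Finset α → ℝ} {t k e : Finset α}

/-- The corrected degree in units of `Y`. -/
noncomputable def aa (G : Finset (Finset α)) (Y : ℝ) (w : Finset α → ℝ) (e : Finset α) : ℝ :=
  zeta G Y e * (1 - w e)

/-- The side sum of corrected degrees. -/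
noncomputable def sideA (G : Finset (Finset α)) (Y : ℝ) (w : Finset α → ℝ) (t : Finset α) : ℝ :=
  ∑ j ∈ sides t, aa G Y w j

/-- The dissipation of one triangle. -/
noncomputable def pt (G : Finset (Finset α)) (Y : ℝ) (w : Finset α → ℝ) (t : Finset α) : ℝ :=
  ∑ i ∈ sides t, term (aa G Y w i) (sideA G Y w t)

/-- The total dissipation. -/
noncomputable def pd (G : Finset (Finset α)) (Y : ℝ) (w : Finset α → ℝ) : ℝ :=
  ∑ t ∈ tri G, pt G Y w t

/-- The potentials that control sums over triangles. -/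
noncomputable def bulk (G B : Finset (Finset α)) (Y : ℝ) (w : Finset α → ℝ) : ℝ :=
  Y * (psi G Y w + sq G w + cap Y ^ 2 * taint G B Y) + pd G Y w

/-- The sum of the shape over all edges. -/
noncomputable def phiSum (G : Finset (Finset α)) (Y : ℝ) : ℝ :=
  ∑ e ∈ G, phi (zeta G Y e - 1)

theorem uu_eq (e : Finset α) : uu G Y w e = aa G Y w e - 1 := rfl

theorem sum_star (G : Finset (Finset α)) (g : Finset α → Finset α → ℝ) :
    ∑ e ∈ G, ∑ k ∈ (tri G).filter (e ∈ sides ·), g k e = ∑ k ∈ tri G, ∑ i ∈ sides k, g k i := by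
  refine (sum_comm' fun k i => ?_).symm
  simp only [mem_filter]
  exact ⟨fun h => ⟨h, (mem_tri.1 h.1).2 h.2⟩, fun h => h.1⟩

theorem zeta_nonneg' (hY : 0 < Y) (e : Finset α) : 0 ≤ zeta G Y e :=
  div_nonneg (Nat.cast_nonneg _) hY.le

theorem side_nonneg' (hY : 0 < Y) (t : Finset α) : 0 ≤ side G Y t :=
  sum_nonneg fun j _ => zeta_nonneg' hY j

theorem Dense.w_small (h : Dense G B Y w) (e : Finset α) : |w e| ≤ 1 / 500 :=
  (h.good.small e).trans (by linarith [h.capsmall])

theorem Dense.aa_nonneg (h : Dense G B Y w) (e : Finset α) : 0 ≤ aa G Y w e :=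
  mul_nonneg (zeta_nonneg' h.pos e) (by linarith [abs_le.1 (h.w_small e)])

theorem Dense.aa_pos (h : Dense G B Y w) (ht : t ∈ tri G) {i : Finset α} (hi : i ∈ sides t) :
    0 < aa G Y w i :=
  mul_pos (div_pos (by exact_mod_cast deg_pos ht hi) h.pos)
    (by linarith [abs_le.1 (h.w_small i)])

theorem Dense.sideA_nonneg (h : Dense G B Y w) (t : Finset α) : 0 ≤ sideA G Y w t :=
  sum_nonneg fun j _ => h.aa_nonneg j

theorem Dense.side_le (h : Dense G B Y w) (t : Finset α) :
    side G Y t ≤ 101/100 * sideA G Y w t := by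
  rw [sideA, mul_sum]
  refine sum_le_sum fun j _ => ?_
  have h1 := zeta_nonneg' (G := G) h.pos j
  have := mul_le_mul_of_nonneg_left (show (499:ℝ)/500 ≤ 1 - w j by
    linarith [abs_le.1 (h.w_small j)]) h1
  rw [aa]
  linarith

theorem Dense.pt_bounds (h : Dense G B Y w) (ht : t ∈ tri G) :
    0 ≤ pt G Y w t ∧ (sideA G Y w t - 12) / 2 ≤ pt G Y w t := by
  obtain ⟨a, b, c, hab, hac, hbc, e⟩ := card_eq_three.1 (card_sides ht)
  have sum3 : ∀ f : Finset α → ℝ, ∑ i ∈ sides t, f i = f a + f b + f c := fun f => by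
    rw [e, sum_insert (by simp [hab, hac]), sum_insert (by simp [hbc]), sum_singleton, add_assoc]
  have ha := h.aa_pos ht (show a ∈ sides t by simp [e])
  have hb := h.aa_pos ht (show b ∈ sides t by simp [e])
  have hc := h.aa_pos ht (show c ∈ sides t by simp [e])
  rw [pt, sideA, sum3, sum3]
  exact ⟨terms_nonneg ha hb hc, terms_ge_linear ha hb hc⟩

theorem Dense.pd_nonneg (h : Dense G B Y w) : 0 ≤ pd G Y w :=
  sum_nonneg fun _ ht => (h.pt_bounds ht).1

theorem Dense.big_le (h : Dense G B Y w) (ht : t ∈ tri G) (hb : 26 < side G Y t) :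
    side G Y t ≤ 5 * pt G Y w t ∧ sideA G Y w t + 3 ≤ 7 * pt G Y w t := by
  have h1 := h.side_le t
  have h2 := (h.pt_bounds ht).2
  constructor <;> linarith

theorem Dense.sum_side_le (h : Dense G B Y w) :
    ∑ t ∈ tri G, side G Y t ≤ 100 * (pd G Y w + G.card * Y) ∧
      triNum G ≤ 7 * (pd G Y w + G.card * Y) := by
  have hY := h.pos
  set S := ∑ t ∈ tri G, side G Y t with hS
  have h1 : S ≤ 101/100 * (2 * pd G Y w + 12 * triNum G) := by
    have h2 : ∑ t ∈ tri G, (sideA G Y w t - 12) / 2 ≤ pd G Y w :=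
      sum_le_sum fun t ht => (h.pt_bounds ht).2
    rw [← sum_div, sum_sub_distrib, sum_const, nsmul_eq_mul] at h2
    have h3 : S ≤ ∑ t ∈ tri G, 101/100 * sideA G Y w t := sum_le_sum fun t _ => h.side_le t
    rw [← mul_sum] at h3
    simp only [triNum]
    linarith
  have hsq : S = Y * ∑ e ∈ G, zeta G Y e ^ 2 := by
    rw [hS]
    simp only [side]
    rw [sum_tri_sides, mul_sum]
    refine sum_congr rfl fun e _ => ?_
    simp only [zeta]; field_simp
  have h4 : 3 * triNum G ≤ 8 * (G.card * Y) + S / 8 := by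
    rw [triNum, ← sum_deg, hsq]
    calc ∑ e ∈ G, (deg G e : ℝ) ≤ ∑ e ∈ G, Y * (8 + zeta G Y e ^ 2 / 8) :=
          sum_le_sum fun e _ => by
            have : (deg G e : ℝ) = Y * zeta G Y e := by simp only [zeta]; field_simp
            rw [this]
            exact mul_le_mul_of_nonneg_left (by nlinarith [sq_nonneg (zeta G Y e - 4)]) hY.le
      _ = _ := by rw [← mul_sum, sum_add_distrib, sum_const, ← sum_div, nsmul_eq_mul]; ring
  have := h.pd_nonneg
  have : 0 ≤ (G.card : ℝ) * Y := by positivity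
  constructor <;> linarith

theorem taint_nonneg (G B : Finset (Finset α)) (Y : ℝ) : 0 ≤ taint G B Y := by
  unfold taint; positivity

theorem card_tainted_le (G B : Finset (Finset α)) (Y : ℝ) :
    ((G ∩ B).card : ℝ) ≤ taint G B Y := by
  have : 0 ≤ ∑ e ∈ G \ B, 100 * (zeta G Y e - 1) ^ 2 := sum_nonneg fun e _ => by positivity
  unfold taint; linarith

theorem psi_nonneg (G : Finset (Finset α)) (Y : ℝ) (w : Finset α → ℝ) : 0 ≤ psi G Y w :=
  sum_nonneg fun _ _ => phi_nonneg _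

omit [DecidableEq α] [Fintype α] in
theorem sq_nonneg' (G : Finset (Finset α)) (w : Finset α → ℝ) : 0 ≤ sq G w :=
  sum_nonneg fun _ _ => sq_nonneg _

theorem phiSum_nonneg (G : Finset (Finset α)) (Y : ℝ) : 0 ≤ phiSum G Y :=
  sum_nonneg fun _ _ => phi_nonneg _

theorem phiSum_le (hY : 0 < Y) (hw : ∀ e, |w e| ≤ 1/50) :
    phiSum G Y ≤ 5 * psi G Y w + 24 * sq G w := by
  unfold phiSum psi sq
  rw [mul_sum, mul_sum, ← sum_add_distrib]
  exact sum_le_sum fun e _ => phi_shift (zeta_nonneg' hY e) (hw e)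

theorem sum_tainted_zeta (G B : Finset (Finset α)) (Y : ℝ) :
    ∑ e ∈ G ∩ B, zeta G Y e ≤ 2 * taint G B Y + 2 * phiSum G Y := by
  calc ∑ e ∈ G ∩ B, zeta G Y e ≤ ∑ e ∈ G ∩ B, (2 + 2 * phi (zeta G Y e - 1)) :=
        sum_le_sum fun e _ => by linarith [zeta_le_phi (z := zeta G Y e - 1)]
    _ = 2 * ((G ∩ B).card : ℝ) + 2 * ∑ e ∈ G ∩ B, phi (zeta G Y e - 1) := by
        rw [sum_add_distrib, sum_const, nsmul_eq_mul, mul_sum]; ring
    _ ≤ _ := by
        have : ∑ e ∈ G ∩ B, phi (zeta G Y e - 1) ≤ phiSum G Y :=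
          sum_le_sum_of_subset_of_nonneg inter_subset_left fun _ _ _ => phi_nonneg _
        linarith [card_tainted_le G B Y]

theorem Dense.flat_deg (h : Dense G B Y w) (he : e ∈ G \ B) :
    9/10 * Y ≤ deg G e ∧ (deg G e : ℝ) ≤ 11/10 * Y := by
  have h1 := abs_le.1 (h.good.flat e (mem_sdiff.1 he).1 (mem_sdiff.1 he).2)
  have e1 : (deg G e : ℝ) = Y * zeta G Y e := by
    rw [zeta]; field_simp [h.pos.ne']
  rw [e1]
  have := h.pos
  constructor <;> nlinarith

theorem Dense.sum_phiu (h : Dense G B Y w) :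
    ∑ t ∈ tri G, ∑ i ∈ sides t, phi (uu G Y w i) ≤ 30 * Y * psi G Y w + 7 * pd G Y w := by
  classical
  have key : ∀ t ∈ tri G, ∑ i ∈ sides t, phi (uu G Y w i) ≤ 7 * pt G Y w t
      + ∑ i ∈ sides t, (if zeta G Y i ≤ 26 then phi (uu G Y w i) else 0) := by
    intro t ht
    have hnn : 0 ≤ ∑ i ∈ sides t, (if zeta G Y i ≤ 26 then phi (uu G Y w i) else 0) :=
      sum_nonneg fun i _ => by split_ifs <;> first | exact phi_nonneg _ | exact le_rfl
    rcases le_or_gt (side G Y t) 26 with hs | hs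
    · rw [sum_congr rfl (fun i hi => show (if zeta G Y i ≤ 26 then phi (uu G Y w i) else 0)
        = phi (uu G Y w i) from if_pos ((single_le_sum (fun j _ => zeta_nonneg' h.pos j) hi).trans hs))]
      linarith [(h.pt_bounds ht).1]
    · have h1 : ∑ i ∈ sides t, phi (uu G Y w i) ≤ ∑ i ∈ sides t, (aa G Y w i + 1) :=
        sum_le_sum fun i _ => (phi_le_abs _).trans (by
          rw [uu_eq]; have := h.aa_nonneg i; exact abs_le.2 ⟨by linarith, by linarith⟩)
      rw [sum_add_distrib, sum_const, card_sides ht] at h1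
      have := (h.big_le ht hs).2
      rw [sideA] at this
      simp only [nsmul_eq_mul, Nat.cast_ofNat, mul_one] at h1
      linarith
  refine (sum_le_sum key).trans ?_
  rw [sum_add_distrib, ← mul_sum, sum_tri_sides, pd, add_comm, psi, mul_sum (a := 30 * Y)]
  refine add_le_add (sum_le_sum fun e _ => ?_) le_rfl
  split_ifs with he
  · refine mul_le_mul_of_nonneg_right ?_ (phi_nonneg _)
    rw [zeta, div_le_iff₀ h.pos] at he
    linarith [h.pos]
  · rw [mul_zero]; exact mul_nonneg (by linarith [h.pos]) (phi_nonneg _)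

theorem Dense.sum_wsq (h : Dense G B Y w) :
    ∑ t ∈ tri G, ∑ i ∈ sides t, w i ^ 2
      ≤ Y * (2 * sq G w + 8 * cap Y ^ 2 * (taint G B Y + phiSum G Y)) := by
  have hY := h.pos
  rw [sum_tri_sides, ← sum_sdiff (inter_subset_left : G ∩ B ⊆ G), sdiff_inter_self_left]
  have h1 : ∑ e ∈ G \ B, (deg G e : ℝ) * w e ^ 2 ≤ 2 * Y * sq G w := by
    rw [sq, mul_sum]
    refine le_trans (sum_le_sum fun e he => mul_le_mul_of_nonneg_right
      ((h.flat_deg he).2.trans (show 11/10 * Y ≤ 2 * Y by linarith)) (sq_nonneg _)) ?_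
    exact sum_le_sum_of_subset_of_nonneg sdiff_subset fun e _ _ => by positivity
  have h2 : ∑ e ∈ G ∩ B, (deg G e : ℝ) * w e ^ 2
      ≤ 4 * cap Y ^ 2 * Y * (2 * taint G B Y + 2 * phiSum G Y) := by
    refine le_trans ?_ (mul_le_mul_of_nonneg_left (sum_tainted_zeta G B Y) (by positivity))
    rw [mul_sum]
    refine sum_le_sum fun e _ => ?_
    have hw : w e ^ 2 ≤ (2 * cap Y) ^ 2 :=
      sq_le_sq.2 (le_trans (h.good.small e) (le_abs_self _))
    calc (deg G e : ℝ) * w e ^ 2 ≤ deg G e * (2 * cap Y) ^ 2 :=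
          mul_le_mul_of_nonneg_left hw (Nat.cast_nonneg _)
      _ = _ := by simp only [zeta]; field_simp; ring
  linarith

theorem Dense.cap_sq_small (h : Dense G B Y w) : cap Y ^ 2 ≤ 1 / 1000000 := by
  have := pow_le_pow_left₀ (cap_pos h.pos).le h.capsmall 2
  norm_num at this ⊢
  exact this

theorem Dense.phiSum_bulk (h : Dense G B Y w) :
    phiSum G Y ≤ 5 * psi G Y w + 24 * sq G w :=
  phiSum_le h.pos fun e => (h.w_small e).trans (by norm_num)

theorem Dense.sum_phiz (h : Dense G B Y w) :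
    ∑ t ∈ tri G, ∑ i ∈ sides t, phi (zeta G Y i - 1) ≤ 200 * bulk G B Y w := by
  have h0 : ∑ t ∈ tri G, ∑ i ∈ sides t, phi (zeta G Y i - 1)
      ≤ ∑ t ∈ tri G, ∑ i ∈ sides t, (5 * phi (uu G Y w i) + 24 * w i ^ 2) :=
    sum_le_sum fun t _ => sum_le_sum fun i _ =>
      phi_shift (zeta_nonneg' h.pos i) ((h.w_small i).trans (by norm_num))
  refine h0.trans ?_
  simp only [sum_add_distrib, ← mul_sum]
  have h1 := h.sum_phiu
  have h2 := h.sum_wsq
  have hY := h.pos
  have p0 := h.pd_nonneg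
  have q0 := psi_nonneg G Y w
  have q1 := sq_nonneg' G w
  have q2 := taint_nonneg G B Y
  have hΦ := h.phiSum_bulk
  have hc := h.cap_sq_small
  have hc0 : 0 ≤ cap Y ^ 2 := sq_nonneg _
  have k1 : cap Y ^ 2 * phiSum G Y ≤ 1/1000000 * (5 * psi G Y w + 24 * sq G w) :=
    mul_le_mul hc hΦ (phiSum_nonneg _ _) (by norm_num)
  have k2 := mul_le_mul_of_nonneg_left k1 hY.le
  have k3 : 0 ≤ Y * (cap Y ^ 2 * taint G B Y) := by positivity
  have k4 : 0 ≤ Y * psi G Y w := by positivity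
  have k5 : 0 ≤ Y * sq G w := by positivity
  unfold bulk
  linarith

end Vale.Agent.P046.Sharp
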