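import Vale.Agent.P046.Sharp.Upper

/-! P046: both bounds together, from the certificate. -/

open Filter

namespace Vale.Agent.P046.Sharp

/-- What the certificate file must provide. -/
def Certified : Prop :=
  ∃ K C : ℝ, 1 ≤ C ∧ ∀ᶠ n : ℕ in atTop,
    ∃ xi : Finset (Finset (Fin n)) → Finset (Finset (Fin n)) → ℝ → (Finset (Fin n) → ℝ) → ℝ,
      Penalty (Fin n) n K C xi ∧
      xi (complete n) ∅ ((n : ℝ) - 2) (fun _ => 0) ≤ C * ((n : ℝ) * √n)

theorem theta_of_certified (h : Certified) :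
    ∃ c C : ℝ, 0 < c ∧ ∃ N : ℕ, ∀ n : ℕ, N ≤ n →
      c * ((n : ℝ) * √(n : ℝ)) ≤ leave (complete n) ∧
        leave (complete n) ≤ C * ((n : ℝ) * √(n : ℝ)) := by
  obtain ⟨K, C, hC, h⟩ := h
  obtain ⟨c, hc, hl⟩ := leave_complete_ge_sharp hC h
  obtain ⟨C', hu⟩ := leave_complete_le_sharp hC h
  exact ⟨c, C', hc, eventually_atTop.1 (hl.and hu)⟩

end Vale.Agent.P046.Sharp
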