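import Vale.Agent.P046.Sharp.Lower
import Vale.Agent.P046.Main

/-!
P046: the upper bound `E F_n ≤ C n^{3/2}` from the same penalty. The supersolution is
`u (3 - u - A cap) m + ξ` with `u = √(K/Y)` and a constant scale `K`.
-/

open Finset Filter

namespace Vale.Agent.P046.Sharp

variable {α : Type*} [DecidableEq α] [Fintype α]

/-- The profile of the edge count. -/
noncomputable def prof (K0 A Y : ℝ) : ℝ := √K0 / √Y * (3 - √K0 / √Y - A * cap Y)

/-- The total deficit of the degrees is controlled by the shape. -/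
theorem deficit_le (G : Finset (Finset α)) {Y ε : ℝ} (hY : 0 < Y) (hε : 0 < ε) (hε' : ε ≤ 1 / 10) :
    (G.card : ℝ) * Y - 3 * ((tri G).card : ℝ) ≤
      Y * (ε * G.card + Lower.shape G Y / ε) := by
  have h1 : (G.card : ℝ) * Y - 3 * ((tri G).card : ℝ) = Y * ∑ e ∈ G, -(zeta G Y e - 1) := by
    rw [← sum_deg, mul_sum]
    simp only [zeta, neg_sub, mul_sub, mul_one, mul_div_cancel₀ _ hY.ne']
    rw [sum_sub_distrib, sum_const, nsmul_eq_mul]
  rw [h1, Lower.shape_eq]
  refine mul_le_mul_of_nonneg_left ?_ hY.le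
  calc _ ≤ ∑ e ∈ G, (ε + phi (zeta G Y e - 1) / ε) := sum_le_sum fun e _ => neg_le_phi hε hε'
    _ = _ := by rw [sum_add_distrib, sum_const, nsmul_eq_mul, sum_div, mul_comm]

/-- The scalar inequality of one step. -/
theorem upper_arith {Y m T c u h h' C A P PS X U R : ℝ} (hY1 : 1 ≤ Y) (hT : 0 < T)
    (hc : 0 < c) (hC : 0 ≤ C) (hA : 150 * C ≤ A) (hR : 1 ≤ R) (hu : u = R / √Y)
    (hh' : 0 ≤ h') (hh : h ≤ 4)
    (hgain : h' + u * (2 * (Y / T)) / 3 + A * c * (2 * (Y / T)) / 150 ≤ h)
    (hm : 3 ≤ m) (hd1 : 2 * (Y / T) ≤ 1)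
    (hex : m * Y - 3 * T ≤ Y * (u / 10 * m + P / (u / 10))) (hPS : 0 ≤ PS) (hP : P ≤ 24 * PS)
    (hYc : 480 ≤ √Y * c)
    (hU : U + 2 * (Y / T) * (√Y * c) * PS ≤ X + C * (2 * (Y / T)) * (m * c / √Y)) :
    R / (√Y / √(1 + 2 * (Y / T))) * h' * (m - 3) + U ≤ u * h * m + X := by
  have hY : 0 < Y := by linarith
  have hy : 0 < √Y := Real.sqrt_pos.2 hY
  have hu0 : 0 < u := by rw [hu]; exact div_pos (by linarith) hy
  obtain ⟨d, hd⟩ : ∃ d, d = Y / T := ⟨_, rfl⟩
  rw [← hd] at hgain hd1 hU ⊢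
  have hd0 : 0 < d := hd ▸ div_pos hY hT
  have e0 : R / (√Y / √(1 + 2 * d)) = u * √(1 + 2 * d) := by rw [hu, div_div_eq_mul_div]; ring
  rw [e0]
  have hq : √(1 + 2 * d) ≤ 1 + d :=
    (Lower.sqrt_one_add_le (show 0 ≤ 2 * d by linarith)).trans_eq (by ring)
  have hex' : m * d - 3 ≤ d * (u / 10 * m + P / (u / 10)) := by
    rw [hd, ← sub_nonneg]
    have : 0 ≤ (Y * (u / 10 * m + P / (u / 10)) - (m * Y - 3 * T)) / T :=
      div_nonneg (by linarith) hT.le
    refine this.trans_eq ?_
    field_simp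
    try ring
  have e1 : √(1 + 2 * d) * (m - 3) ≤ m + d * (u / 10 * m + P / (u / 10)) := by
    have := mul_le_mul_of_nonneg_right hq (show 0 ≤ m - 3 by linarith)
    linarith
  have hh4 : h' ≤ 4 := by
    have : 0 ≤ u * (2 * d) / 3 := by positivity
    have : 0 ≤ A * c * (2 * d) / 150 := by
      have : 0 ≤ A := by linarith
      positivity
    linarith
  have h1 := mul_le_mul_of_nonneg_left e1 (mul_nonneg hu0.le hh')
  have h2 := mul_le_mul_of_nonneg_left hgain (mul_nonneg hu0.le (show 0 ≤ m by linarith))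
  have h3 : u * h' * (d * (u / 10 * m + P / (u / 10))) ≤
      4 * (u * u) * d * m / 10 + 40 * d * (24 * PS) := by
    have e : u * h' * (d * (u / 10 * m + P / (u / 10))) =
        h' * ((u * u) * d * m / 10) + h' * (10 * d * P) := by field_simp
    rw [e]
    have h5 : h' * ((u * u) * d * m / 10) ≤ 4 * ((u * u) * d * m / 10) :=
      mul_le_mul_of_nonneg_right hh4 (by have : 0 ≤ m := by linarith
                                         positivity)
    have h6 : h' * (10 * d * P) ≤ 4 * (10 * d * (24 * PS)) :=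
      (mul_le_mul_of_nonneg_left (mul_le_mul_of_nonneg_left hP (by positivity)) hh').trans
        (mul_le_mul_of_nonneg_right hh4 (by positivity))
    linarith
  have h4 : 40 * d * (24 * PS) ≤ 2 * d * (√Y * c) * PS := by
    calc 40 * d * (24 * PS) = 2 * d * 480 * PS := by ring
      _ ≤ _ := mul_le_mul_of_nonneg_right (mul_le_mul_of_nonneg_left hYc (by linarith)) hPS
  have h5 : C * (2 * d) * (m * c / √Y) ≤ u * m * (A * c * (2 * d) / 150) := by
    rw [hu, show R / √Y * m * (A * c * (2 * d) / 150) = R * (A / 150) * (2 * d) * (m * c / √Y) by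
      field_simp]
    refine mul_le_mul_of_nonneg_right (mul_le_mul_of_nonneg_right ?_ (by linarith))
      (by have : 0 ≤ m := by linarith
          positivity)
    exact le_trans (show C ≤ A / 150 by linarith) (le_mul_of_one_le_left (by linarith) hR)
  have h6 : 0 ≤ u * u * d * m := by have : 0 ≤ m := by linarith
                                    positivity
  linarith

variable {N K K0 C A : ℝ}
variable {xi : Finset (Finset α) → Finset (Finset α) → ℝ → (Finset α → ℝ) → ℝ}

/-- The conditions on the constants. -/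
structure UParams (K K0 C A : ℝ) : Prop where
  big : 16 ≤ K0 / 2
  hK : K ≤ K0 / 2
  hC : 1 ≤ C
  hA : 150 * C ≤ A
  small : A * cap (K0 / 2) ≤ 1 / 2
  base : 600 * C ≤ √(K0 / 2) * cap (K0 / 2)

/-- One dense step of the supersolution. -/
theorem super_step (hX : Penalty α N K C xi) (hP : UParams K K0 C A) {G B : Finset (Finset α)}
    {Y : ℝ} {w : Finset α → ℝ} (hG : Good G B Y w) (hY : K0 < Y) (hYN : Y ≤ N)
    (hT : (G.card : ℝ) * Y / 2 < 3 * ((tri G).card : ℝ)) :
    (tri G).Nonempty ∧ K0 / 2 ≤ nextY G Y ∧ nextY G Y ≤ N ∧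
    prof K0 A (nextY G Y) * ((G.card : ℝ) - 3) +
      (∑ t ∈ tri G, xi (G \ sides t) (nextB G B Y t) (nextY G Y) (nextW G B Y w t)) /
        (tri G).card ≤ prof K0 A Y * G.card + xi G B Y w := by
  obtain ⟨big, hK, hC, hA, small, base⟩ := hP
  have hY0 : 0 < Y := by linarith
  have hy : 0 < √Y := Real.sqrt_pos.2 hY0
  have hc := cap_pos hY0
  have hcap : A * cap Y ≤ 1 / 2 :=
    (mul_le_mul_of_nonneg_left (cap_anti (by linarith) (by linarith)) (by linarith)).trans small
  have hc20 : cap Y ≤ 1 / 100 := by nlinarith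
  have hbig : 600 * C ≤ √Y * cap Y := base.trans (sqrt_cap_mono (by linarith) (by linarith))
  have hp := psi_nonneg G Y w
  have hs := sq_nonneg' G w
  have hsh := shape_le_split hY0 hc20 hG
  have hu0 : 0 < √K0 / √Y := div_pos (Real.sqrt_pos.2 (by linarith)) hy
  have u1 : √K0 / √Y ≤ 1 := by rw [div_le_one hy]; exact Real.sqrt_le_sqrt hY.le
  have hAc : 0 ≤ A * cap Y := mul_nonneg (by linarith) hc.le
  have hQ0 : (0 : ℝ) < (tri G).card := by
    have : (0:ℝ) ≤ (G.card : ℝ) * Y := by positivity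
    linarith
  have hne : (tri G).Nonempty := card_pos.1 (by exact_mod_cast hQ0)
  have hd : drop G Y = 2 * (Y / (tri G).card) := by rw [drop, triNum]; ring
  have hdm : 3 * ((tri G).card : ℝ) ≤ G.card * (G.card / 2 : ℝ) := by
    rw [← sum_deg]
    refine (sum_le_sum fun e _ => (show (deg G e : ℝ) ≤ (G.card : ℝ) / 2 by
      rw [le_div_iff₀ two_pos, mul_comm]; exact_mod_cast two_deg_le e)).trans ?_
    simp
  have hm3 : (3 : ℝ) ≤ G.card := by
    obtain ⟨t, ht⟩ := hne
    have := card_le_card (mem_tri.1 ht).2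
    rw [card_sides ht] at this
    exact_mod_cast this
  have hs0 : 0 ≤ drop G Y := by rw [hd]; positivity
  have hs1 : drop G Y ≤ 1 := by
    rw [drop, triNum, div_le_one hQ0]
    nlinarith
  have hY' : K0 / 2 ≤ nextY G Y := by
    rw [nextY, le_div_iff₀ (by linarith)]; nlinarith
  have hY'N : nextY G Y ≤ N := le_trans (div_le_self hY0.le (by linarith)) hYN
  have hcap' : A * cap (nextY G Y) ≤ 1 / 2 :=
    (mul_le_mul_of_nonneg_left (cap_anti (by linarith) hY') (by linarith)).trans small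
  have hU : (∑ t ∈ tri G, xi (G \ sides t) (nextB G B Y t) (nextY G Y) (nextW G B Y w t)) /
      (tri G).card + drop G Y * (√Y * cap Y) * (psi G Y w + sq G w) ≤
      xi G B Y w + C * drop G Y * ((G.card : ℝ) * cap Y / √Y) := by
    rw [← le_sub_iff_add_le, div_le_iff₀ hQ0]
    have := hX.step G B Y w hG (hK.trans (show K0 / 2 ≤ Y by linarith)) hYN hT.le
    rw [triNum] at this
    linarith
  have hr : √(1 + drop G Y) ≤ 3 / 2 := by
    rw [Real.sqrt_le_iff]; exact ⟨by norm_num, by linarith⟩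
  have hr3 : 1 + drop G Y / 3 ≤ √(1 + drop G Y) := by
    nlinarith [Lower.le_sqrt_one_add hs0 hs1]
  have eu : √K0 / √(nextY G Y) = √K0 / √Y * √(1 + drop G Y) := by
    rw [nextY, Real.sqrt_div hY0.le, div_div_eq_mul_div]; ring
  have hgain := mul_le_mul_of_nonneg_left hr3 hu0.le
  have hgain2 := mul_le_mul_of_nonneg_left (cap_next hY0 hs0 hs1) (show 0 ≤ A by linarith)
  have hu32 : √K0 / √(nextY G Y) ≤ 3 / 2 := by
    rw [eu]; exact (mul_le_mul u1 hr (Real.sqrt_nonneg _) zero_le_one).trans_eq (one_mul _)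
  have key := upper_arith (R := √K0) (u := √K0 / √Y) (h := 3 - √K0 / √Y - A * cap Y)
    (h' := 3 - √K0 / √(nextY G Y) - A * cap (nextY G Y)) (C := C) (A := A) (c := cap Y)
    (by linarith) hQ0 hc (by linarith) hA (Real.one_le_sqrt.2 (by linarith)) rfl
    (by linarith) (by linarith)
    (by
      rw [← hd, eu]
      change 3 - √K0 / √Y * √(1 + drop G Y) - A * cap (Y / (1 + drop G Y)) + _ + _ ≤ _
      linarith)
    hm3 (hd ▸ hs1) (deficit_le G hY0 (by positivity) (by linarith)) (add_nonneg hp hs)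
    (by linarith) (by linarith) (by rw [← hd]; exact hU)
  have e : √Y / √(1 + 2 * (Y / (tri G).card)) = √(nextY G Y) := by
    rw [nextY, hd, Real.sqrt_div hY0.le]
  rw [e] at key
  refine ⟨hne, hY', hY'N, ?_⟩
  refine le_trans (le_of_eq ?_) key
  unfold prof
  ring

/-- The leave lies below the supersolution. -/
theorem leave_le_super_sharp (hX : Penalty α N K C xi) (hP : UParams K K0 C A) :
    ∀ (G B : Finset (Finset α)) (Y : ℝ) (w : Finset α → ℝ), Good G B Y w → K0 / 2 ≤ Y → Y ≤ N →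
      leave G ≤ prof K0 A Y * G.card + xi G B Y w := by
  intro G
  induction hn : G.card using Nat.strong_induction_on generalizing G with
  | _ n ih =>
    subst hn
    intro B Y w hG hY hYN
    obtain ⟨big, hK, hC, hA, small, base⟩ := hP
    have hY0 : 0 < Y := by linarith
    have hy : 0 < √Y := Real.sqrt_pos.2 hY0
    have hc := cap_pos hY0
    have hcap : A * cap Y ≤ 1 / 2 :=
      (mul_le_mul_of_nonneg_left (cap_anti (by linarith) hY) (by linarith)).trans small
    have hc20 : cap Y ≤ 1 / 100 := by nlinarith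
    have hbig : 600 * C ≤ √Y * cap Y := base.trans (sqrt_cap_mono (by linarith) hY)
    have hp := psi_nonneg G Y w
    have hs := sq_nonneg' G w
    have hge := hX.ge G B Y w hG (hK.trans hY) hYN
    have hX0 : 0 ≤ xi G B Y w :=
      nonneg_of_mul_nonneg_right (le_trans (by positivity) hge) (by linarith)
    have hsh := shape_le_split hY0 hc20 hG
    have hu0 : 0 < √K0 / √Y := div_pos (Real.sqrt_pos.2 (by linarith)) hy
    rcases le_or_gt Y K0 with hYK | hYK
    · -- base: the profile is at least one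
      have u1 : 1 ≤ √K0 / √Y := by
        rw [le_div_iff₀ hy, one_mul]; exact Real.sqrt_le_sqrt hYK
      have u2 : √K0 / √Y ≤ 3 / 2 := by
        rw [div_le_iff₀ hy, Real.sqrt_le_left (by positivity), mul_pow, Real.sq_sqrt hY0.le]
        linarith
      have : 1 ≤ prof K0 A Y := by
        unfold prof
        nlinarith
      have := mul_le_mul_of_nonneg_right this (Nat.cast_nonneg G.card : (0:ℝ) ≤ _)
      linarith [leave_le_card G]
    have u1 : √K0 / √Y ≤ 1 := by
      rw [div_le_one hy]; exact Real.sqrt_le_sqrt hYK.le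
    have hAc : 0 ≤ A * cap Y := mul_nonneg (by linarith) hc.le
    have hh3 : 3 / 2 ≤ 3 - √K0 / √Y - A * cap Y := by linarith
    have hprof : 0 ≤ prof K0 A Y * G.card :=
      mul_nonneg (mul_nonneg hu0.le (by linarith)) (Nat.cast_nonneg _)
    rcases le_or_gt (3 * ((tri G).card : ℝ)) (G.card * Y / 2) with hT | hT
    · -- few triangles: the penalty pays for all edges
      have h1 : (G.card : ℝ) ≤ 25 * Lower.shape G Y := by
        have := deficit_le G hY0 (ε := 1 / 10) (by norm_num) le_rfl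
        nlinarith
      have h3 := mul_le_mul_of_nonneg_right hbig (add_nonneg hp hs)
      have h4 : √Y * cap Y * psi G Y w ≤ √Y * psi G Y w :=
        mul_le_mul_of_nonneg_right (mul_le_of_le_one_right hy.le (by linarith)) hp
      have h5 : 600 * (psi G Y w + sq G w) ≤ xi G B Y w :=
        le_of_mul_le_mul_right (by linarith) (show 0 < C by linarith)
      linarith [leave_le_card G]
    obtain ⟨hne, hY', hY'N, key⟩ :=
      super_step hX ⟨big, hK, hC, hA, small, base⟩ hG hYK hYN hT
    refine le_trans ?_ key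
    have hrec : ∀ t ∈ tri G, leave (G \ sides t) ≤ prof K0 A (nextY G Y) * ((G.card : ℝ) - 3) +
        xi (G \ sides t) (nextB G B Y t) (nextY G Y) (nextW G B Y w t) := fun t ht => by
      have hc := congrArg (fun n : ℕ => (n : ℝ)) (Lower.card_sdiff_sides (G := G) ht)
      push_cast at hc
      have := ih _ (card_removed_lt ht) (G \ sides t) rfl (nextB G B Y t) (nextY G Y)
        (nextW G B Y w t) (hX.good G B Y w hG (hK.trans hY) hYN hT.le t ht) hY' hY'N
      rwa [show ((G \ sides t).card : ℝ) = (G.card : ℝ) - 3 by linarith] at this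
    have hQ0 : (0 : ℝ) < (tri G).card := Nat.cast_pos.2 hne.card_pos
    have hsum := sum_le_sum hrec
    simp only [sum_add_distrib, sum_const, nsmul_eq_mul, ← Lower.leave_mul hne] at hsum
    refine le_of_mul_le_mul_left (hsum.trans (le_of_eq ?_)) hQ0
    unfold prof
    field_simp

/-- From a penalty of order `n^{3/2}` at the start: `E F_n` is at most of order `n^{3/2}`. -/
theorem leave_complete_le_sharp {K C : ℝ} (hC1 : 1 ≤ C)
    (h : ∀ᶠ n : ℕ in atTop, ∃ xi, Penalty (Fin n) n K C xi ∧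
      xi (complete n) ∅ ((n : ℝ) - 2) (fun _ => 0) ≤ C * ((n : ℝ) * √n)) :
    ∃ C' : ℝ, ∀ᶠ n : ℕ in atTop, leave (complete n) ≤ C' * ((n : ℝ) * √n) := by
  set A := 150 * C
  have e1 : ∀ᶠ x : ℝ in atTop, 600 * C ≤ √x * cap x := by
    filter_upwards [(tendsto_rpow_atTop (show (0 : ℝ) < 12 / 25 by norm_num)).eventually_ge_atTop
      (600 * C), eventually_gt_atTop 0] with x hx h0
    rwa [sqrt_cap_eq h0]
  have e2 : ∀ᶠ x : ℝ in atTop, A * cap x ≤ 1 / 2 := by
    have := ((tendsto_rpow_neg_atTop (show (0 : ℝ) < 1 / 50 by norm_num)).const_mul A)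
    rw [mul_zero] at this
    exact this.eventually_le_const (by norm_num)
  obtain ⟨x, hx1, hx2, hx3⟩ := (e1.and (e2.and (eventually_ge_atTop (max 16 K)))).exists
  have hx0 : 16 ≤ x := (le_max_left _ _).trans hx3
  have hP : UParams K (2 * x) C A := by
    have hxK := (le_max_right (16 : ℝ) K).trans hx3
    refine ⟨by linarith, by linarith, hC1, le_rfl, ?_, ?_⟩ <;>
      rwa [mul_div_cancel_left₀ x two_ne_zero]
  refine ⟨6 * √(2 * x) + C, ?_⟩
  filter_upwards [h, eventually_ge_atTop (⌈x⌉₊ + 10)] with n ⟨xi, hX, hstart⟩ hn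
  have hnx : x + 10 ≤ (n : ℝ) := by
    have h1 : ((⌈x⌉₊ + 10 : ℕ) : ℝ) ≤ n := by exact_mod_cast hn
    push_cast at h1
    linarith [Nat.le_ceil x]
  have hY0 : (0 : ℝ) < (n : ℝ) - 2 := by linarith
  have hG : Good (complete n) ∅ ((n : ℝ) - 2) (fun _ => 0) := by
    refine ⟨fun e he _ => ?_, fun e => ?_⟩
    · rw [zeta, deg_complete he, Nat.cast_sub (by omega), Nat.cast_ofNat, div_self hY0.ne',
        sub_self, abs_zero]
      norm_num
    · rw [abs_zero]; exact mul_nonneg (by norm_num) (cap_pos hY0).le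
  have key := leave_le_super_sharp hX hP (complete n) ∅ ((n : ℝ) - 2) _ hG (by linarith)
    (by linarith)
  have hcard : ((complete n).card : ℝ) = n * ((n : ℝ) - 1) / 2 := by
    rw [complete, card_powersetCard, card_univ, Fintype.card_fin, Nat.cast_choose_two]
  have hy : 0 < √((n : ℝ) - 2) := Real.sqrt_pos.2 hY0
  have hc := cap_pos hY0
  have h4 : prof (2 * x) A ((n : ℝ) - 2) * (complete n).card ≤ 6 * √(2 * x) * ((n : ℝ) * √n) := by
    have h5 : prof (2 * x) A ((n : ℝ) - 2) ≤ 3 * (√(2 * x) / √((n : ℝ) - 2)) := by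
      unfold prof
      have h6 : 0 ≤ √(2 * x) / √((n : ℝ) - 2) := by positivity
      have h7 : 0 ≤ A * cap ((n : ℝ) - 2) := by positivity
      nlinarith
    have h8 : √n ≤ 2 * √((n : ℝ) - 2) := by
      rw [Real.sqrt_le_left (by positivity), mul_pow, Real.sq_sqrt hY0.le]; linarith
    refine le_trans (mul_le_mul_of_nonneg_right h5 (Nat.cast_nonneg _)) ?_
    rw [hcard, show 3 * (√(2 * x) / √((n : ℝ) - 2)) * (n * ((n : ℝ) - 1) / 2) =
      √(2 * x) * (3 * (n * ((n : ℝ) - 1) / 2)) / √((n : ℝ) - 2) by ring,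
      div_le_iff₀ hy]
    calc √(2 * x) * (3 * ((n : ℝ) * ((n : ℝ) - 1) / 2)) ≤ √(2 * x) * (3 * ((n : ℝ) * n)) := by
          gcongr
          nlinarith
      _ = √(2 * x) * (3 * n) * (√n * √n) := by rw [Real.mul_self_sqrt (Nat.cast_nonneg n)]; ring
      _ ≤ √(2 * x) * (3 * n) * (√n * (2 * √((n : ℝ) - 2))) := by gcongr
      _ = _ := by ring
  linarith

end Vale.Agent.P046.Sharp
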